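import Vale.Agent.P353.AN.SGN.Stmt
import Vale.Agent.P353.AN.NF.Reg

/-! # P353, all `N`, block SGN: adjoint matrices are symmetries (`AdSymStmt`) -/

open MeasureTheory Filter Topology Matrix
open scoped ContDiff

namespace Vale.Agent.P353.Z.AS

universe u

namespace As518

variable {N d : ℕ} {T : Fin d → Matrix (Fin N) (Fin N) ℂ} {f : Fin d → Fin d → Fin d → ℝ}

lemma real (hb : Bas N d T f) (U : BFSS.SU N) (B A : Fin d) :
    (T B * (U.val * T A * U.val.conjTranspose)).trace = ((adO T U B A : ℝ) : ℂ) := by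
  rw [adO, Matrix.of_apply, BFSS.adCoeff]
  symm
  rw [← Complex.conj_eq_iff_re]
  have h1 : (T B * (U.val * T A * U.val.conjTranspose)).conjTranspose.trace =
      star (T B * (U.val * T A * U.val.conjTranspose)).trace :=
    Matrix.trace_conjTranspose _
  rw [Matrix.conjTranspose_mul, Matrix.conjTranspose_mul, Matrix.conjTranspose_mul,
    Matrix.conjTranspose_conjTranspose, hb.herm, hb.herm, ← Matrix.mul_assoc U.val,
    Matrix.trace_mul_comm] at h1
  exact h1.symm

lemma unit1 (V : BFSS.SU N) : V.val.conjTranspose * V.val = 1 :=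
  (Unitary.mem_iff.1 (Matrix.mem_specialUnitaryGroup_iff.1 V.2).1).1

lemma unit2 (V : BFSS.SU N) : V.val * V.val.conjTranspose = 1 :=
  (Unitary.mem_iff.1 (Matrix.mem_specialUnitaryGroup_iff.1 V.2).1).2

/-- `V T_A V* = ∑ ad(V)_{CA} T_C` -/
lemma conj (hb : Bas N d T f) (hN : 0 < N) (V : BFSS.SU N) (A : Fin d) :
    V.val * T A * V.val.conjTranspose = ∑ C, ((adO T V C A : ℝ) : ℂ) • T C := by
  have h := ANF.nr775_complete hb hN (V.val * T A * V.val.conjTranspose)
  have ht : (V.val * T A * V.val.conjTranspose).trace = 0 := by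
    rw [Matrix.trace_mul_comm, ← Matrix.mul_assoc, unit1, one_mul, hb.tr0]
  rw [ht, zero_div, zero_smul, add_zero] at h
  rw [h]
  refine Finset.sum_congr rfl fun C _ => ?_
  rw [real hb]

lemma ad_mul (hb : Bas N d T f) (hN : 0 < N) (U V : BFSS.SU N) : adO T (U * V) = adO T U * adO T V := by
  ext B A
  have h1 : (U * V).val * T A * (U * V).val.conjTranspose =
      ∑ C, ((adO T V C A : ℝ) : ℂ) • (U.val * T C * U.val.conjTranspose) := by
    have e : (U * V).val * T A * (U * V).val.conjTranspose =
        U.val * (V.val * T A * V.val.conjTranspose) * U.val.conjTranspose := by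
      change U.val * V.val * T A * (U.val * V.val).conjTranspose = _
      rw [Matrix.conjTranspose_mul]
      simp only [Matrix.mul_assoc]
    rw [e, conj hb hN V A, Finset.mul_sum, Finset.sum_mul]
    refine Finset.sum_congr rfl fun C _ => ?_
    rw [Matrix.mul_smul, Matrix.smul_mul]
  have h2 : ((adO T (U * V) B A : ℝ) : ℂ) = (((adO T U * adO T V) B A : ℝ) : ℂ) := by
    rw [← real hb (U * V) B A, h1, Finset.mul_sum, Matrix.trace_sum, Matrix.mul_apply]
    push_cast
    refine Finset.sum_congr rfl fun C _ => ?_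
    rw [Matrix.mul_smul, Matrix.trace_smul, real hb, smul_eq_mul, mul_comm]
  exact_mod_cast h2

lemma ad_orth (hb : Bas N d T f) (hN : 0 < N) (V : BFSS.SU N) : adO T V * (adO T V)ᵀ = 1 := by
  have h1 : ∀ A B, (T A * T B).trace = ((((adO T V)ᵀ * adO T V) A B : ℝ) : ℂ) := by
    intro A B
    have e1 : (T A * T B).trace =
        ((V.val * T A * V.val.conjTranspose) * (V.val * T B * V.val.conjTranspose)).trace := by
      have e2 : (V.val * T A * V.val.conjTranspose) * (V.val * T B * V.val.conjTranspose) =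
          V.val * (T A * (V.val.conjTranspose * V.val) * T B) * V.val.conjTranspose := by
        simp only [Matrix.mul_assoc]
      rw [e2, unit1, Matrix.mul_one, Matrix.trace_mul_comm (V.val * (T A * T B)) V.val.conjTranspose, ← Matrix.mul_assoc,
        unit1, Matrix.one_mul]
    rw [e1, conj hb hN V A, Finset.sum_mul, Matrix.trace_sum, Matrix.mul_apply]
    push_cast
    refine Finset.sum_congr rfl fun C _ => ?_
    rw [Matrix.smul_mul, Matrix.trace_smul, real hb, smul_eq_mul, Matrix.transpose_apply]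
  have h2 : (adO T V)ᵀ * adO T V = 1 := by
    ext A B
    have h3 := h1 A B
    rw [hb.ortho] at h3
    rw [Matrix.one_apply]
    split_ifs at h3 ⊢
    · exact_mod_cast h3.symm
    · exact_mod_cast h3.symm
  exact mul_eq_one_comm.1 h2

lemma ad_inv (hb : Bas N d T f) (hN : 0 < N) (V : BFSS.SU N) (A B C : Fin d) :
    ∑ A', ∑ B', ∑ C', adO T V A' A * adO T V B' B * adO T V C' C * f A' B' C' = f A B C := by
  have h1 : Complex.I * ((∑ A', ∑ B', ∑ C', adO T V A' A * adO T V B' B * adO T V C' C * f A' B' C' : ℝ) : ℂ) =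
      (((V.val * T A * V.val.conjTranspose) * (V.val * T B * V.val.conjTranspose) -
        (V.val * T B * V.val.conjTranspose) * (V.val * T A * V.val.conjTranspose)) *
        (V.val * T C * V.val.conjTranspose)).trace := by
    have e1 : ((∑ A', ((adO T V A' A : ℝ) : ℂ) • T A') * (∑ B', ((adO T V B' B : ℝ) : ℂ) • T B') -
        (∑ B', ((adO T V B' B : ℝ) : ℂ) • T B') * (∑ A', ((adO T V A' A : ℝ) : ℂ) • T A')) *
        (∑ C', ((adO T V C' C : ℝ) : ℂ) • T C') =
        ∑ A', ∑ B', ∑ C', (((adO T V A' A * adO T V B' B * adO T V C' C : ℝ) : ℂ)) •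
          ((T A' * T B' - T B' * T A') * T C') := by
      have e2 : (∑ A', ((adO T V A' A : ℝ) : ℂ) • T A') * (∑ B', ((adO T V B' B : ℝ) : ℂ) • T B') -
          (∑ B', ((adO T V B' B : ℝ) : ℂ) • T B') * (∑ A', ((adO T V A' A : ℝ) : ℂ) • T A') =
          ∑ A', ∑ B', ((adO T V A' A * adO T V B' B : ℝ) : ℂ) • (T A' * T B' - T B' * T A') := by
        rw [Finset.sum_mul_sum, Finset.sum_mul_sum, Finset.sum_comm (f := fun B' A' =>
          ((adO T V B' B : ℝ) : ℂ) • T B' * ((adO T V A' A : ℝ) : ℂ) • T A'), ← Finset.sum_sub_distrib]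
        refine Finset.sum_congr rfl fun A' _ => ?_
        rw [← Finset.sum_sub_distrib]
        refine Finset.sum_congr rfl fun B' _ => ?_
        rw [Matrix.smul_mul, Matrix.mul_smul, Matrix.smul_mul, Matrix.mul_smul, smul_smul, smul_smul, smul_sub,
          Complex.ofReal_mul, mul_comm ((adO T V B' B : ℝ) : ℂ)]
      rw [e2, Finset.sum_mul]
      refine Finset.sum_congr rfl fun A' _ => ?_
      rw [Finset.sum_mul]
      refine Finset.sum_congr rfl fun B' _ => ?_
      rw [Finset.mul_sum]
      refine Finset.sum_congr rfl fun C' _ => ?_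
      rw [Matrix.smul_mul, Matrix.mul_smul, smul_smul]
      congr 1
      push_cast
      ring
    rw [conj hb hN V A, conj hb hN V B, conj hb hN V C, e1]
    simp only [Matrix.trace_sum, Matrix.trace_smul, ← ANF.nr775_f hb, smul_eq_mul]
    push_cast
    simp only [Finset.mul_sum]
    refine Finset.sum_congr rfl fun A' _ => Finset.sum_congr rfl fun B' _ => Finset.sum_congr rfl fun C' _ => ?_
    ring
  have h2 : (((V.val * T A * V.val.conjTranspose) * (V.val * T B * V.val.conjTranspose) -
        (V.val * T B * V.val.conjTranspose) * (V.val * T A * V.val.conjTranspose)) *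
        (V.val * T C * V.val.conjTranspose)).trace = ((T A * T B - T B * T A) * T C).trace := by
    have e3 : ∀ X Y : Matrix (Fin N) (Fin N) ℂ, (V.val * X * V.val.conjTranspose) * (V.val * Y * V.val.conjTranspose) =
        V.val * (X * Y) * V.val.conjTranspose := by
      intro X Y
      have e4 : (V.val * X * V.val.conjTranspose) * (V.val * Y * V.val.conjTranspose) =
          V.val * (X * (V.val.conjTranspose * V.val) * Y) * V.val.conjTranspose := by
        simp only [Matrix.mul_assoc]
      rw [e4, unit1, Matrix.mul_one]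
    rw [e3, e3, ← Matrix.sub_mul, ← Matrix.mul_sub, e3, Matrix.trace_mul_comm, ← Matrix.mul_assoc, unit1, Matrix.one_mul]
  rw [h2, ← ANF.nr775_f hb] at h1
  have h3 := mul_left_cancel₀ Complex.I_ne_zero h1
  exact_mod_cast h3

end As518

open As518 in
/-- **SGN-S19** -/
theorem adSym_stmt : AdSymStmt.{u} := by
  intro N d F _ _ T S hb
  rcases Nat.eq_zero_or_pos N with hN | hN
  · have hd : d = 0 := by rw [hb.dim_eq, hN]; rfl
    subst hd
    refine ⟨fun V => ⟨?_, fun A => A.elim0⟩, fun V W => ?_⟩
    · ext A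
      exact A.elim0
    · ext A
      exact A.elim0
  · exact ⟨fun V => ⟨ad_orth hb hN V, ad_inv hb hN V⟩, fun V W => ad_mul hb hN V W⟩

end Vale.Agent.P353.Z.AS
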