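import Vale.Agent.P353.AN.SGN.Stmt
import Vale.Agent.P353.AN.X.VecSp

/-! # P353, all `N`, block SGN: the collision set in terms of `D` (S12, prover helper595) -/

open MeasureTheory Filter Topology Matrix
open scoped ContDiff

namespace Vale.Agent.P353.Z.AS

private theorem clc_sum {dm : ℕ} {ι : Type*} (s : Finset ι) (E : Matrix (Fin dm) (Fin dm) ℝ)
    (f : ι → Fin dm → ℝ) : ∑ a ∈ s, sp E (f a) = sp E (fun k => ∑ a ∈ s, f a k) := by
  have h : (diagonal fun k => ∑ a ∈ s, f a k : Matrix (Fin dm) (Fin dm) ℝ) = ∑ a ∈ s, diagonal (f a) := by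
    ext p q
    rw [Matrix.sum_apply]
    rcases eq_or_ne p q with h | h
    · subst h
      simp
    · simp [Matrix.diagonal_apply_ne _ h]
  unfold sp
  rw [h, Finset.mul_sum, Finset.sum_mul]

private theorem clc_cast (i : Fin 9) (hi : i ≠ 8) : ∃ j : Fin 8, j.castSucc = i := by
  refine ⟨⟨i.val, ?_⟩, ?_⟩
  · have h1 := i.isLt
    have h2 : i.val ≠ 8 := fun h => hi (Fin.ext h)
    omega
  · ext
    rfl

private theorem clc_cast_ne (j : Fin 8) : j.castSucc ≠ (8 : Fin 9) := by
  intro h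
  have h1 := congrArg Fin.val h
  have h2 := j.isLt
  simp at h1
  omega

private theorem clc_sq (z : Fin 9 → ℝ) :
    ∑ i ∈ Finset.univ.erase (8 : Fin 9), -(z i * z i) ≠ 0 ↔ ¬ ∀ j : Fin 8, z j.castSucc = 0 := by
  refine not_congr ?_
  rw [Finset.sum_neg_distrib, neg_eq_zero, Finset.sum_eq_zero_iff_of_nonneg fun i _ => mul_self_nonneg (z i)]
  constructor
  · intro h j
    exact mul_self_eq_zero.1 (h j.castSucc (Finset.mem_erase.2 ⟨clc_cast_ne j, Finset.mem_univ _⟩))
  · intro h i hi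
    obtain ⟨j, rfl⟩ := clc_cast i (Finset.mem_erase.1 hi).1
    rw [h j, mul_zero]

/-- **S12 Coll** the collision set in terms of `D` -/
theorem coll_stmt : CollStmt := by
  intro r dm M t Kc E l h η
  obtain ⟨h1, -, h3, -, -, h6, -, -, -⟩ := AX.spS dm E h.orth
  have eD : ∀ i, DM M η i = sp E (fun k => zk (l k) η i) * Kc := by
    intro i
    have e1 : sp E (fun k => zk (l k) η i) = ∑ a, sp E (fun k => l k a * η (i, a)) :=
      (clc_sum Finset.univ E (fun a k => l k a * η (i, a))).symm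
    rw [DM, e1, Finset.sum_mul]
    refine Finset.sum_congr rfl fun a _ => ?_
    rw [h.M_eq a, ← smul_mul_assoc, h3]
    congr 2
    funext k
    ring
  have eDD : ∀ i, DM M η i * DM M η i = sp E (fun k => -(zk (l k) η i * zk (l k) η i)) := by
    intro i
    have e2 : sp E (fun k => -(zk (l k) η i * zk (l k) η i)) = (-1 : ℝ) • sp E (fun k => zk (l k) η i * zk (l k) η i) := by
      rw [h3]
      congr 1
      funext k
      ring
    rw [eD, Matrix.mul_assoc, ← Matrix.mul_assoc Kc, h.comm (fun x => zk x η i), Matrix.mul_assoc, h.sq, mul_neg,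
      mul_one, mul_neg, h1, e2, neg_one_smul]
  rw [Finset.sum_congr rfl fun i _ => eDD i, clc_sum, h6, Finset.prod_ne_zero_iff]
  constructor
  · intro hη k _
    refine (clc_sq fun i => zk (l k) η i).2 fun h0 => hη ?_
    exact ⟨l k, Finset.mem_image_of_mem _ (Finset.mem_univ k), h0⟩
  · rintro hη ⟨l', hl', h0⟩
    obtain ⟨k, -, rfl⟩ := Finset.mem_image.1 hl'
    exact (clc_sq fun i => zk (l k) η i).1 (hη k (Finset.mem_univ k)) h0

end Vale.Agent.P353.Z.AS
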