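import Vale.Agent.P353.AN.SGN.Stmt
import Vale.Agent.P353.AN.X2.VcaIrr
import Vale.Agent.P353.AN.X2.Main
import Vale.Agent.P353.AN.X2.Zms
import Vale.Agent.P353.Z.U.Pack

/-! # P353, all `N`, block SGN: S18 Comb (helper249) -/

open MeasureTheory Filter Topology Matrix
open scoped ContDiff

namespace Vale.Agent.P353.Z.AS

universe u

variable {d dh dm ds dz : ℕ} {F : Type u} [NormedAddCommGroup F] [InnerProductSpace ℂ F]

/-- a sum over all colours of terms supported on the `s` colours -/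
lemma s249_sum {M : Type*} [AddCommMonoid M] (φ : Spl dh dm d) (ψ : Spl ds dz dh) (g : Fin d → M)
    (h1 : ∀ B, g (φ (Sum.inr B)) = 0) (h2 : ∀ B, g (φ (Sum.inl (ψ (Sum.inr B)))) = 0) :
    ∑ B, g B = ∑ A : Fin ds, g (φ (Sum.inl (ψ (Sum.inl A)))) := by
  rw [← φ.sum_comp, Fintype.sum_sum_type]
  simp only [h1, Finset.sum_const_zero, add_zero]
  rw [← ψ.sum_comp, Fintype.sum_sum_type]
  simp only [h2, Finset.sum_const_zero, add_zero]

lemma s249_orth (φ : Spl dh dm d) (ψ : Spl ds dz dh) {O : Matrix (Fin d) (Fin d) ℝ} (hO : O * Oᵀ = 1)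
    (hB : Blk φ ψ O) : sO φ ψ O * (sO φ ψ O)ᵀ = 1 := by
  ext A B
  have h := congrFun (congrFun hO (φ (Sum.inl (ψ (Sum.inl A))))) (φ (Sum.inl (ψ (Sum.inl B))))
  rw [Matrix.mul_apply] at h
  rw [s249_sum φ ψ _ (fun C => by simp [hB.hm]) (fun C => by simp [hB.sz])] at h
  rw [Matrix.mul_apply]
  refine Eq.trans ?_ (h.trans ?_)
  · rfl
  · by_cases hAB : A = B
    · rw [hAB, Matrix.one_apply_eq, Matrix.one_apply_eq]
    · rw [Matrix.one_apply_ne hAB, Matrix.one_apply_ne]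
      intro h3
      exact hAB (Sum.inl_injective (ψ.injective (Sum.inl_injective (φ.injective h3))))

/-- **S18 Comb** -/
theorem comb_stmt
    (hRst : ∀ {d : ℕ} {F : Type u} [NormedAddCommGroup F] [InnerProductSpace ℂ F] (S : Setup d F), AX2.RstStmt S) :
    CombStmt.{u} := by
  intro d dh dm ds dz F _ _ hfd S φ ψ z₀ h hI hne L Om K U hB O G hSym hBlk hImp hSS η hG Ψ hΨ
  have hA := AX2.x2m_ant h
  have hI2 := AX2.x2m_irr2 h hI hne hB
  obtain ⟨hV, ζ, hζ, hζ1, hζA, hζu⟩ := AX2.vci_main h.ss (AX2.czs h) hfd hA K hI2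
  have hGv : Gv S φ K ζ := ⟨hζ.1, fun A α => by
    obtain ⟨p, rfl⟩ := ψ.surjective A
    rcases p with a | a
    · exact hζA a α
    · exact hζ.2 a α⟩
  have hUn : ∀ (y : Cfg dz) (v : F), ‖U y v‖ = ‖v‖ := by
    intro y v
    rw [norm_eq_sqrt_re_inner (𝕜 := ℂ), norm_eq_sqrt_re_inner (𝕜 := ℂ), hB.U_inner]
  obtain ⟨η', hη'⟩ : ∃ y, y = ro (zO φ ψ O) η := ⟨_, rfl⟩
  rw [← hη'] at hG ⊢
  -- the inverse of `U η'`
  obtain ⟨Ui, hUi1, hUi2, hUi3⟩ : ∃ Ui : F →L[ℂ] F, (∀ v, Ui (U η' v) = v) ∧ (∀ v, U η' (Ui v) = v) ∧ ∀ v, ‖Ui v‖ = ‖v‖ := by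
    let e : F ≃ₗᵢ[ℂ] F := LinearIsometryEquiv.ofSurjective ⟨(U η' : F →ₗ[ℂ] F), hUn η'⟩ (hB.U_surj η')
    refine ⟨(e.symm.toContinuousLinearEquiv : F →L[ℂ] F), fun v => e.symm_apply_apply v, fun v => e.apply_symm_apply v,
      fun v => e.symm.norm_map v⟩
  have hUc : ∀ (y : Cfg dz) α A v, U y (S.th α (φ (Sum.inl A)) v) = S.th α (φ (Sum.inl A)) (U y v) := fun y α A v =>
    congrArg (fun T : F →L[ℂ] F => T v) (hB.U_comm y α A)
  have hUic : ∀ α A v, Ui (S.th α (φ (Sum.inl A)) v) = S.th α (φ (Sum.inl A)) (Ui v) := by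
    intro α A v
    have h1 : U η' (S.th α (φ (Sum.inl A)) (Ui v)) = S.th α (φ (Sum.inl A)) v := by rw [hUc, hUi2]
    rw [← h1, hUi1]
  obtain ⟨W0, hW0⟩ : ∃ W0 : F →L[ℂ] F, ∀ v, W0 v = Ui (G (U η v)) := ⟨Ui.comp (G.comp (U η)), fun v => rfl⟩
  have hW_th : ∀ α (A : Fin ds) v, W0 (h.ss.th α A v) = ∑ B, ((sO φ ψ O B A : ℝ) : ℂ) • h.ss.th α B (W0 v) := by
    intro α A v
    have h1 : G (S.th α (φ (Sum.inl (ψ (Sum.inl A)))) (U η v)) =
        ∑ B, ((O B (φ (Sum.inl (ψ (Sum.inl A)))) : ℝ) : ℂ) • S.th α B (G (U η v)) := by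
      have h2 := congrArg (fun T : F →L[ℂ] F => T (U η v)) (hImp.imp α (φ (Sum.inl (ψ (Sum.inl A)))))
      simpa [_root_.sum_apply] using h2
    rw [s249_sum φ ψ _ (fun B => by simp [hBlk.mh]) (fun B => by simp [hBlk.zs])] at h1
    rw [AX2.x2m_ss_th, hW0, hUc, h1, map_sum]
    refine Finset.sum_congr rfl fun B _ => ?_
    rw [map_smul, hUic, AX2.x2m_ss_th, hW0]
    rfl
  have hWζ : W0 ζ = ζ := by rw [hW0, hG ζ hGv, hUi1]
  have hWn : ∀ v, ‖W0 v‖ = ‖v‖ := fun v => by rw [hW0, hUi3, hImp.norm, hUn]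
  have hζ0 : ζ ≠ 0 := fun h0 => by rw [h0, norm_zero] at hζ1; exact zero_ne_one hζ1
  have hWV : ∀ v ∈ vca (AX2.czs h) K, W0 v ∈ vca (AX2.czs h) K := by
    have h1 := hV.irr (vca (AX2.czs h) K ⊓ (vca (AX2.czs h) K).comap (W0 : F →ₗ[ℂ] F)) inf_le_left ?_
    · rcases h1 with h1 | h1
      · exfalso
        have h2 : ζ ∈ vca (AX2.czs h) K ⊓ (vca (AX2.czs h) K).comap (W0 : F →ₗ[ℂ] F) := by
          refine ⟨hζ, ?_⟩
          change W0 ζ ∈ vca (AX2.czs h) K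
          rw [hWζ]
          exact hζ
        rw [h1, Submodule.mem_bot] at h2
        exact hζ0 h2
      · intro v hv
        rw [← h1] at hv
        exact hv.2
    · rintro α A v ⟨hv1, hv2⟩
      refine ⟨hV.inv α A v hv1, ?_⟩
      change W0 (h.ss.th α A v) ∈ vca (AX2.czs h) K
      rw [hW_th]
      exact Submodule.sum_mem _ fun B _ => Submodule.smul_mem _ _ (hV.inv α B _ hv2)
  have hImpR : Imp (h.ss.rst (vca (AX2.czs h) K) hV.inv) (sO φ ψ O) (opR (vca (AX2.czs h) K) W0 hWV) := by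
    refine ⟨s249_orth φ ψ hImp.orth hBlk, fun α A => ?_, fun v => hWn v, fun v hv => ?_⟩
    · ext1 v
      apply Subtype.ext
      have h1 := hW_th α A (v : F)
      have h2 : (((opR (vca (AX2.czs h) K) W0 hWV * (h.ss.rst (vca (AX2.czs h) K) hV.inv).th α A) v :
          vca (AX2.czs h) K) : F) = W0 (h.ss.th α A v) := rfl
      rw [h2, h1, _root_.sum_apply, Submodule.coe_sum]
      rfl
    · apply Subtype.ext
      obtain ⟨c, hc⟩ := hζu v v.2 (fun A α => by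
        rw [← AX2.vci_amF_rst h.ss _ hV.inv, hv A α]
        rfl)
      change W0 (v : F) = v
      rw [hc, map_smul, hWζ]
  -- the zero mode
  obtain ⟨hZ1, hZ2⟩ := (AX2.zms_stmt h.ss (vca (AX2.czs h) K) Ψ).1 hΨ
  obtain ⟨hR1, hR2⟩ := hRst h.ss hfd (vca (AX2.czs h) K) hV.inv
  obtain ⟨Ψ', hΨ'⟩ := hR2 Ψ hZ2
  have hZ3 : (h.ss.rst (vca (AX2.czs h) K) hV.inv).IsZM Ψ' := by
    rw [hR1, ← hΨ']
    exact hZ1
  have hmain := hSS (vca (AX2.czs h) K) inferInstance (h.ss.rst (vca (AX2.czs h) K) hV.inv) rfl rfl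
    (AX2.x2m_rst_irr _ _ _ hV) ⟨⟨ζ, hζ⟩, fun h0 => hζ0 (congrArg Subtype.val h0)⟩ _ hImpR Ψ' hZ3
  have hae : ∀ᵐ x ∂(volume : Measure (Cfg ds)), Ψ x = ((Ψ' x : vca (AX2.czs h) K) : F) := by
    rw [hΨ']
    exact (vca (AX2.czs h) K).subtypeL.coeFn_compLpL Ψ'
  have horth : (sO φ ψ O)ᵀ * sO φ ψ O = 1 := mul_eq_one_comm.1 (s249_orth φ ψ hImp.orth hBlk)
  have hae2 : ∀ᵐ x ∂(volume : Measure (Cfg ds)), Ψ (ro (sO φ ψ O) x) = ((Ψ' (ro (sO φ ψ O) x) : vca (AX2.czs h) K) : F) :=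
    (Vale.Agent.P353.Z.U.pack_roE (sO φ ψ O) horth).measurePreserving.quasiMeasurePreserving.ae hae
  filter_upwards [hmain, hae, hae2] with x h1 h2 h3
  rw [h3, ← h1, h2]
  change G (U η (Ψ' x : F)) = U η' (W0 (Ψ' x : F))
  rw [hW0, hUi2]

end Vale.Agent.P353.Z.AS
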