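import Vale.Agent.P353.AN.SGN.Stmt
import Vale.Agent.P353.AN.X.VecSp

/-! # P353, all `N`, block SGN, S6 Cov: covariance of the complex structures -/

open MeasureTheory Filter Topology Matrix
open scoped ContDiff

namespace Vale.Agent.P353.Z.AS

variable {d dh dm ds dz : ℕ} {F : Type*} [NormedAddCommGroup F] [InnerProductSpace ℂ F]

/-! ### entries of the complex structure -/

lemma cv76_hh (S : Setup d F) (φ : Spl dh dm d) (D : Fin 9 → Matrix (Fin dm) (Fin dm) ℝ)
    (Om : Matrix (Fin dm) (Fin dm) ℝ) (c s : ℝ) (α β : Fin 16) (A B : Fin dh) :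
    JF S φ D Om c s (α, φ (Sum.inl A)) (β, φ (Sum.inl B)) = if A = B then S.Gam α β else 0 := by
  simp only [JF, Matrix.of_apply, Equiv.symm_apply_apply, Sum.elim_inl]

lemma cv76_hm (S : Setup d F) (φ : Spl dh dm d) (D : Fin 9 → Matrix (Fin dm) (Fin dm) ℝ)
    (Om : Matrix (Fin dm) (Fin dm) ℝ) (c s : ℝ) (α β : Fin 16) (A : Fin dh) (B : Fin dm) :
    JF S φ D Om c s (α, φ (Sum.inl A)) (β, φ (Sum.inr B)) = 0 := by
  simp only [JF, Matrix.of_apply, Equiv.symm_apply_apply, Sum.elim_inl, Sum.elim_inr]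

lemma cv76_mh (S : Setup d F) (φ : Spl dh dm d) (D : Fin 9 → Matrix (Fin dm) (Fin dm) ℝ)
    (Om : Matrix (Fin dm) (Fin dm) ℝ) (c s : ℝ) (α β : Fin 16) (A : Fin dm) (B : Fin dh) :
    JF S φ D Om c s (α, φ (Sum.inr A)) (β, φ (Sum.inl B)) = 0 := by
  simp only [JF, Matrix.of_apply, Equiv.symm_apply_apply, Sum.elim_inl, Sum.elim_inr]

lemma cv76_mm (S : Setup d F) (φ : Spl dh dm d) (D : Fin 9 → Matrix (Fin dm) (Fin dm) ℝ)
    (Om : Matrix (Fin dm) (Fin dm) ℝ) (c s : ℝ) (α β : Fin 16) (A B : Fin dm) :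
    JF S φ D Om c s (α, φ (Sum.inr A)) (β, φ (Sum.inr B)) =
      (c : ℂ) * ((S.κ : ℂ) * ∑ i, S.g i α β * (((Om⁻¹ * D i) A B : ℝ) : ℂ)) +
      (s : ℂ) * (if A = B then S.Gam α β else 0) := by
  simp only [JF, Matrix.of_apply, Equiv.symm_apply_apply, Sum.elim_inr]

lemma cv76_cTl (O : Matrix (Fin d) (Fin d) ℝ) (X : Matrix (Fin 16 × Fin d) (Fin 16 × Fin d) ℂ)
    (α : Fin 16) (a : Fin d) (r : Fin 16 × Fin d) :
    (cT O * X) (α, a) r = ∑ a', ((O a a' : ℝ) : ℂ) * X (α, a') r := by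
  rw [Matrix.mul_apply, Fintype.sum_prod_type, Finset.sum_eq_single α]
  · refine Finset.sum_congr rfl fun a' _ => ?_
    simp only [cT, Matrix.of_apply, if_true]
  · intro β _ hβ
    refine Finset.sum_eq_zero fun a' _ => ?_
    simp only [cT, Matrix.of_apply, if_neg (Ne.symm hβ), zero_mul]
  · intro h
    exact absurd (Finset.mem_univ α) h

lemma cv76_cTr (O : Matrix (Fin d) (Fin d) ℝ) (X : Matrix (Fin 16 × Fin d) (Fin 16 × Fin d) ℂ)
    (β : Fin 16) (b : Fin d) (r : Fin 16 × Fin d) :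
    (X * cT O) r (β, b) = ∑ b', X r (β, b') * ((O b' b : ℝ) : ℂ) := by
  rw [Matrix.mul_apply, Fintype.sum_prod_type, Finset.sum_eq_single β]
  · refine Finset.sum_congr rfl fun a' _ => ?_
    simp only [cT, Matrix.of_apply, if_true]
  · intro γ _ hγ
    refine Finset.sum_eq_zero fun a' _ => ?_
    simp only [cT, Matrix.of_apply, if_neg hγ, mul_zero]
  · intro h
    exact absurd (Finset.mem_univ β) h

lemma cv76_sTl (g : Matrix (Fin 16) (Fin 16) ℂ) (X : Matrix (Fin 16 × Fin d) (Fin 16 × Fin d) ℂ)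
    (α : Fin 16) (a : Fin d) (r : Fin 16 × Fin d) :
    ((sT g : Matrix (Fin 16 × Fin d) (Fin 16 × Fin d) ℂ) * X) (α, a) r = ∑ α', g α α' * X (α', a) r := by
  rw [Matrix.mul_apply, Fintype.sum_prod_type]
  refine Finset.sum_congr rfl fun α' _ => ?_
  rw [Finset.sum_eq_single a]
  · simp only [sT, Matrix.of_apply, if_true]
  · intro b _ hb
    simp only [sT, Matrix.of_apply, if_neg (Ne.symm hb), zero_mul]
  · intro h
    exact absurd (Finset.mem_univ a) h

lemma cv76_sTr (g : Matrix (Fin 16) (Fin 16) ℂ) (X : Matrix (Fin 16 × Fin d) (Fin 16 × Fin d) ℂ)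
    (β : Fin 16) (b : Fin d) (r : Fin 16 × Fin d) :
    (X * (sT g : Matrix (Fin 16 × Fin d) (Fin 16 × Fin d) ℂ)) r (β, b) = ∑ β', X r (β', b) * g β' β := by
  rw [Matrix.mul_apply, Fintype.sum_prod_type]
  refine Finset.sum_congr rfl fun β' _ => ?_
  rw [Finset.sum_eq_single b]
  · simp only [sT, Matrix.of_apply, if_true]
  · intro a _ ha
    simp only [sT, Matrix.of_apply, if_neg ha, mul_zero]
  · intro h
    exact absurd (Finset.mem_univ b) h

/-! ### colour rotations -/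

/-- the `m` part of `O` -/
noncomputable def cv76_P (φ : Spl dh dm d) (O : Matrix (Fin d) (Fin d) ℝ) : Matrix (Fin dm) (Fin dm) ℝ :=
  Matrix.of fun A B => O (φ (Sum.inr A)) (φ (Sum.inr B))

lemma cv76_PP {φ : Spl dh dm d} {ψ : Spl ds dz dh} {O : Matrix (Fin d) (Fin d) ℝ} (hO : O * Oᵀ = 1)
    (hb : Blk φ ψ O) : cv76_P φ O * (cv76_P φ O)ᵀ = 1 := by
  ext A B
  have h := congrFun (congrFun hO (φ (Sum.inr A))) (φ (Sum.inr B))
  rw [Matrix.mul_apply, ← φ.sum_comp, Fintype.sum_sum_type] at h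
  simp only [Matrix.transpose_apply, hb.mh, zero_mul, Finset.sum_const_zero, zero_add] at h
  rw [Matrix.mul_apply]
  simp only [cv76_P, Matrix.of_apply, Matrix.transpose_apply]
  rw [h, Matrix.one_apply, Matrix.one_apply]
  simp only [EmbeddingLike.apply_eq_iff_eq, Sum.inr.injEq]

/-- transfer of the invariance of `f` -/
lemma cv76_f {S : Setup d F} {O : Matrix (Fin d) (Fin d) ℝ} (h : Sym S O) (E B C : Fin d) :
    ∑ A, O E A * S.f A B C = ∑ B', ∑ C', O B' B * O C' C * S.f E B' C' := by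
  have h1 : ∀ A, O E A * S.f A B C = ∑ A', ∑ B', ∑ C', (O E A * O A' A) * (O B' B * O C' C * S.f A' B' C') := by
    intro A
    rw [← h.inv A B C]
    simp only [Finset.mul_sum]
    refine Finset.sum_congr rfl fun A' _ => Finset.sum_congr rfl fun B' _ =>
      Finset.sum_congr rfl fun C' _ => ?_
    ring
  simp only [h1]
  rw [Finset.sum_comm]
  have h2 : ∀ A', ∑ A, O E A * O A' A = if E = A' then 1 else 0 := by
    intro A'
    have h3 := congrFun (congrFun h.orth E) A'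
    rw [Matrix.mul_apply] at h3
    simpa only [Matrix.transpose_apply, Matrix.one_apply] using h3
  have h4 : ∀ A', ∑ A, ∑ B', ∑ C', (O E A * O A' A) * (O B' B * O C' C * S.f A' B' C') =
      (if E = A' then 1 else 0) * ∑ B', ∑ C', (O B' B * O C' C * S.f A' B' C') := by
    intro A'
    rw [← h2 A', Finset.sum_mul]
    refine Finset.sum_congr rfl fun A _ => ?_
    simp only [Finset.mul_sum]
  simp only [h4, ite_mul, one_mul, zero_mul, Finset.sum_ite_eq, Finset.mem_univ, if_true]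

lemma cv76_Mz {S : Setup d F} {φ : Spl dh dm d} {ψ : Spl ds dz dh} {O : Matrix (Fin d) (Fin d) ℝ}
    (h : Sym S O) (hb : Blk φ ψ O) (b : Fin dz) :
    cv76_P φ O * AX.Mz S φ ψ b = (∑ b', zO φ ψ O b' b • AX.Mz S φ ψ b') * cv76_P φ O := by
  ext E C
  have h1 := cv76_f h (φ (Sum.inr E)) (φ (Sum.inl (ψ (Sum.inr b)))) (φ (Sum.inr C))
  rw [← φ.sum_comp, Fintype.sum_sum_type] at h1
  simp only [hb.mh, zero_mul, Finset.sum_const_zero, zero_add] at h1
  rw [← φ.sum_comp, Fintype.sum_sum_type] at h1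
  have h2 : ∀ B' : Fin dm, ∑ C', O (φ (Sum.inr B')) (φ (Sum.inl (ψ (Sum.inr b)))) * O C' (φ (Sum.inr C)) *
      S.f (φ (Sum.inr E)) (φ (Sum.inr B')) C' = 0 := by
    intro B'
    refine Finset.sum_eq_zero fun C' _ => ?_
    rw [hb.mh, zero_mul, zero_mul]
  simp only [h2, Finset.sum_const_zero, add_zero] at h1
  rw [← ψ.sum_comp, Fintype.sum_sum_type] at h1
  have h3 : ∀ B' : Fin ds, ∑ C', O (φ (Sum.inl (ψ (Sum.inl B')))) (φ (Sum.inl (ψ (Sum.inr b)))) *
      O C' (φ (Sum.inr C)) * S.f (φ (Sum.inr E)) (φ (Sum.inl (ψ (Sum.inl B')))) C' = 0 := by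
    intro B'
    refine Finset.sum_eq_zero fun C' _ => ?_
    rw [hb.sz, zero_mul, zero_mul]
  simp only [h3, Finset.sum_const_zero, zero_add] at h1
  rw [Matrix.mul_apply, Matrix.mul_apply]
  simp only [cv76_P, AX.Mz, zO, Matrix.of_apply, Matrix.sum_apply, Matrix.smul_apply, smul_eq_mul]
  rw [h1]
  simp only [Finset.sum_mul]
  rw [Finset.sum_comm]
  rw [← φ.sum_comp, Fintype.sum_sum_type]
  have h4 : ∀ C' : Fin dh, ∑ B', O (φ (Sum.inl (ψ (Sum.inr B')))) (φ (Sum.inl (ψ (Sum.inr b)))) *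
      O (φ (Sum.inl C')) (φ (Sum.inr C)) * S.f (φ (Sum.inr E)) (φ (Sum.inl (ψ (Sum.inr B')))) (φ (Sum.inl C')) = 0 := by
    intro C'
    refine Finset.sum_eq_zero fun B' _ => ?_
    rw [hb.hm, mul_zero, zero_mul]
  simp only [h4, Finset.sum_const_zero, zero_add]
  refine Finset.sum_congr rfl fun C' _ => Finset.sum_congr rfl fun B' _ => ?_
  ring

lemma cv76_D {S : Setup d F} {φ : Spl dh dm d} {ψ : Spl ds dz dh} {O : Matrix (Fin d) (Fin d) ℝ}
    (h : Sym S O) (hb : Blk φ ψ O) (η : Cfg dz) (i : Fin 9) :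
    cv76_P φ O * AD.Dz S φ ψ η i = AD.Dz S φ ψ (ro (zO φ ψ O) η) i * cv76_P φ O := by
  rw [← AX.DM_Mz, ← AX.DM_Mz]
  unfold DM
  have e1 : ∀ b', (ro (zO φ ψ O) η) (i, b') = ∑ b, zO φ ψ O b' b * η (i, b) := fun b' => rfl
  simp only [e1]
  rw [Finset.mul_sum]
  have e2 : ∀ b, cv76_P φ O * (η (i, b) • AX.Mz S φ ψ b) =
      (∑ b', (zO φ ψ O b' b * η (i, b)) • AX.Mz S φ ψ b') * cv76_P φ O := by
    intro b
    rw [Matrix.mul_smul, cv76_Mz h hb b, ← Matrix.smul_mul, Finset.smul_sum]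
    congr 1
    refine Finset.sum_congr rfl fun b' _ => ?_
    rw [smul_smul, mul_comm]
  simp only [e2]
  rw [← Finset.sum_mul, Finset.sum_comm]
  congr 1
  refine Finset.sum_congr rfl fun b' _ => ?_
  rw [Finset.sum_smul]

/-- conjugation of `Ω` -/
lemma cv76_om {κ : ℝ} {D D' : Fin 9 → Matrix (Fin dm) (Fin dm) ℝ} {Om P : Matrix (Fin dm) (Fin dm) ℝ}
    (h : IsOm κ D Om) (hP : P * Pᵀ = 1) (hD : ∀ i, P * D i = D' i * P) : IsOm κ D' (P * Om * Pᵀ) := by
  have hP' : Pᵀ * P = 1 := mul_eq_one_comm.mp hP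
  have hsum : ∑ i, D' i * D' i = P * (∑ i, D i * D i) * Pᵀ := by
    rw [Finset.mul_sum, Finset.sum_mul]
    refine Finset.sum_congr rfl fun i _ => ?_
    have e1 : D' i = P * D i * Pᵀ := by
      rw [hD i, Matrix.mul_assoc, hP, Matrix.mul_one]
    calc D' i * D' i = (P * D i * Pᵀ) * (P * D i * Pᵀ) := by rw [e1]
      _ = P * D i * (Pᵀ * P) * (D i * Pᵀ) := by simp only [Matrix.mul_assoc]
      _ = P * (D i * D i) * Pᵀ := by rw [hP', Matrix.mul_one]; simp only [Matrix.mul_assoc]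
  refine { symm := ?_, pos := ?_, sq := ?_, comm := ?_ }
  · rw [Matrix.transpose_mul, Matrix.transpose_mul, Matrix.transpose_transpose, h.symm, Matrix.mul_assoc]
  · intro v hv
    have h1 : Pᵀ *ᵥ v ≠ 0 := by
      intro h0
      apply hv
      have h2 : P *ᵥ (Pᵀ *ᵥ v) = v := by rw [Matrix.mulVec_mulVec, hP, Matrix.one_mulVec]
      rw [← h2, h0, Matrix.mulVec_zero]
    have h3 := h.pos _ h1
    have h4 : v ⬝ᵥ ((P * Om * Pᵀ) *ᵥ v) = (Pᵀ *ᵥ v) ⬝ᵥ (Om *ᵥ (Pᵀ *ᵥ v)) := by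
      rw [← Matrix.mulVec_mulVec, ← Matrix.mulVec_mulVec, Matrix.dotProduct_mulVec,
        ← Matrix.mulVec_transpose]
    rw [h4]
    exact h3
  · calc (P * Om * Pᵀ) * (P * Om * Pᵀ) = P * Om * (Pᵀ * P) * (Om * Pᵀ) := by simp only [Matrix.mul_assoc]
      _ = P * (Om * Om) * Pᵀ := by rw [hP', Matrix.mul_one]; simp only [Matrix.mul_assoc]
      _ = _ := by
        rw [h.sq, hsum, Matrix.mul_neg, Matrix.neg_mul, Matrix.mul_smul, Matrix.smul_mul]
  · intro M hM
    rw [hsum] at hM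
    have h1 : (Pᵀ * M * P) * (∑ i, D i * D i) = (∑ i, D i * D i) * (Pᵀ * M * P) := by
      calc (Pᵀ * M * P) * (∑ i, D i * D i) = Pᵀ * (M * (P * (∑ i, D i * D i) * Pᵀ)) * P := by
            simp only [Matrix.mul_assoc, hP', Matrix.mul_one]
        _ = Pᵀ * ((P * (∑ i, D i * D i) * Pᵀ) * M) * P := by rw [hM]
        _ = (Pᵀ * P) * ((∑ i, D i * D i) * (Pᵀ * M * P)) := by simp only [Matrix.mul_assoc]
        _ = _ := by rw [hP', Matrix.one_mul]
    have h2 := h.comm _ h1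
    calc M * (P * Om * Pᵀ) = (P * Pᵀ) * M * (P * Om * Pᵀ) := by rw [hP, Matrix.one_mul]
      _ = P * ((Pᵀ * M * P) * Om) * Pᵀ := by simp only [Matrix.mul_assoc]
      _ = P * (Om * (Pᵀ * M * P)) * Pᵀ := by rw [h2]
      _ = P * Om * Pᵀ * M * (P * Pᵀ) := by simp only [Matrix.mul_assoc]
      _ = P * Om * Pᵀ * M := by rw [hP, Matrix.mul_one]

lemma cv76_inv {Om P : Matrix (Fin dm) (Fin dm) ℝ} (hP : P * Pᵀ = 1) :
    P * Om⁻¹ = (P * Om * Pᵀ)⁻¹ * P := by
  have hP' : Pᵀ * P = 1 := mul_eq_one_comm.mp hP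
  rw [Matrix.mul_inv_rev, Matrix.mul_inv_rev, Matrix.inv_eq_right_inv hP, Matrix.inv_eq_right_inv hP']
  simp only [Matrix.mul_assoc, hP', Matrix.mul_one]

lemma cv76_col {S : Setup d F} {φ : Spl dh dm d} {ψ : Spl ds dz dh} {O : Matrix (Fin d) (Fin d) ℝ}
    (h : Sym S O) (hb : Blk φ ψ O) (η : Cfg dz) (Om Om' : Matrix (Fin dm) (Fin dm) ℝ)
    (h1 : IsOm S.κ (AD.Dz S φ ψ η) Om) (h2 : IsOm S.κ (AD.Dz S φ ψ (ro (zO φ ψ O) η)) Om') (c s : ℝ) :
    cT O * JF S φ (AD.Dz S φ ψ η) Om c s = JF S φ (AD.Dz S φ ψ (ro (zO φ ψ O) η)) Om' c s * cT O := by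
  have hP := cv76_PP h.orth hb
  have hOm : Om' = cv76_P φ O * Om * (cv76_P φ O)ᵀ :=
    AX.omU dm S.κ _ _ _ S.κ_pos h2 (cv76_om h1 hP (cv76_D h hb η))
  have key : ∀ i, cv76_P φ O * (Om⁻¹ * AD.Dz S φ ψ η i) =
      (Om'⁻¹ * AD.Dz S φ ψ (ro (zO φ ψ O) η) i) * cv76_P φ O := by
    intro i
    rw [← Matrix.mul_assoc, cv76_inv hP, ← hOm, Matrix.mul_assoc, cv76_D h hb η i, Matrix.mul_assoc]
  ext ⟨α, a⟩ ⟨β, b⟩
  rw [cv76_cTl, cv76_cTr, ← φ.sum_comp, Fintype.sum_sum_type, ← φ.sum_comp, Fintype.sum_sum_type]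
  obtain ⟨a, rfl⟩ := φ.surjective a
  obtain ⟨b, rfl⟩ := φ.surjective b
  rcases a with A | A <;> rcases b with B | B
  · simp only [cv76_hh, cv76_hm, cv76_mh, hb.hm, Complex.ofReal_zero, zero_mul, mul_zero,
      Finset.sum_const_zero, add_zero, mul_ite, ite_mul, Finset.sum_ite_eq, Finset.sum_ite_eq',
      Finset.mem_univ, if_true]
    ring
  · simp only [cv76_hh, cv76_hm, cv76_mm, hb.hm, Complex.ofReal_zero, zero_mul, mul_zero,
      Finset.sum_const_zero, add_zero]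
  · simp only [cv76_hh, cv76_mh, cv76_mm, hb.mh, Complex.ofReal_zero, zero_mul, mul_zero,
      Finset.sum_const_zero, add_zero]
  · simp only [cv76_hm, cv76_mh, cv76_mm, mul_zero, zero_mul, Finset.sum_const_zero, zero_add]
    have e1 : ∀ i, ∑ A', ((O (φ (Sum.inr A)) (φ (Sum.inr A')) : ℝ) : ℂ) *
        (((Om⁻¹ * AD.Dz S φ ψ η i) A' B : ℝ) : ℂ) =
        ∑ B', (((Om'⁻¹ * AD.Dz S φ ψ (ro (zO φ ψ O) η) i) A B' : ℝ) : ℂ) *
          ((O (φ (Sum.inr B')) (φ (Sum.inr B)) : ℝ) : ℂ) := by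
      intro i
      have h3 := congrFun (congrFun (key i) A) B
      rw [Matrix.mul_apply, Matrix.mul_apply] at h3
      simp only [cv76_P, Matrix.of_apply] at h3
      exact_mod_cast h3
    simp only [mul_add, add_mul, Finset.sum_add_distrib]
    congr 1
    · have e2 : ∀ A', ((O (φ (Sum.inr A)) (φ (Sum.inr A')) : ℝ) : ℂ) * ((c : ℂ) * ((S.κ : ℂ) *
          ∑ i, S.g i α β * (((Om⁻¹ * AD.Dz S φ ψ η i) A' B : ℝ) : ℂ))) =
          (c : ℂ) * (S.κ : ℂ) * ∑ i, S.g i α β * (((O (φ (Sum.inr A)) (φ (Sum.inr A')) : ℝ) : ℂ) *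
            (((Om⁻¹ * AD.Dz S φ ψ η i) A' B : ℝ) : ℂ)) := by
        intro A'
        simp only [Finset.mul_sum]
        refine Finset.sum_congr rfl fun i _ => ?_
        ring
      have e3 : ∀ B', ((c : ℂ) * ((S.κ : ℂ) *
          ∑ i, S.g i α β * (((Om'⁻¹ * AD.Dz S φ ψ (ro (zO φ ψ O) η) i) A B' : ℝ) : ℂ))) *
            ((O (φ (Sum.inr B')) (φ (Sum.inr B)) : ℝ) : ℂ) =
          (c : ℂ) * (S.κ : ℂ) * ∑ i, S.g i α β *
            ((((Om'⁻¹ * AD.Dz S φ ψ (ro (zO φ ψ O) η) i) A B' : ℝ) : ℂ) *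
              ((O (φ (Sum.inr B')) (φ (Sum.inr B)) : ℝ) : ℂ)) := by
        intro B'
        simp only [Finset.mul_sum, Finset.sum_mul]
        refine Finset.sum_congr rfl fun i _ => ?_
        ring
      simp only [e2, e3, ← Finset.mul_sum]
      congr 1
      rw [Finset.sum_comm]
      conv_rhs => rw [Finset.sum_comm]
      refine Finset.sum_congr rfl fun i _ => ?_
      rw [← Finset.mul_sum, ← Finset.mul_sum, e1 i]
    · simp only [mul_ite, ite_mul, mul_zero, zero_mul, Finset.sum_ite_eq, Finset.sum_ite_eq',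
        Finset.mem_univ, if_true]
      ring

/-! ### rotations -/

lemma cv76_gtG (S : Setup d F) {k l : Fin 9} (h : Same k l) (t : ℝ) :
    gtt S k l t * S.Gam = S.Gam * gtt S k l t := by
  simp only [gtt, add_mul, mul_add, Matrix.smul_mul, Matrix.mul_smul, one_mul, mul_one,
    S.Gam_comm_g2 h]

lemma cv76_DR (S : Setup d F) (φ : Spl dh dm d) (ψ : Spl ds dz dh) (k l : Fin 9) (t : ℝ) (η : Cfg dz)
    (i : Fin 9) : AD.Dz S φ ψ (RR k l t η) i = AD.Dz S φ ψ η i +
      (Real.cos t - 1) • ((if i = k then AD.Dz S φ ψ η k else 0) + (if i = l then AD.Dz S φ ψ η l else 0)) +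
      Real.sin t • ((if i = k then AD.Dz S φ ψ η l else 0) - (if i = l then AD.Dz S φ ψ η k else 0)) := by
  rw [← AX.DM_Mz, ← AX.DM_Mz]
  unfold DM
  simp only [RR_apply]
  have e : ∀ a, (η (i, a) + (Real.cos t - 1) *
      ((if i = k then η (k, a) else 0) + (if i = l then η (l, a) else 0)) +
      Real.sin t * ((if i = k then η (l, a) else 0) - (if i = l then η (k, a) else 0))) • AX.Mz S φ ψ a =
      η (i, a) • AX.Mz S φ ψ a + (Real.cos t - 1) • ((if i = k then η (k, a) • AX.Mz S φ ψ a else 0) +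
        (if i = l then η (l, a) • AX.Mz S φ ψ a else 0)) +
      Real.sin t • ((if i = k then η (l, a) • AX.Mz S φ ψ a else 0) -
        (if i = l then η (k, a) • AX.Mz S φ ψ a else 0)) := by
    intro a
    split_ifs <;> module
  have hs : ∀ (p : Prop) [Decidable p] (f : Fin dz → Matrix (Fin dm) (Fin dm) ℝ),
      (∑ x, if p then f x else 0) = if p then ∑ x, f x else 0 := by
    intro p _ f
    split_ifs
    · rfl
    · exact Finset.sum_const_zero
  simp only [e, Finset.sum_add_distrib, ← Finset.smul_sum, Finset.sum_sub_distrib, hs]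

lemma cv76_two (c s : ℝ) (hcs : c ^ 2 + s ^ 2 = 1) (a b : Matrix (Fin dm) (Fin dm) ℝ) :
    ((c • a + s • b) * (c • a + s • b) - a * a) + ((c • b - s • a) * (c • b - s • a) - b * b) = 0 := by
  simp only [add_mul, mul_add, sub_mul, mul_sub, Matrix.smul_mul, Matrix.mul_smul, smul_smul]
  linear_combination (norm := module) hcs • (a * a + b * b)

lemma cv76_sqg {k l : Fin 9} (h : k ≠ l) (c s : ℝ) (hcs : c ^ 2 + s ^ 2 = 1)
    (X Y : Fin 9 → Matrix (Fin dm) (Fin dm) ℝ)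
    (hY : ∀ i, Y i = X i + (c - 1) • ((if i = k then X k else 0) + (if i = l then X l else 0)) +
      s • ((if i = k then X l else 0) - (if i = l then X k else 0))) :
    ∑ i, Y i * Y i = ∑ i, X i * X i := by
  have e : ∀ i, Y i * Y i = X i * X i +
      ((if i = k then ((c • X k + s • X l) * (c • X k + s • X l) - X k * X k) else 0) +
      (if i = l then ((c • X l - s • X k) * (c • X l - s • X k) - X l * X l) else 0)) := by
    intro i
    by_cases h1 : i = k
    · subst h1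
      have e1 : Y i = c • X i + s • X l := by
        rw [hY i]
        simp only [if_true, if_neg h]
        module
      rw [e1]
      simp only [if_true, if_neg h]
      abel
    · by_cases h2 : i = l
      · subst h2
        have e1 : Y i = c • X i - s • X k := by
          rw [hY i]
          simp only [if_true, if_neg h1]
          module
        rw [e1]
        simp only [if_true, if_neg h1]
        abel
      · have e1 : Y i = X i := by
          rw [hY i]
          simp only [if_neg h1, if_neg h2]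
          module
        rw [e1]
        simp only [if_neg h1, if_neg h2, add_zero]
  simp only [e, Finset.sum_add_distrib, Finset.sum_ite_eq', Finset.mem_univ, if_true]
  rw [cv76_two c s hcs, add_zero]

lemma cv76_sq (S : Setup d F) (φ : Spl dh dm d) (ψ : Spl ds dz dh) {k l : Fin 9} (h : k ≠ l) (t : ℝ)
    (η : Cfg dz) : ∑ i, AD.Dz S φ ψ (RR k l t η) i * AD.Dz S φ ψ (RR k l t η) i =
      ∑ i, AD.Dz S φ ψ η i * AD.Dz S φ ψ η i :=
  cv76_sqg h (Real.cos t) (Real.sin t) (Real.cos_sq_add_sin_sq t) _ _ (cv76_DR S φ ψ k l t η)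

lemma cv76_XB (S : Setup d F) {k l : Fin 9} (h : k ≠ l) (t : ℝ) (A : Fin d) (v v' : Fin 9 → ℝ)
    (hv : ∀ i, v' i = v i + (Real.cos t - 1) * ((if i = k then v k else 0) + (if i = l then v l else 0)) +
      Real.sin t * ((if i = k then v l else 0) - (if i = l then v k else 0))) :
    (∑ i, ((v' i : ℝ) : ℂ) • S.g i) * gtt S k l t = gtt S k l t * ∑ i, ((v i : ℝ) : ℂ) • S.g i := by
  have h1 := S.XB_RR h t A (WithLp.toLp 2 fun p : Fin 9 × Fin d => v p.1)
  have h2 : S.XB A (RR k l t (WithLp.toLp 2 fun p : Fin 9 × Fin d => v p.1)) =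
      ∑ i, ((v' i : ℝ) : ℂ) • S.g i := by
    unfold Setup.XB
    refine Finset.sum_congr rfl fun i _ => ?_
    rw [RR_apply, hv i]
  rw [h2] at h1
  exact h1

/-- **S6 Cov** -/
theorem cov_stmt (S : Setup d F) (φ : Spl dh dm d) (ψ : Spl ds dz dh) : CovStmt S φ ψ := by
  refine ⟨fun O h hb η Om Om' h1 h2 c s => cv76_col h hb η Om Om' h1 h2 c s, ?_⟩
  intro k l hkl t η Om h1
  have hsq := cv76_sq S φ ψ hkl.1 t η
  refine ⟨?_, ?_⟩
  · exact { symm := h1.symm, pos := h1.pos, sq := by rw [hsq]; exact h1.sq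
            comm := fun M hM => h1.comm M (by rw [← hsq]; exact hM) }
  · intro c s
    ext ⟨α, a⟩ ⟨β, b⟩
    rw [cv76_sTl, cv76_sTr]
    obtain ⟨a, rfl⟩ := φ.surjective a
    obtain ⟨b, rfl⟩ := φ.surjective b
    have hG : ∑ α', gtt S k l t α α' * S.Gam α' β = ∑ β', S.Gam α β' * gtt S k l t β' β := by
      have := congrFun (congrFun (cv76_gtG S hkl t) α) β
      rwa [Matrix.mul_apply, Matrix.mul_apply] at this
    rcases a with A | A <;> rcases b with B | B
    · simp only [cv76_hh]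
      by_cases hAB : A = B
      · simp only [if_pos hAB]
        exact hG
      · simp only [if_neg hAB, mul_zero, zero_mul]
    · simp only [cv76_hm, mul_zero, zero_mul]
    · simp only [cv76_mh, mul_zero, zero_mul]
    · simp only [cv76_mm, mul_add, add_mul, Finset.sum_add_distrib]
      congr 1
      · have hX := cv76_XB S hkl.1 t (φ (Sum.inr A)) (fun i => (Om⁻¹ * AD.Dz S φ ψ η i) A B)
          (fun i => (Om⁻¹ * AD.Dz S φ ψ (RR k l t η) i) A B) (by
            intro i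
            rw [cv76_DR]
            simp only [Matrix.mul_add, Matrix.mul_sub, Matrix.mul_smul, Matrix.add_apply,
              Matrix.sub_apply, Matrix.smul_apply, smul_eq_mul]
            split_ifs <;> simp)
        have hX2 := congrFun (congrFun hX α) β
        rw [Matrix.mul_apply, Matrix.mul_apply] at hX2
        simp only [Matrix.sum_apply, Matrix.smul_apply, smul_eq_mul] at hX2
        have e1 : ∀ α', gtt S k l t α α' * ((c : ℂ) * ((S.κ : ℂ) *
            ∑ i, S.g i α' β * (((Om⁻¹ * AD.Dz S φ ψ η i) A B : ℝ) : ℂ))) =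
            (c : ℂ) * (S.κ : ℂ) * (gtt S k l t α α' *
              ∑ i, (((Om⁻¹ * AD.Dz S φ ψ η i) A B : ℝ) : ℂ) * S.g i α' β) := by
          intro α'
          simp only [Finset.mul_sum]
          refine Finset.sum_congr rfl fun i _ => ?_
          ring
        have e2 : ∀ β', ((c : ℂ) * ((S.κ : ℂ) *
            ∑ i, S.g i α β' * (((Om⁻¹ * AD.Dz S φ ψ (RR k l t η) i) A B : ℝ) : ℂ))) *
              gtt S k l t β' β =
            (c : ℂ) * (S.κ : ℂ) * ((∑ i, (((Om⁻¹ * AD.Dz S φ ψ (RR k l t η) i) A B : ℝ) : ℂ) *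
              S.g i α β') * gtt S k l t β' β) := by
          intro β'
          simp only [Finset.mul_sum, Finset.sum_mul]
          refine Finset.sum_congr rfl fun i _ => ?_
          ring
        simp only [e1, e2, ← Finset.mul_sum]
        congr 1
        exact hX2.symm
      · by_cases hAB : A = B
        · simp only [if_pos hAB]
          have e1 : ∀ α', gtt S k l t α α' * ((s : ℂ) * S.Gam α' β) =
              (s : ℂ) * (gtt S k l t α α' * S.Gam α' β) := fun α' => by ring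
          have e2 : ∀ β', (s : ℂ) * S.Gam α β' * gtt S k l t β' β =
              (s : ℂ) * (S.Gam α β' * gtt S k l t β' β) := fun β' => by ring
          simp only [e1, e2, ← Finset.mul_sum]
          rw [hG]
        · simp only [if_neg hAB, mul_zero, zero_mul]

end Vale.Agent.P353.Z.AS
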