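import Vale.Agent.P353.AN.SGN.Stmt

/-! # P353, all `N`, block SGN: S4 constancy of the eigenvalue (helper155) -/

open MeasureTheory Filter Topology Matrix
open scoped ContDiff

namespace Vale.Agent.P353.Z.AS

variable {d : ℕ} {F : Type*} [NormedAddCommGroup F] [InnerProductSpace ℂ F]

namespace E155

/-- pairs (unit vacuum vector, parameter) with eigenvalue in `Z` -/
def AZ (S : Setup d F) (J : ℝ → Matrix (Fin 16 × Fin d) (Fin 16 × Fin d) ℂ) (M : F →L[ℂ] F) (Z : Set ℂ) :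
    Set (Metric.sphere (0 : F) 1 × ℝ) :=
  {x | (x.1 : F) ∈ JV S (J x.2) ∧ M (x.1 : F) = (inner ℂ (x.1 : F) (M (x.1 : F)) : ℂ) • (x.1 : F) ∧
    (inner ℂ (x.1 : F) (M (x.1 : F)) : ℂ) ∈ Z}

lemma AZ_closed (S : Setup d F) {J : ℝ → Matrix (Fin 16 × Fin d) (Fin 16 × Fin d) ℂ} (hJ : Continuous J) (M : F →L[ℂ] F)
    {Z : Set ℂ} (hZ : IsClosed Z) : IsClosed (AZ S J M Z) := by
  have hv : Continuous fun x : Metric.sphere (0 : F) 1 × ℝ => (x.1 : F) := continuous_subtype_val.comp continuous_fst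
  have hM : Continuous fun x : Metric.sphere (0 : F) 1 × ℝ => M (x.1 : F) := M.continuous.comp hv
  have hi : Continuous fun x : Metric.sphere (0 : F) 1 × ℝ => (inner ℂ (x.1 : F) (M (x.1 : F)) : ℂ) := hv.inner hM
  refine IsClosed.inter ?_ (IsClosed.inter (isClosed_eq hM (hi.smul hv)) (hZ.preimage hi))
  have h1 : {x : Metric.sphere (0 : F) 1 × ℝ | (x.1 : F) ∈ JV S (J x.2)} =
      ⋂ p, {x : Metric.sphere (0 : F) 1 × ℝ | ∑ q : Fin 16 × Fin d,
        ((1 : Matrix (Fin 16 × Fin d) (Fin 16 × Fin d) ℂ) - Complex.I • J x.2) p q • S.th q.1 q.2 (x.1 : F) = 0} := by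
    ext x
    simp only [Set.mem_iInter]
    exact Iff.rfl
  change IsClosed {x : Metric.sphere (0 : F) 1 × ℝ | (x.1 : F) ∈ JV S (J x.2)}
  rw [h1]
  refine isClosed_iInter fun p => isClosed_eq ?_ continuous_const
  refine continuous_finset_sum _ fun q _ => Continuous.smul ?_ ((S.th q.1 q.2).continuous.comp hv)
  have h2 : Continuous fun x : Metric.sphere (0 : F) 1 × ℝ => J x.2 p q :=
    (continuous_id.matrix_elem p q).comp (hJ.comp continuous_snd)
  have h3 : (fun x : Metric.sphere (0 : F) 1 × ℝ =>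
      ((1 : Matrix (Fin 16 × Fin d) (Fin 16 × Fin d) ℂ) - Complex.I • J x.2) p q) =
      fun x => (1 : Matrix (Fin 16 × Fin d) (Fin 16 × Fin d) ℂ) p q - Complex.I * J x.2 p q := by
    funext x
    simp
  rw [h3]
  exact continuous_const.sub (continuous_const.mul h2)

end E155

open E155

theorem eig_stmt (S : Setup d F) : LineStmt S → ImpTStmt S → EigStmt S := by
  intro hL hI hfd hIrr hne J T M hJ hC hT hTJ hImT hM h1 v0 hv0
  haveI : FiniteDimensional ℂ F := hfd
  haveI : ProperSpace F := FiniteDimensional.proper ℂ F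
  have hTT : ∀ s, T * J s * Tᵀ = J s := by
    intro s
    rw [hTJ s, Matrix.mul_assoc, hT, Matrix.mul_one]
  choose ζ hζ using fun s => hL hIrr hne (J s) (hC s)
  have hζ1 : ∀ s, ζ s ∈ JV S (J s) := fun s => (hζ s).1
  have hζn : ∀ s, ‖ζ s‖ = 1 := fun s => (hζ s).2.1
  have hζs : ∀ s, ∀ v ∈ JV S (J s), ∃ c : ℂ, v = c • ζ s := fun s => (hζ s).2.2
  have hinn : ∀ s, (inner ℂ (ζ s) (ζ s) : ℂ) = 1 := by
    intro s
    rw [inner_self_eq_norm_sq_to_K, hζn s]
    simp
  -- eigenvalues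
  have hMζ : ∀ s, M (ζ s) = (inner ℂ (ζ s) (M (ζ s)) : ℂ) • ζ s := by
    intro s
    have h2 := hI T (J s) M hT hImT (ζ s) (hζ1 s)
    rw [hTT s] at h2
    obtain ⟨c, hc⟩ := hζs s _ h2
    rw [hc, inner_smul_right, hinn s, mul_one]
  set lam : ℝ → ℂ := fun s => inner ℂ (ζ s) (M (ζ s)) with hlam
  have hMl : ∀ s, M (ζ s) = lam s • ζ s := hMζ
  -- the set where the eigenvalue lies in a closed set is closed
  have hset : ∀ Z : Set ℂ, Prod.snd '' AZ S J M Z = {s | lam s ∈ Z} := by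
    intro Z
    ext s
    constructor
    · rintro ⟨⟨⟨v, hv⟩, s'⟩, ⟨hv1, hv2, hv3⟩, rfl⟩
      dsimp only at hv1 hv2 hv3 ⊢
      obtain ⟨c, hc⟩ := hζs s' v hv1
      have hvn : ‖v‖ = 1 := by simpa using hv
      have h3 : (inner ℂ v (M v) : ℂ) = lam s' := by
        have h4 : (inner ℂ v v : ℂ) = 1 := by
          rw [inner_self_eq_norm_sq_to_K, hvn]
          simp
        have h5 : M v = lam s' • v := by
          rw [hc, map_smul, hMl, smul_comm]
        rw [h5, inner_smul_right, h4, mul_one]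
      change lam s' ∈ Z
      rw [← h3]
      exact hv3
    · intro hs
      refine ⟨(⟨ζ s, by simp [hζn s]⟩, s), ⟨hζ1 s, hMζ s, hs⟩, rfl⟩
  have hcl : ∀ Z : Set ℂ, IsClosed Z → IsClosed {s | lam s ∈ Z} := by
    intro Z hZ
    rw [← hset Z]
    exact isClosedMap_snd_of_compactSpace _ (AZ_closed S hJ M hZ)
  -- finitely many eigenvalues
  have hfin : Set.Finite (setOf (Module.End.HasEigenvalue (M : F →ₗ[ℂ] F))) := Module.End.finite_hasEigenvalue _
  have heig : ∀ s, Module.End.HasEigenvalue (M : F →ₗ[ℂ] F) (lam s) := by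
    intro s
    refine Module.End.hasEigenvalue_of_hasEigenvector (x := ζ s) ⟨?_, ?_⟩
    · rw [Module.End.mem_eigenspace_iff]
      exact hMl s
    · intro h
      have := hζn s
      rw [h, norm_zero] at this
      exact zero_ne_one this
  have hA : IsClosed {s | lam s = 1} := hcl {1} isClosed_singleton
  have hB : IsClosed {s | lam s ≠ 1} := by
    have h2 : {s | lam s ≠ 1} = {s | lam s ∈ setOf (Module.End.HasEigenvalue (M : F →ₗ[ℂ] F)) \ {1}} := by
      ext s
      simp only [Set.mem_setOf_eq, Set.mem_diff, Set.mem_singleton_iff, ne_eq]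
      exact ⟨fun h => ⟨heig s, h⟩, fun h => h.2⟩
    rw [h2]
    exact hcl _ (hfin.subset Set.diff_subset).isClosed
  have hclopen : IsClopen {s | lam s = 1} := by
    refine ⟨hA, ?_⟩
    have : {s | lam s = 1} = {s | lam s ≠ 1}ᶜ := by
      ext s
      simp
    rw [this]
    exact hB.isOpen_compl
  have h1m : (1 : ℝ) ∈ {s | lam s = 1} := by
    change (inner ℂ (ζ 1) (M (ζ 1)) : ℂ) = 1
    rw [h1 _ (hζ1 1), hinn]
  have huniv : {s | lam s = 1} = Set.univ := hclopen.eq_univ ⟨1, h1m⟩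
  have h0m : lam 0 = 1 := by
    have : (0 : ℝ) ∈ {s | lam s = 1} := by
      rw [huniv]
      exact Set.mem_univ _
    exact this
  obtain ⟨c, hc⟩ := hζs 0 v0 hv0
  rw [hc, map_smul, hMl, h0m, one_smul]

end Vale.Agent.P353.Z.AS
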