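import Vale.Agent.P353.AN.X.Bri
import Vale.Agent.P353.Z.U.Vac
import Vale.Agent.P353.Z.Gamma

/-! # P353, all `N`, block SGN: the matrices `D_i(η)` of a vacuum bundle commute (helper275) -/

open MeasureTheory Filter Topology Matrix
open scoped ContDiff

namespace Vale.Agent.P353.Z.AS

variable {d dh dm ds dz : ℕ} {F : Type*} [NormedAddCommGroup F] [InnerProductSpace ℂ F]

/-- a trace identity: `tr(γ^l γ^k (u + v·γ)(u' + v'·γ)) = 16 (v_k v'_l - v_l v'_k)` for `k ≠ l` -/
lemma etc_trace (S : Setup d F) {k l : Fin 9} (hkl : l ≠ k) (u u' : ℂ) (v v' : Fin 9 → ℂ) :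
    (S.g l * S.g k * ((u • (1 : Matrix (Fin 16) (Fin 16) ℂ) + ∑ i, v i • S.g i) *
      (u' • (1 : Matrix (Fin 16) (Fin 16) ℂ) + ∑ j, v' j • S.g j))).trace = 16 * (v k * v' l - v l * v' k) := by
  obtain ⟨P, hP⟩ : ∃ P, P = S.g l * S.g k := ⟨_, rfl⟩
  have e0 : P * ((u • (1 : Matrix (Fin 16) (Fin 16) ℂ) + ∑ i, v i • S.g i) *
      (u' • (1 : Matrix (Fin 16) (Fin 16) ℂ) + ∑ j, v' j • S.g j)) =
      P * ((u • (1 : Matrix (Fin 16) (Fin 16) ℂ)) * (u' • (1 : Matrix (Fin 16) (Fin 16) ℂ))) +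
      P * ((u • (1 : Matrix (Fin 16) (Fin 16) ℂ)) * ∑ j, v' j • S.g j) +
      P * ((∑ i, v i • S.g i) * (u' • (1 : Matrix (Fin 16) (Fin 16) ℂ))) +
      P * ((∑ i, v i • S.g i) * ∑ j, v' j • S.g j) := by
    simp only [mul_add, add_mul]
    abel
  have e1 : P * ((u • (1 : Matrix (Fin 16) (Fin 16) ℂ)) * (u' • (1 : Matrix (Fin 16) (Fin 16) ℂ))) = (u * u') • P := by
    rw [smul_mul_smul_comm, one_mul, mul_smul_comm, mul_one]
  have e2 : P * ((u • (1 : Matrix (Fin 16) (Fin 16) ℂ)) * ∑ j, v' j • S.g j) = ∑ j, (u * v' j) • (P * S.g j) := by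
    rw [smul_mul_assoc, one_mul, Finset.smul_sum, Finset.mul_sum]
    exact Finset.sum_congr rfl fun j _ => by rw [smul_smul, mul_smul_comm]
  have e3 : P * ((∑ i, v i • S.g i) * (u' • (1 : Matrix (Fin 16) (Fin 16) ℂ))) = ∑ i, (u' * v i) • (P * S.g i) := by
    rw [mul_smul_comm, mul_one, Finset.smul_sum, Finset.mul_sum]
    exact Finset.sum_congr rfl fun j _ => by rw [smul_smul, mul_smul_comm]
  have e4 : P * ((∑ i, v i • S.g i) * ∑ j, v' j • S.g j) = ∑ i, ∑ j, (v i * v' j) • (P * (S.g i * S.g j)) := by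
    rw [Finset.sum_mul_sum, Finset.mul_sum]
    refine Finset.sum_congr rfl fun i _ => ?_
    rw [Finset.mul_sum]
    exact Finset.sum_congr rfl fun j _ => by rw [smul_mul_smul_comm, mul_smul_comm]
  have t2 : ∀ j, ((u * v' j) • (P * S.g j)).trace = 0 := fun j => by
    rw [Matrix.trace_smul, hP, S.trace_ggg, smul_zero]
  have t3 : ∀ j, ((u' * v j) • (P * S.g j)).trace = 0 := fun j => by
    rw [Matrix.trace_smul, hP, S.trace_ggg, smul_zero]
  have t4 : ∀ i j, ((v i * v' j) • (P * (S.g i * S.g j))).trace =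
      (if k = i then (if l = j then 16 * (v i * v' j) else 0) else 0) -
      (if l = i then (if k = j then 16 * (v i * v' j) else 0) else 0) := fun i j => by
    rw [Matrix.trace_smul, hP, S.trace_g4, if_neg hkl, smul_eq_mul]
    split_ifs <;> ring
  rw [← hP, e0, e1, e2, e3, e4, Matrix.trace_add, Matrix.trace_add, Matrix.trace_add, Matrix.trace_sum, Matrix.trace_sum,
    Matrix.trace_sum, Matrix.trace_smul, Finset.sum_congr rfl fun j _ => t2 j, Finset.sum_congr rfl fun j _ => t3 j]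
  simp only [Matrix.trace_sum, t4, Finset.sum_sub_distrib, Finset.sum_const_zero]
  rw [hP, S.trace_gg, if_neg hkl, smul_zero]
  have s1 : ∑ i, ∑ j, (if k = i then (if l = j then 16 * (v i * v' j) else 0) else 0) = 16 * (v k * v' l) := by
    rw [Finset.sum_eq_single k, Finset.sum_eq_single l, if_pos rfl, if_pos rfl]
    · intro j _ hj
      rw [if_pos rfl, if_neg (Ne.symm hj)]
    · intro h
      exact absurd (Finset.mem_univ _) h
    · intro i _ hi
      exact Finset.sum_eq_zero fun j _ => if_neg (Ne.symm hi)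
    · intro h
      exact absurd (Finset.mem_univ _) h
  have s2 : ∑ i, ∑ j, (if l = i then (if k = j then 16 * (v i * v' j) else 0) else 0) = 16 * (v l * v' k) := by
    rw [Finset.sum_eq_single l, Finset.sum_eq_single k, if_pos rfl, if_pos rfl]
    · intro j _ hj
      rw [if_pos rfl, if_neg (Ne.symm hj)]
    · intro h
      exact absurd (Finset.mem_univ _) h
    · intro i _ hi
      exact Finset.sum_eq_zero fun j _ => if_neg (Ne.symm hi)
    · intro h
      exact absurd (Finset.mem_univ _) h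
  rw [s1, s2]
  ring

/-- sums over all fermions of terms supported on the `m` colours -/
lemma etc_sum {E : Type*} [AddCommMonoid E] (φ : Spl dh dm d) (f : Fin 16 × Fin d → E)
    (hf : ∀ α A, f (α, φ (Sum.inl A)) = 0) : ∑ s, f s = ∑ s : Fin 16 × Fin dm, f (s.1, φ (Sum.inr s.2)) := by
  rw [Fintype.sum_prod_type, Fintype.sum_prod_type]
  refine Finset.sum_congr rfl fun α _ => ?_
  rw [← φ.sum_comp, Fintype.sum_sum_type]
  simp only [hf, Finset.sum_const_zero, zero_add]

/-- the fermionic vacuum equations imply `Λ Λᵀ = 0` -/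
lemma etc_lam (S : Setup d F) (φ : Spl dh dm d) (D : Fin 9 → Matrix (Fin dm) (Fin dm) ℝ)
    (Om : Matrix (Fin dm) (Fin dm) ℝ) {v : F} (hv : v ≠ 0) (hvF : v ∈ S.F0 φ D Om) (p q : Fin 16 × Fin dm) :
    ∑ s : Fin 16 × Fin dm, S.Lam D Om p s * S.Lam D Om q s = 0 := by
  obtain ⟨a, ha⟩ : ∃ a : Fin 16 × Fin dm → Fin 16 × Fin d → ℂ,
      a = fun p s => Sum.elim (fun _ => 0) (fun B => S.Lam D Om p (s.1, B)) (φ.symm s.2) := ⟨_, rfl⟩
  have hL : ∀ (p : Fin 16 × Fin dm) (w : F), S.Lth φ D Om p w = U.VacT S (a p) w := by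
    intro p w
    unfold U.VacT
    rw [etc_sum φ _ (fun α A => by simp [ha])]
    simp only [Setup.Lth, _root_.sum_apply, _root_.smul_apply]
    refine Finset.sum_congr rfl fun s _ => ?_
    simp [ha]
  have h1 := U.VacT_anti S (a p) (a q) v
  rw [← hL, ← hL, ← hL, ← hL, hvF p, hvF q, map_zero, map_zero, add_zero] at h1
  have h2 := (smul_eq_zero.1 h1.symm).resolve_right hv
  rw [etc_sum φ _ (fun α A => by simp [ha])] at h2
  rw [← h2]
  refine Finset.sum_congr rfl fun s _ => ?_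
  simp [ha]

/-- if the fermionic vacuum space of antisymmetric matrices `D_i` is nonzero then they commute -/
theorem eta_comm_of (S : Setup d F) (φ : Spl dh dm d) (D : Fin 9 → Matrix (Fin dm) (Fin dm) ℝ)
    (Om : Matrix (Fin dm) (Fin dm) ℝ) (hD : ∀ i, (D i)ᵀ = -D i) {v : F} (hv : v ≠ 0) (hvF : v ∈ S.F0 φ D Om)
    (l k : Fin 9) : D l * D k = D k * D l := by
  by_cases hkl : l = k
  · rw [hkl]
  obtain ⟨X, hX⟩ : ∃ X : Fin dm → Fin dm → Matrix (Fin 16) (Fin 16) ℂ,
      X = fun A C => ((Om A C : ℝ) : ℂ) • (1 : Matrix (Fin 16) (Fin 16) ℂ) +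
        ∑ i, (-Complex.I * (S.κ : ℂ) * ((D i A C : ℝ) : ℂ)) • S.g i := ⟨_, rfl⟩
  have hXT : ∀ A C, (X A C)ᵀ = X A C := by
    intro A C
    rw [hX]
    simp only [Matrix.transpose_add, Matrix.transpose_smul, Matrix.transpose_one, Matrix.transpose_sum, S.g_symm]
  have hLam : ∀ (α γ : Fin 16) (A C : Fin dm), S.Lam D Om (α, A) (γ, C) = (1 / 2 : ℂ) * X A C α γ := by
    intro α γ A C
    rw [hX]
    simp only [Setup.Lam, Setup.PP, Matrix.of_apply, Matrix.add_apply, Matrix.smul_apply, Matrix.sum_apply,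
      Matrix.one_apply, smul_eq_mul]
    congr 1
    rw [sub_eq_add_neg]
    congr 1
    · split_ifs <;> simp
    · rw [Finset.mul_sum, Finset.mul_sum, ← Finset.sum_neg_distrib]
      exact Finset.sum_congr rfl fun i _ => by ring
  have hkey : ∀ A B, ∑ C, X A C * X B C = 0 := by
    intro A B
    ext α β
    have h1 := etc_lam S φ D Om hv hvF (α, A) (β, B)
    rw [Fintype.sum_prod_type_right] at h1
    simp only [hLam] at h1
    rw [Matrix.sum_apply, Matrix.zero_apply]
    have h2 : ∀ C, (X A C * X B C) α β = ∑ γ, X A C α γ * X B C β γ := by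
      intro C
      rw [Matrix.mul_apply]
      refine Finset.sum_congr rfl fun γ _ => ?_
      rw [← hXT B C, Matrix.transpose_apply, hXT B C]
    simp only [h2]
    have h3 : (1 / 4 : ℂ) * ∑ C, ∑ γ, X A C α γ * X B C β γ = 0 := by
      rw [← h1, Finset.mul_sum]
      refine Finset.sum_congr rfl fun C _ => ?_
      rw [Finset.mul_sum]
      exact Finset.sum_congr rfl fun γ _ => by ring
    exact (mul_eq_zero.1 h3).resolve_left (by norm_num)
  ext A B
  have h1 : ∑ C, (S.g l * S.g k * (X A C * X B C)).trace = 0 := by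
    rw [← Matrix.trace_sum, ← Finset.mul_sum, hkey, mul_zero, Matrix.trace_zero]
  have h2 : ∀ C, (S.g l * S.g k * (X A C * X B C)).trace =
      (-16 * (S.κ : ℂ) ^ 2) * (((D k A C * D l B C - D l A C * D k B C : ℝ)) : ℂ) := by
    intro C
    rw [hX, etc_trace S hkl]
    push_cast
    ring_nf
    rw [Complex.I_sq]
    ring
  simp only [h2] at h1
  rw [← Finset.mul_sum] at h1
  have hκ : (-16 * (S.κ : ℂ) ^ 2) ≠ 0 := by
    have : (S.κ : ℂ) ≠ 0 := by exact_mod_cast S.κ_pos.ne'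
    exact mul_ne_zero (by norm_num) (pow_ne_zero 2 this)
  have h3 := (mul_eq_zero.1 h1).resolve_left hκ
  have h4 : ∑ C, (D k A C * D l B C - D l A C * D k B C) = 0 := by exact_mod_cast h3
  have h5 : ∀ i B C, D i B C = -D i C B := by
    intro i B C
    have h := congrFun (congrFun (hD i) C) B
    rw [Matrix.transpose_apply, Matrix.neg_apply] at h
    exact h
  rw [Matrix.mul_apply, Matrix.mul_apply, ← sub_eq_zero, ← Finset.sum_sub_distrib, ← h4]
  refine Finset.sum_congr rfl fun C _ => ?_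
  rw [h5 l B C, h5 k B C]
  ring

/-- the matrices `D_i(η)` of a vacuum bundle commute off the collisions -/
theorem eta_comm (S : Setup d F) (φ : Spl dh dm d) (ψ : Spl ds dz dh) {L : Finset (Fin dz → ℝ)}
    {Om : Cfg dz → Matrix (Fin dm) (Fin dm) ℝ} {K : Submodule ℂ F} {U : Cfg dz → F →L[ℂ] F}
    (hB : AX.Bun S φ (AX.Mz S φ ψ) L Om K U) (hne : ∃ v : F, v ≠ 0) {η : Cfg dz} (hη : η ∉ Coll L) (i j : Fin 9) :
    AD.Dz S φ ψ η i * AD.Dz S φ ψ η j = AD.Dz S φ ψ η j * AD.Dz S φ ψ η i := by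
  obtain ⟨v, hvK, hv0⟩ := hB.K_ne hne
  have h1 : U η v ≠ 0 := by
    intro h
    have h2 := hB.U_inner η v v
    rw [h, inner_zero_left] at h2
    exact hv0 (inner_self_eq_zero.1 h2.symm)
  have h3 := (hB.U_mem η hη v).1 hvK
  rw [AX.DM_Mz] at h3
  refine eta_comm_of S φ _ _ (fun i => ?_) h1 h3 i j
  rw [← AX.DM_Mz]
  simp only [DM, Matrix.transpose_sum, Matrix.transpose_smul, AX.Mz_anti, smul_neg, Finset.sum_neg_distrib]

end Vale.Agent.P353.Z.AS

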