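import Vale.Agent.P353.AN.SGN.Stmt
import Vale.Agent.P353.AN.SGN.EtaComm

/-! # P353, all `N`, block SGN: the vacuum line at `η` (S8, helper275) -/

open MeasureTheory Filter Topology Matrix
open scoped ContDiff

namespace Vale.Agent.P353.Z.AS

variable {d dh dm ds dz : ℕ} {F : Type*} [NormedAddCommGroup F] [InnerProductSpace ℂ F]

lemma eta_amF_apply (S : Setup d F) (A : Fin d) (α : Fin 16) (v : F) :
    S.amF A α v = S.th α A v - Complex.I • ∑ γ, S.Gam α γ • S.th γ A v := by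
  unfold Setup.amF CS.vec
  simp only [_root_.sub_apply, _root_.smul_apply, _root_.sum_apply]

/-- `U η` commutes with the annihilators of the `h` colours -/
lemma eta_amF (S : Setup d F) (φ : Spl dh dm d) {ψ : Spl ds dz dh} {L : Finset (Fin dz → ℝ)}
    {Om : Cfg dz → Matrix (Fin dm) (Fin dm) ℝ} {K : Submodule ℂ F} {U : Cfg dz → F →L[ℂ] F}
    (hB : AX.Bun S φ (AX.Mz S φ ψ) L Om K U) (η : Cfg dz) (A : Fin dh) (α : Fin 16) (v : F) :
    S.amF (φ (Sum.inl A)) α (U η v) = U η (S.amF (φ (Sum.inl A)) α v) := by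
  have h : ∀ γ, S.th γ (φ (Sum.inl A)) (U η v) = U η (S.th γ (φ (Sum.inl A)) v) := fun γ =>
    (congrArg (fun T : F →L[ℂ] F => T v) (hB.U_comm η γ A)).symm
  rw [eta_amF_apply, eta_amF_apply]
  simp only [h, map_sub, map_smul, map_sum]

/-- **S8 EtaL** -/
theorem eta_stmt (S : Setup d F) (φ : Spl dh dm d) (ψ : Spl ds dz dh) : LineStmt S → JFStmt S φ → EtaStmt S φ ψ := by
  intro hline hJF hfd hirr L Om K U hB
  have hinj : ∀ η v, U η v = 0 → v = 0 := by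
    intro η v h
    have h2 := hB.U_inner η v v
    rw [h, inner_zero_left] at h2
    exact inner_self_eq_zero.1 h2.symm
  by_cases hne : ∃ v : F, v ≠ 0
  · have hdata : ∀ η ∉ Coll L, CStr (JF S φ (AD.Dz S φ ψ η) (Om η) 1 0) ∧
        ∀ v, v ∈ JV S (JF S φ (AD.Dz S φ ψ η) (Om η) 1 0) ↔
          v ∈ S.F0 φ (AD.Dz S φ ψ η) (Om η) ∧ ∀ A α, S.amF (φ (Sum.inl A)) α v = 0 := by
      intro η hη
      have h1 := hJF (AD.Dz S φ ψ η) (Om η) (fun i => ?_) (fun i j => eta_comm S φ ψ hB hne hη i j) ?_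
      · exact ⟨h1.1, h1.2.2.1⟩
      · rw [← AX.DM_Mz]
        simp only [DM, Matrix.transpose_sum, Matrix.transpose_smul, AX.Mz_anti, smul_neg, Finset.sum_neg_distrib]
      · rw [← AX.DM_Mz]
        exact hB.om η (hB.det η hη)
    have hfst : ∀ η ∉ Coll L, ∀ ζ, Gv S φ K ζ ↔ U η ζ ∈ JV S (JF S φ (AD.Dz S φ ψ η) (Om η) 1 0) := by
      intro η hη ζ
      rw [(hdata η hη).2, ← AX.DM_Mz, ← hB.U_mem η hη]
      refine and_congr_right fun _ => forall_congr' fun A => forall_congr' fun α => ?_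
      rw [eta_amF S φ hB]
      exact ⟨fun h => by rw [h, map_zero], fun h => hinj η _ h⟩
    refine ⟨hfst, fun ζ hζ hζ0 η hη v hv => ?_⟩
    obtain ⟨ζ', -, -, hu⟩ := hline hirr hne _ (hdata η hη).1
    obtain ⟨c₁, hc₁⟩ := hu (U η ζ) ((hfst η hη ζ).1 hζ)
    obtain ⟨c₂, hc₂⟩ := hu v hv
    have hc0 : c₁ ≠ 0 := fun h => hζ0 (hinj η ζ (by rw [hc₁, h, zero_smul]))
    refine ⟨c₂ * c₁⁻¹, ?_⟩
    rw [hc₁, smul_smul, mul_assoc, inv_mul_cancel₀ hc0, mul_one, ← hc₂]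
  · have h0 : ∀ v : F, v = 0 := fun v => by
      by_contra h
      exact hne ⟨v, h⟩
    refine ⟨fun η hη ζ => ?_, fun ζ _ hζ0 => absurd (h0 ζ) hζ0⟩
    rw [h0 ζ, map_zero]
    exact ⟨fun _ => Submodule.zero_mem _, fun _ => ⟨Submodule.zero_mem _, fun A α => map_zero _⟩⟩

end Vale.Agent.P353.Z.AS

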