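import Vale.Agent.P353.AN.SGN.Stmt

/-! # P353, all `N`, block SGN: good points (`EtaStarStmt`) -/

open MeasureTheory Filter Topology Matrix
open scoped ContDiff

namespace Vale.Agent.P353.Z.AS

universe u

namespace Es518

variable {d dh dm ds dz N k : ℕ} {F : Type*} [NormedAddCommGroup F] [InnerProductSpace ℂ F]

/-- the `m` part -/
noncomputable def mO (φ : Spl dh dm d) (O : Matrix (Fin d) (Fin d) ℝ) : Matrix (Fin dm) (Fin dm) ℝ :=
  Matrix.of fun A B => O (φ (Sum.inr A)) (φ (Sum.inr B))

/-- structure constants as a matrix -/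
noncomputable def fM (S : Setup d F) (B : Fin d) : Matrix (Fin d) (Fin d) ℝ := Matrix.of fun A C => S.f A B C

lemma sum_spl (φ : Spl dh dm d) (g : Fin d → ℝ) :
    ∑ A, g A = ∑ A, g (φ (Sum.inl A)) + ∑ A, g (φ (Sum.inr A)) := by
  rw [← φ.sum_comp, Fintype.sum_sum_type]

lemma fM_eq (S : Setup d F) {O : Matrix (Fin d) (Fin d) ℝ} (hO : Sym S O) (B : Fin d) :
    fM S B = ∑ B', O B' B • (Oᵀ * fM S B' * O) := by
  ext A C
  rw [fM, Matrix.of_apply, ← hO.inv A B C, Matrix.sum_apply, Finset.sum_comm]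
  refine Finset.sum_congr rfl fun B' _ => ?_
  rw [Matrix.smul_apply, Matrix.mul_apply, smul_eq_mul, Finset.mul_sum, Finset.sum_comm]
  refine Finset.sum_congr rfl fun C' _ => ?_
  rw [Matrix.mul_apply, Finset.sum_mul, Finset.mul_sum]
  refine Finset.sum_congr rfl fun A' _ => ?_
  rw [Matrix.transpose_apply, fM, Matrix.of_apply]
  ring

lemma fM_tr (S : Setup d F) {O : Matrix (Fin d) (Fin d) ℝ} (hO : Sym S O) (B : Fin d) :
    O * fM S B * Oᵀ = ∑ B', O B' B • fM S B' := by
  rw [fM_eq S hO B, Finset.mul_sum, Finset.sum_mul]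
  refine Finset.sum_congr rfl fun B' _ => ?_
  rw [Matrix.mul_smul, Matrix.smul_mul]
  congr 1
  have h1 : O * (Oᵀ * fM S B' * O) * Oᵀ = (O * Oᵀ) * fM S B' * (O * Oᵀ) := by
    simp only [Matrix.mul_assoc]
  rw [h1, hO.orth, Matrix.one_mul, Matrix.mul_one]

lemma mO_orth (S : Setup d F) {φ : Spl dh dm d} {ψ : Spl ds dz dh} {O : Matrix (Fin d) (Fin d) ℝ} (hO : Sym S O)
    (hb : Blk φ ψ O) : mO φ O * (mO φ O)ᵀ = 1 := by
  ext X Y
  have h1 := congrFun (congrFun hO.orth (φ (Sum.inr X))) (φ (Sum.inr Y))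
  rw [Matrix.mul_apply, sum_spl φ] at h1
  simp only [hb.mh, zero_mul, Finset.sum_const_zero, zero_add] at h1
  rw [Matrix.mul_apply]
  simp only [mO, Matrix.transpose_apply, Matrix.of_apply] at h1 ⊢
  rw [h1, Matrix.one_apply, Matrix.one_apply]
  simp only [EmbeddingLike.apply_eq_iff_eq, Sum.inr.injEq]

lemma Mz_tr (S : Setup d F) {φ : Spl dh dm d} {ψ : Spl ds dz dh} {O : Matrix (Fin d) (Fin d) ℝ} (hO : Sym S O)
    (hb : Blk φ ψ O) (a : Fin dz) :
    mO φ O * AX.Mz S φ ψ a * (mO φ O)ᵀ = ∑ a', zO φ ψ O a' a • AX.Mz S φ ψ a' := by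
  ext X Y
  have h1 := congrFun (congrFun (fM_tr S hO (φ (Sum.inl (ψ (Sum.inr a))))) (φ (Sum.inr X))) (φ (Sum.inr Y))
  rw [Matrix.mul_apply, sum_spl φ] at h1
  simp only [Matrix.transpose_apply, hb.mh, mul_zero, Finset.sum_const_zero, zero_add] at h1
  rw [Matrix.sum_apply, sum_spl φ] at h1
  simp only [Matrix.smul_apply, hb.mh, zero_smul, Finset.sum_const_zero, add_zero] at h1
  rw [sum_spl ψ (fun A => O (φ (Sum.inl A)) (φ (Sum.inl (ψ (Sum.inr a)))) • fM S (φ (Sum.inl A)) (φ (Sum.inr X)) (φ (Sum.inr Y)))] at h1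
  simp only [hb.sz, zero_smul, Finset.sum_const_zero, zero_add] at h1
  rw [Matrix.sum_apply]
  simp only [Matrix.smul_apply]
  rw [show (∑ a', zO φ ψ O a' a • AX.Mz S φ ψ a' X Y) = ∑ A, O (φ (Sum.inl (ψ (Sum.inr A)))) (φ (Sum.inl (ψ (Sum.inr a)))) •
    fM S (φ (Sum.inl (ψ (Sum.inr A)))) (φ (Sum.inr X)) (φ (Sum.inr Y)) from rfl, ← h1, Matrix.mul_apply]
  refine Finset.sum_congr rfl fun C _ => ?_
  congr 1
  rw [Matrix.mul_apply, Matrix.mul_apply, sum_spl φ]
  simp only [hb.mh, zero_mul, Finset.sum_const_zero, zero_add]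
  rfl

lemma DM_tr (S : Setup d F) {φ : Spl dh dm d} {ψ : Spl ds dz dh} {O : Matrix (Fin d) (Fin d) ℝ} (hO : Sym S O)
    (hb : Blk φ ψ O) (η : Cfg dz) (i : Fin 9) :
    DM (AX.Mz S φ ψ) (ro (zO φ ψ O) η) i = mO φ O * DM (AX.Mz S φ ψ) η i * (mO φ O)ᵀ := by
  have h1 : ∀ a, ro (zO φ ψ O) η (i, a) = ∑ b, zO φ ψ O a b * η (i, b) := fun a => rfl
  rw [DM, DM, Finset.mul_sum, Finset.sum_mul]
  simp only [Matrix.mul_smul, Matrix.smul_mul, Mz_tr S hO hb, h1, Finset.sum_smul, Finset.smul_sum, smul_smul]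
  rw [Finset.sum_comm]
  refine Finset.sum_congr rfl fun b _ => Finset.sum_congr rfl fun a _ => ?_
  rw [mul_comm]

lemma det_tr (S : Setup d F) {φ : Spl dh dm d} {ψ : Spl ds dz dh} {O : Matrix (Fin d) (Fin d) ℝ} (hO : Sym S O)
    (hb : Blk φ ψ O) (η : Cfg dz) (I : Finset (Fin 9))
    (h : (∑ i ∈ I, DM (AX.Mz S φ ψ) η i * DM (AX.Mz S φ ψ) η i).det ≠ 0) :
    (∑ i ∈ I, DM (AX.Mz S φ ψ) (ro (zO φ ψ O) η) i * DM (AX.Mz S φ ψ) (ro (zO φ ψ O) η) i).det ≠ 0 := by
  have h1 := mO_orth S hO hb
  have h2 : (mO φ O)ᵀ * mO φ O = 1 := mul_eq_one_comm.1 h1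
  have h3 : (∑ i ∈ I, DM (AX.Mz S φ ψ) (ro (zO φ ψ O) η) i * DM (AX.Mz S φ ψ) (ro (zO φ ψ O) η) i) =
      mO φ O * (∑ i ∈ I, DM (AX.Mz S φ ψ) η i * DM (AX.Mz S φ ψ) η i) * (mO φ O)ᵀ := by
    rw [Finset.mul_sum, Finset.sum_mul]
    refine Finset.sum_congr rfl fun i _ => ?_
    rw [DM_tr S hO hb]
    have h4 : ∀ D : Matrix (Fin dm) (Fin dm) ℝ, mO φ O * D * (mO φ O)ᵀ * (mO φ O * D * (mO φ O)ᵀ) =
        mO φ O * D * ((mO φ O)ᵀ * mO φ O) * D * (mO φ O)ᵀ := by
      intro D
      simp only [Matrix.mul_assoc]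
    rw [h4, h2, Matrix.mul_one]
    simp only [Matrix.mul_assoc]
  rw [h3, Matrix.det_mul, Matrix.det_mul]
  have h5 : (mO φ O).det * ((mO φ O)ᵀ).det = 1 := by
    rw [← Matrix.det_mul, h1, Matrix.det_one]
  intro h6
  have h7 : (∑ i ∈ I, DM (AX.Mz S φ ψ) η i * DM (AX.Mz S φ ψ) η i).det *
      ((mO φ O).det * ((mO φ O)ᵀ).det) = 0 := by
    rw [← h6]
    ring
  rw [h5, mul_one] at h7
  exact h h7

variable {n : Fin k → ℕ} {T : Fin d → Matrix (Fin N) (Fin N) ℂ} {φ : Spl dh dm d} {ψ : Spl ds dz dh}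

lemma val_RR (fr : NFr n T φ ψ) (t : ℝ) (η : Cfg dz) (i : Fin 9) (e : Fin k) :
    fr.val (RR 3 4 t η) i e = fr.val η i e + (Real.cos t - 1) *
      ((if i = 3 then fr.val η 3 e else 0) + (if i = 4 then fr.val η 4 e else 0)) +
      Real.sin t * ((if i = 3 then fr.val η 4 e else 0) - (if i = 4 then fr.val η 3 e else 0)) := by
  have h : ∀ (j : Fin 9) (g : Fin dz → ℝ), (if i = j then ∑ x, g x else 0) = ∑ x, if i = j then g x else 0 := by
    intro j g
    split_ifs
    · rfl
    · rw [Finset.sum_const_zero]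
  simp only [NFr.val, RR_apply]
  rw [h, h, h, h, ← Finset.sum_add_distrib, ← Finset.sum_sub_distrib, Finset.mul_sum, Finset.mul_sum,
    ← Finset.sum_add_distrib, ← Finset.sum_add_distrib]
  refine Finset.sum_congr rfl fun x _ => ?_
  split_ifs <;> ring

end Es518

open Es518 in
/-- **SGN-S20** -/
theorem etaStar_stmt {d dh dm ds dz N k : ℕ} {n : Fin k → ℕ} {T : Fin d → Matrix (Fin N) (Fin N) ℂ} {φ : Spl dh dm d}
    {ψ : Spl ds dz dh} {F : Type u} [NormedAddCommGroup F] [InnerProductSpace ℂ F] (S : Setup d F) (fr : NFr n T φ ψ) :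
    EtaStarStmt S fr := by
  intro hB hVal hReg hColl t Kc E l hRD
  obtain ⟨hv1, hv2, hv3, hv4, hv5⟩ := hVal hB
  have hC : ∀ η : Cfg dz, η ∉ Coll (Finset.univ.image l) ↔
      (∑ i ∈ Finset.univ.erase (8 : Fin 9), DM (AX.Mz S φ ψ) η i * DM (AX.Mz S φ ψ) η i).det ≠ 0 :=
    hColl dz dm (AX.Mz S φ ψ) t Kc E l hRD
  have hR : ∀ η : Cfg dz, η ∉ Coll (Finset.univ.image l) ↔
      ∀ a b, a ≠ b → ∃ i ∈ Finset.univ.erase (8 : Fin 9), fr.val η i a ≠ fr.val η i b := by
    intro η
    rw [hC, AX.DM_Mz]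
    exact hReg hB _ η
  -- vanishing directions
  have hz : ∀ (η : Cfg dz) (i : Fin 9), (∀ e, fr.val η i e = 0) → ∀ B, η (i, B) = 0 := by
    intro η i h B
    have h1 := hv4 η i
    simp only [h] at h1
    have h2 : ∑ B, η (i, B) ^ 2 = 0 := by
      rw [h1]
      simp
    have h3 := (Finset.sum_eq_zero_iff_of_nonneg (fun B _ => sq_nonneg (η (i, B)))).1 h2 B (Finset.mem_univ _)
    exact pow_eq_zero_iff (two_ne_zero) |>.1 h3
  -- centring
  have hn : (0 : ℝ) < ∑ e, (n e : ℝ) := by
    have h2 := fr.two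
    have : Nonempty (Fin k) := ⟨⟨0, by omega⟩⟩
    refine Finset.sum_pos (fun e _ => ?_) Finset.univ_nonempty
    have := fr.pos e
    exact_mod_cast this
  have hctr : ∀ u : Fin k → ℝ, ∑ e, (n e : ℝ) * (u e - (∑ e', (n e' : ℝ) * u e') / ∑ e', (n e' : ℝ)) = 0 := by
    intro u
    simp only [mul_sub, Finset.sum_sub_distrib]
    rw [← Finset.sum_mul, mul_div_cancel₀ _ hn.ne', sub_self]
  refine ⟨?_, ?_, ?_⟩
  · intro O hO hb η hη
    rw [hC] at hη ⊢
    exact det_tr S hO hb η _ hη
  · obtain ⟨η, hη⟩ := hv2 (fun i e => if i = 3 then (e.val : ℝ) - (∑ e' : Fin k, (n e' : ℝ) * (e'.val : ℝ)) / ∑ e', (n e' : ℝ)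
      else 0) (by
        intro i
        by_cases hi : i = 3
        · simp only [if_pos hi]
          exact hctr (fun e => (e.val : ℝ))
        · simp only [if_neg hi]
          simp)
    refine ⟨η, ?_, ?_⟩
    · rw [hR]
      intro a b hab
      refine ⟨3, by decide, ?_⟩
      rw [hη, hη, if_pos rfl, if_pos rfl]
      intro h
      have h1 : (a.val : ℝ) = (b.val : ℝ) := by linarith
      exact hab (Fin.ext (by exact_mod_cast h1))
    · intro i hi a
      refine hz η i (fun e => ?_) a
      rw [hη, if_neg]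
      rintro rfl
      exact absurd hi (by decide)
  · intro a b hab hnab
    -- the values
    let u3 : Fin k → ℝ := fun e => if e = a then 1 else if e = b then -1 else 0
    let u5 : Fin k → ℝ := fun e => if e = a ∨ e = b then 0 else (e.val : ℝ) + 1
    have hu3 : ∑ e, (n e : ℝ) * u3 e = 0 := by
      have h1 : ∀ e, (n e : ℝ) * u3 e = (if e = a then (n a : ℝ) else 0) - (if e = b then (n b : ℝ) else 0) := by
        intro e
        by_cases h2 : e = a
        · subst h2
          simp [u3, hab]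
        · by_cases h3 : e = b
          · subst h3
            simp [u3, h2]
          · simp [u3, h2, h3]
      rw [Finset.sum_congr rfl fun e _ => h1 e, Finset.sum_sub_distrib]
      simp [hnab]
    obtain ⟨η, hη⟩ := hv2 (fun i e => if i = 3 then u3 e else
      if i = 5 then u5 e - (∑ e', (n e' : ℝ) * u5 e') / ∑ e', (n e' : ℝ) else 0) (by
        intro i
        by_cases hi : i = 3
        · simp only [if_pos hi]
          exact hu3
        · by_cases hi5 : i = 5
          · simp only [if_neg hi, if_pos hi5]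
            exact hctr u5
          · simp only [if_neg hi, if_neg hi5]
            simp)
    have h3 : ∀ e, fr.val η 3 e = u3 e := fun e => by rw [hη, if_pos rfl]
    have h4 : ∀ e, fr.val η 4 e = 0 := fun e => by
      rw [hη, if_neg (by decide), if_neg (by decide)]
    have h5 : ∀ e, fr.val η 5 e = u5 e - (∑ e', (n e' : ℝ) * u5 e') / ∑ e', (n e' : ℝ) := fun e => by
      rw [hη, if_neg (by decide), if_pos rfl]
    have r3 : ∀ t e, fr.val (RR 3 4 t η) 3 e = Real.cos t * u3 e := by
      intro t e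
      rw [val_RR, if_pos rfl, if_pos rfl, if_neg (by decide), if_neg (by decide), h3, h4]
      ring
    have r4 : ∀ t e, fr.val (RR 3 4 t η) 4 e = -(Real.sin t * u3 e) := by
      intro t e
      rw [val_RR, if_pos rfl, if_pos rfl, if_neg (by decide), if_neg (by decide), h3, h4]
      ring
    have r5 : ∀ t e, fr.val (RR 3 4 t η) 5 e = fr.val η 5 e := by
      intro t e
      rw [val_RR, if_neg (by decide), if_neg (by decide), if_neg (by decide), if_neg (by decide)]
      ring
    refine ⟨η, ?_, ?_, ?_⟩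
    · intro i hi e
      refine hz η i (fun e => ?_) e
      rw [hη, if_neg, if_neg]
      · rintro rfl
        exact absurd hi (by decide)
      · rintro rfl
        exact absurd hi (by decide)
    · intro t
      rw [hR]
      intro c e hce
      by_cases hc5 : u5 c = u5 e
      · -- then `c`, `e` are `a`, `b`
        have hcc : (c = a ∨ c = b) ∧ (e = a ∨ e = b) := by
          by_cases q1 : c = a ∨ c = b
          · by_cases q2 : e = a ∨ e = b
            · exact ⟨q1, q2⟩
            · exfalso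
              simp only [u5, if_pos q1, if_neg q2] at hc5
              have : (0 : ℝ) ≤ (e.val : ℝ) := Nat.cast_nonneg _
              linarith
          · by_cases q2 : e = a ∨ e = b
            · exfalso
              simp only [u5, if_neg q1, if_pos q2] at hc5
              have : (0 : ℝ) ≤ (c.val : ℝ) := Nat.cast_nonneg _
              linarith
            · exfalso
              simp only [u5, if_neg q1, if_neg q2] at hc5
              have h1 : (c.val : ℝ) = (e.val : ℝ) := by linarith
              exact hce (Fin.ext (by exact_mod_cast h1))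
        have hu : u3 c ≠ u3 e := by
          rcases hcc with ⟨rfl | rfl, rfl | rfl⟩
          · exact absurd rfl hce
          · simp only [u3, if_true, if_neg hab.symm]
            norm_num
          · simp only [u3, if_true, if_neg hab.symm]
            norm_num
          · exact absurd rfl hce
        by_cases hcos : Real.cos t = 0
        · refine ⟨4, by decide, ?_⟩
          rw [r4, r4]
          intro h
          have hs : Real.sin t ≠ 0 := by
            intro hs
            have := Real.sin_sq_add_cos_sq t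
            rw [hs, hcos] at this
            norm_num at this
          apply hu
          have h1 : Real.sin t * u3 c = Real.sin t * u3 e := neg_injective h
          exact mul_left_cancel₀ hs h1
        · refine ⟨3, by decide, ?_⟩
          rw [r3, r3]
          intro h
          exact hu (mul_left_cancel₀ hcos h)
      · refine ⟨5, by decide, ?_⟩
        rw [r5, r5, h5, h5]
        intro h
        apply hc5
        linarith
    · intro i e
      by_cases i3 : i = 3
      · subst i3
        rw [r3, h3, Real.cos_pi]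
        by_cases q1 : e = a
        · subst q1
          simp only [u3, Equiv.swap_apply_left, if_true, if_neg hab.symm]
          norm_num
        · by_cases q2 : e = b
          · subst q2
            simp only [u3, Equiv.swap_apply_right, if_true, if_neg hab.symm]
            norm_num
          · rw [Equiv.swap_apply_of_ne_of_ne q1 q2]
            simp only [u3, if_neg q1, if_neg q2]
            norm_num
      · by_cases i4 : i = 4
        · subst i4
          rw [r4, h4, Real.sin_pi]
          norm_num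
        · by_cases i5 : i = 5
          · subst i5
            rw [r5, h5, h5]
            congr 1
            by_cases q1 : e = a
            · subst q1
              simp only [u5, Equiv.swap_apply_left]
              simp
            · by_cases q2 : e = b
              · subst q2
                simp only [u5, Equiv.swap_apply_right]
                simp
              · rw [Equiv.swap_apply_of_ne_of_ne q1 q2]
          · rw [val_RR, if_neg i3, if_neg i4, if_neg i3, if_neg i4, hη, hη, if_neg i3, if_neg i5, if_neg i3, if_neg i5]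
            ring

end Vale.Agent.P353.Z.AS
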