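import Vale.Agent.P353.AN.SGN.Stmt
import Vale.Agent.P353.AN.F.Vac
import Vale.Agent.P353.Z.U.A1

/-! # P353, all `N`, block SGN: rotations and colour maps on the one particle space (`VacRStmt`) -/

open MeasureTheory Filter Topology Matrix
open scoped ContDiff

namespace Vale.Agent.P353.Z.AS

namespace VR808

variable {d dh dm : ℕ} {F : Type*} [NormedAddCommGroup F] [InnerProductSpace ℂ F]

lemma g2_tr (S : Setup d F) {k l : Fin 9} (_h : k ≠ l) : (S.g2 k l)ᵀ = -S.g2 k l := by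
  unfold CS.g2
  rw [Matrix.transpose_smul, Matrix.transpose_sub, Matrix.transpose_mul, Matrix.transpose_mul, S.g_symm,
    S.g_symm, ← smul_neg, neg_sub]

lemma gt_tr_mul (S : Setup d F) {k l : Fin 9} (h : k ≠ l) (t : ℝ) : (gtt S k l t)ᵀ * gtt S k l t = 1 := by
  have h2 : S.g2 k l * S.g2 k l = -1 := S.g2_sq h
  unfold gtt
  rw [Matrix.transpose_add, Matrix.transpose_smul, Matrix.transpose_smul, Matrix.transpose_one, g2_tr S h]
  simp only [add_mul, mul_add, Matrix.smul_mul, Matrix.mul_smul, one_mul, mul_one, neg_mul, h2, neg_neg,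
    smul_neg]
  have hsc : (Real.sin (t / 2) : ℂ) ^ 2 + (Real.cos (t / 2) : ℂ) ^ 2 = 1 := by
    have := Real.sin_sq_add_cos_sq (t / 2)
    exact_mod_cast this
  linear_combination (norm := module) hsc • (1 : Matrix (Fin 16) (Fin 16) ℂ)

lemma gt_mul_tr (S : Setup d F) {k l : Fin 9} (h : k ≠ l) (t : ℝ) : gtt S k l t * (gtt S k l t)ᵀ = 1 :=
  mul_eq_one_comm.1 (gt_tr_mul S h t)

lemma sT_mul (g h : Matrix (Fin 16) (Fin 16) ℂ) :
    (sT g : Matrix (Fin 16 × Fin d) (Fin 16 × Fin d) ℂ) * sT h = sT (g * h) := by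
  ext ⟨α, A⟩ ⟨β, B⟩
  rw [Matrix.mul_apply, Fintype.sum_prod_type]
  simp only [sT, Matrix.of_apply, Matrix.mul_apply]
  by_cases hAB : A = B
  · subst hAB
    rw [if_pos rfl]
    refine Finset.sum_congr rfl fun γ _ => ?_
    rw [Finset.sum_eq_single A]
    · simp
    · intro C _ hC
      rw [if_neg (Ne.symm hC), zero_mul]
    · intro hA
      exact absurd (Finset.mem_univ A) hA
  · rw [if_neg hAB]
    refine Finset.sum_eq_zero fun γ _ => Finset.sum_eq_zero fun C _ => ?_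
    by_cases hC : A = C
    · subst hC
      rw [if_neg hAB, mul_zero]
    · rw [if_neg hC, zero_mul]

lemma sT_tr (g : Matrix (Fin 16) (Fin 16) ℂ) :
    (sT g : Matrix (Fin 16 × Fin d) (Fin 16 × Fin d) ℂ)ᵀ = sT gᵀ := by
  ext ⟨α, A⟩ ⟨β, B⟩
  simp only [sT, Matrix.of_apply, Matrix.transpose_apply]
  by_cases h : A = B
  · subst h
    simp
  · rw [if_neg h, if_neg (fun h' => h h'.symm)]

lemma sT_one : (sT 1 : Matrix (Fin 16 × Fin d) (Fin 16 × Fin d) ℂ) = 1 := by
  ext ⟨α, A⟩ ⟨β, B⟩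
  simp only [sT, Matrix.of_apply, Matrix.one_apply, Prod.mk.injEq]
  by_cases h : A = B
  · subst h
    simp
  · simp [h]

lemma vec_one (S : Setup d F) (A : Fin d) (α : Fin 16) : S.vec 1 A α = S.th α A := by
  unfold CS.vec
  rw [Finset.sum_eq_single α]
  · rw [Matrix.one_apply_eq, one_smul]
  · intro β _ hβ
    rw [Matrix.one_apply_ne hβ.symm, zero_smul]
  · intro h
    exact absurd (Finset.mem_univ α) h

/-- `st θ_q = ∑ (g_t)_{αq} θ_α st` -/
lemma imT [CompleteSpace F] (S : Setup d F) {k l : Fin 9} (h : k ≠ l) (t : ℝ) :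
    ImT S (sT (gtt S k l t)) (spr S k l t) := by
  rintro ⟨β, A⟩
  have h1 := S.vec_mul_st h (gtt S k l t)ᵀ A β t
  have h2 : (gtt S k l t)ᵀ * S.gt k l t = 1 := gt_tr_mul S h t
  rw [h2, vec_one] at h1
  have h3 : S.st k l t = spr S k l t := rfl
  rw [h3] at h1
  rw [← h1, Fintype.sum_prod_type]
  unfold CS.vec
  rw [Finset.sum_mul]
  refine Finset.sum_congr rfl fun α _ => ?_
  rw [Finset.sum_eq_single A]
  · simp only [sT, Matrix.of_apply, if_true, Matrix.transpose_apply, smul_mul_assoc]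
  · intro B _ hB
    simp only [sT, Matrix.of_apply]
    rw [if_neg hB, zero_smul]
  · intro hA
    exact absurd (Finset.mem_univ A) hA

lemma spr_vac [CompleteSpace F] (S : Setup d F) (k l : Fin 9) (v : F) (hv : S.Skl k l v = 0) (t : ℝ) :
    spr S k l t v = v := by
  have hd : ∀ s : ℝ, HasDerivAt (fun s => S.st k l s v) 0 s := by
    intro s
    have h := S.hasDerivAt_st k l s
    have h1 := ((ContinuousLinearMap.apply ℂ F v).restrictScalars ℝ).hasFDerivAt.comp_hasDerivAt s h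
    have h2 : ((Complex.I • S.Skl k l) * S.st k l s) v = 0 := by
      rw [smul_mul_assoc, S.st_comm, _root_.smul_apply, mul_apply_eq_comp, hv, map_zero, smul_zero]
    refine HasDerivAt.congr_deriv (f := fun s => S.st k l s v) h1 ?_
    exact h2
  have hc := is_const_of_deriv_eq_zero (f := fun s => S.st k l s v)
    (fun s => (hd s).differentiableAt) (fun s => (hd s).deriv) t 0
  have h0 : S.st k l 0 v = v := by rw [S.st_zero]; rfl
  show S.st k l t v = v
  rw [← h0]
  simpa [h0] using hc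

lemma tr_sa {m : ℕ} {P D : Matrix (Fin m) (Fin m) ℝ} (hP : Pᵀ = P) (hD : Dᵀ = -D) : (P * D).trace = 0 := by
  have h : (P * D).trace = -(P * D).trace := by
    calc (P * D).trace = ((P * D)ᵀ).trace := (Matrix.trace_transpose _).symm
      _ = (-D * P).trace := by rw [Matrix.transpose_mul, hP, hD]
      _ = -(P * D).trace := by rw [neg_mul, Matrix.trace_neg, Matrix.trace_mul_comm]
  exact self_eq_neg.1 h

lemma Gam_tr (S : Setup d F) : S.Gamᵀ = -S.Gam := by
  have h01 : S.g 0 * S.g 1 = -(S.g 1 * S.g 0) := S.g_ac (by decide)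
  have h02 : S.g 0 * S.g 2 = -(S.g 2 * S.g 0) := S.g_ac (by decide)
  have h12 : S.g 1 * S.g 2 = -(S.g 2 * S.g 1) := S.g_ac (by decide)
  unfold Setup.Gam
  rw [Matrix.transpose_mul, Matrix.transpose_mul, S.g_symm, S.g_symm, S.g_symm]
  have e : S.g 0 * S.g 1 * S.g 2 = -(S.g 2 * (S.g 1 * S.g 0)) := by
    calc S.g 0 * S.g 1 * S.g 2 = S.g 0 * (S.g 1 * S.g 2) := mul_assoc _ _ _
      _ = -(S.g 0 * S.g 2 * S.g 1) := by rw [h12, mul_neg, mul_assoc]
      _ = S.g 2 * S.g 0 * S.g 1 := by rw [h02, neg_mul, neg_neg]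
      _ = S.g 2 * (S.g 0 * S.g 1) := mul_assoc _ _ _
      _ = -(S.g 2 * (S.g 1 * S.g 0)) := by rw [h01, mul_neg]
  rw [e, neg_neg]

end VR808

open VR808

variable {d dh dm : ℕ} {F : Type*} [NormedAddCommGroup F] [InnerProductSpace ℂ F]

/-- **S7 VacR** -/
theorem vacR_stmt (S : Setup d F) (φ : Spl dh dm d) : VacRStmt S φ := by
  intro hF k l hkl
  have : CompleteSpace F := FiniteDimensional.complete ℂ F
  refine ⟨fun t => ⟨imT S hkl.1 t, fun v => S.st_norm k l t v, ?_⟩, ?_, ?_⟩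
  · rw [sT_tr, sT_mul, gt_mul_tr S hkl.1 t, sT_one]
  · intro v hv
    have h := S.vf_Skl hv hkl
    exact ⟨h, fun t => spr_vac S k l v h t⟩
  · intro D Om hD _ hO
    have hOi : (Om⁻¹)ᵀ = Om⁻¹ := by rw [transpose_nonsing_inv, hO.symm]
    have hsum : ∀ α β : Fin 16, ∑ A, S.g2 k l α β * JF S φ D Om 1 0 (α, A) (β, A) =
        (dh : ℂ) * (S.g2 k l α β * S.Gam α β) := by
      intro α β
      rw [← φ.sum_comp, Fintype.sum_sum_type]
      have e1 : ∀ A : Fin dh, JF S φ D Om 1 0 (α, φ (Sum.inl A)) (β, φ (Sum.inl A)) = S.Gam α β := by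
        intro A
        simp [JF]
      have e2 : ∀ A : Fin dm, JF S φ D Om 1 0 (α, φ (Sum.inr A)) (β, φ (Sum.inr A)) =
          (S.κ : ℂ) * ∑ i, S.g i α β * (((Om⁻¹ * D i) A A : ℝ) : ℂ) := by
        intro A
        simp [JF]
      simp only [e1, e2]
      rw [Finset.sum_const, Finset.card_univ, Fintype.card_fin, nsmul_eq_mul]
      have e3 : ∑ A : Fin dm, S.g2 k l α β * ((S.κ : ℂ) * ∑ i, S.g i α β * (((Om⁻¹ * D i) A A : ℝ) : ℂ)) = 0 := by
        rw [← Finset.mul_sum, ← Finset.mul_sum, Finset.sum_comm]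
        have e4 : ∀ i, ∑ A : Fin dm, S.g i α β * (((Om⁻¹ * D i) A A : ℝ) : ℂ) = 0 := by
          intro i
          have h1 := tr_sa hOi (hD i)
          rw [← Finset.mul_sum, ← Complex.ofReal_sum]
          have h2 : ∑ A, (Om⁻¹ * D i) A A = 0 := h1
          rw [h2, Complex.ofReal_zero, mul_zero]
        simp only [e4, Finset.sum_const_zero, mul_zero]
      rw [e3, add_zero]
    simp only [hsum]
    have h3 : ∑ α, ∑ β, S.g2 k l α β * S.Gam α β = 0 := by
      have h4 : (S.g2 k l * S.Gamᵀ).trace = ∑ α, ∑ β, S.g2 k l α β * S.Gam α β := by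
        simp only [Matrix.trace, Matrix.diag_apply, Matrix.mul_apply, Matrix.transpose_apply]
      rw [← h4, Gam_tr, mul_neg, Matrix.trace_neg, Matrix.trace_mul_comm, S.trace_Gam_g2_a1, neg_zero]
    have h5 : ∑ α, ∑ β, (dh : ℂ) * (S.g2 k l α β * S.Gam α β) = (dh : ℂ) * ∑ α, ∑ β, S.g2 k l α β * S.Gam α β := by
      rw [Finset.mul_sum]
      exact Finset.sum_congr rfl fun α _ => (Finset.mul_sum _ _ _).symm
    rw [h5, h3, mul_zero]

end Vale.Agent.P353.Z.AS
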