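import Vale.Agent.P353.AN.SGN.Stmt
import Vale.Agent.P353.AN.SGN.VacR
import Vale.Agent.P353.AN.X2.StmtG
import Vale.Agent.P353.Z.RotD
import Vale.Agent.P353.Z.U.ZJ
import Mathlib.Analysis.Distribution.AEEqOfIntegralContDiff

/-! # P353, all `N`, block SGN: zero modes are even (`EvenStmt`) -/

open MeasureTheory Filter Topology Matrix
open scoped ContDiff

namespace Vale.Agent.P353.Z.AS

universe u

namespace Ev977

variable {d : ℕ} {F : Type*} [NormedAddCommGroup F] [InnerProductSpace ℂ F]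

lemma RR_two_pi {k l : Fin 9} (x : Cfg d) : RR k l (-(2 * Real.pi)) x = x := by
  ext p
  obtain ⟨i, A⟩ := p
  rw [RR_apply, Real.cos_neg, Real.cos_two_pi, Real.sin_neg, Real.sin_two_pi]
  simp

lemma gt_two_pi (S : Setup d F) (k l : Fin 9) : gtt S k l (2 * Real.pi) = -1 := by
  unfold gtt
  have h : 2 * Real.pi / 2 = Real.pi := by ring
  rw [h, Real.cos_pi, Real.sin_pi]
  simp

/-- `V_{2π}` implements `-1` -/
lemma imp_two_pi {S : Setup d F} [CompleteSpace F] {V : F →L[ℂ] F} {k l : Fin 9}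
    (h1 : ImT S (sT (gtt S k l (2 * Real.pi))) V) (h2 : ∀ v, ‖V v‖ = ‖v‖)
    (h3 : ∀ v, (∀ A α, S.amF A α v = 0) → V v = v) : Imp S (-1) V := by
  refine ⟨by simp, fun α A => ?_, h2, h3⟩
  have h := h1 (α, A)
  rw [gt_two_pi] at h
  have e : ∀ p : Fin 16 × Fin d, (sT (-1 : Matrix (Fin 16) (Fin 16) ℂ) : Matrix (Fin 16 × Fin d) (Fin 16 × Fin d) ℂ) p (α, A) =
      if p = (α, A) then -1 else 0 := by
    rintro ⟨β, B⟩
    simp only [sT, Matrix.of_apply, Matrix.neg_apply, Matrix.one_apply, Prod.mk.injEq]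
    by_cases hB : B = A
    · by_cases hβ : β = α
      · simp [hB, hβ]
      · simp [hB, hβ]
    · simp [hB]
  simp only [e, ite_smul, zero_smul, Finset.sum_ite_eq', Finset.mem_univ, if_true] at h
  rw [h]
  have e2 : ∀ B : Fin d, (((-1 : Matrix (Fin d) (Fin d) ℝ) B A : ℝ) : ℂ) • (S.th α B * V) =
      if B = A then (-1 : ℂ) • (S.th α A * V) else 0 := by
    intro B
    by_cases hB : B = A
    · subst hB
      simp
    · simp [hB]
  simp only [e2, Finset.sum_ite_eq', Finset.mem_univ, if_true]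

lemma inl (r : ℝ) (x y : F) : inner ℂ (r • x) y = (r : ℂ) * inner ℂ x y := by
  rw [← Complex.coe_smul, inner_smul_left, Complex.conj_ofReal]

lemma inr (r : ℝ) (x y : F) : inner ℂ x (r • y) = (r : ℂ) * inner ℂ x y := by
  rw [← Complex.coe_smul, inner_smul_right]

lemma inner_int [CompleteSpace F] {f : Cfg d → F} (hf : Integrable f (volume : Measure (Cfg d))) (w : F) :
    inner ℂ (∫ x, f x) w = ∫ x, inner ℂ (f x) w := by
  rw [← inner_conj_symm, ← integral_inner hf w, ← integral_conj]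
  congr 1
  ext x
  rw [inner_conj_symm]

/-- weak rotation invariance integrated -/
lemma rot_const (S : Setup d F) [CompleteSpace F] {k l : Fin 9} (h : k ≠ l)
    (Ψ : Lp F 2 (volume : Measure (Cfg d)))
    (hJ : ∀ ζ, Setup.Tst ζ → ∫ x, inner ℂ (S.J k l ζ x) (Ψ x) = 0) (ζ : Cfg d → F) (hζ : Setup.Tst ζ) (t : ℝ) :
    ∫ x, inner ℂ (Ψ x) (S.Ut k l t ζ x) = ∫ x, inner ℂ (Ψ x) (ζ x) := by
  have hloc : LocallyIntegrable (fun x => (Ψ : Cfg d → F) x) (volume : Measure (Cfg d)) :=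
    (Lp.memLp Ψ).locallyIntegrable (by norm_num)
  have hd : ∀ s, HasDerivAt (fun t => ∫ x, inner ℂ (Ψ x) (S.Ut k l t ζ x)) 0 s := by
    intro s
    have h1 := S.hasDerivAt_integral_Ut h hloc hζ s
    have h2 : ∫ x, inner ℂ (Ψ x) (Complex.I • S.J k l (S.Ut k l s ζ) x) = 0 := by
      have h3 := hJ (S.Ut k l s ζ) (hζ.Ut S h s)
      have h4 : ∀ x, inner ℂ (Ψ x) (Complex.I • S.J k l (S.Ut k l s ζ) x) =
          Complex.I * (starRingEnd ℂ) (inner ℂ (S.J k l (S.Ut k l s ζ) x) (Ψ x)) := by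
        intro x
        rw [inner_smul_right, inner_conj_symm]
      simp only [h4]
      rw [integral_const_mul, integral_conj, h3, map_zero, mul_zero]
    rw [h2] at h1
    exact h1
  have hc := is_const_of_deriv_eq_zero (f := fun t => ∫ x, inner ℂ (Ψ x) (S.Ut k l t ζ x))
    (fun s => (hd s).differentiableAt) (fun s => (hd s).deriv) t 0
  refine hc.trans ?_
  congr 1
  ext x
  simp [Setup.Ut, S.st_zero, RR_zero]

lemma rot_inv (S : Setup d F) [CompleteSpace F] {k l : Fin 9} (h : k ≠ l)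
    (Ψ : Lp F 2 (volume : Measure (Cfg d)))
    (hJ : ∀ ζ, Setup.Tst ζ → ∫ x, inner ℂ (S.J k l ζ x) (Ψ x) = 0) :
    ∀ᵐ x ∂(volume : Measure (Cfg d)), S.st k l (2 * Real.pi) (Ψ x) = Ψ x := by
  have hloc : LocallyIntegrable (fun x => (Ψ : Cfg d → F) x) (volume : Measure (Cfg d)) :=
    (Lp.memLp Ψ).locallyIntegrable (by norm_num)
  have hmem : MemLp (fun x => S.st k l (-(2 * Real.pi)) (Ψ x) - Ψ x) 2 (volume : Measure (Cfg d)) :=
    ((S.st k l (-(2 * Real.pi))).comp_memLp' (Lp.memLp Ψ)).sub (Lp.memLp Ψ)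
  have hloc2 : LocallyIntegrable (fun x => S.st k l (-(2 * Real.pi)) (Ψ x) - Ψ x)
      (volume : Measure (Cfg d)) := hmem.locallyIntegrable (by norm_num)
  have key : ∀ᵐ x ∂(volume : Measure (Cfg d)), S.st k l (-(2 * Real.pi)) (Ψ x) - Ψ x = 0 := by
    refine ae_eq_zero_of_integral_contDiff_smul_eq_zero hloc2 fun g hg hgc => ?_
    have hint : Integrable (fun x => g x • (S.st k l (-(2 * Real.pi)) (Ψ x) - Ψ x)) (volume : Measure (Cfg d)) := by
      simpa using hloc2.integrable_smul_left_of_hasCompactSupport hg.continuous hgc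
    have hz : ∀ w : F, inner ℂ (∫ x, g x • (S.st k l (-(2 * Real.pi)) (Ψ x) - Ψ x)) w = 0 := by
      intro w
      have hT : Setup.Tst (fun x => g x • w) := ⟨hg.smul contDiff_const, hgc.smul_right⟩
      have h1 := rot_const S h Ψ hJ (fun x => g x • w) hT (2 * Real.pi)
      have hI1 : Integrable (fun x => g x • S.st k l (-(2 * Real.pi)) (Ψ x)) (volume : Measure (Cfg d)) := by
        have hm : MemLp (fun x => S.st k l (-(2 * Real.pi)) (Ψ x)) 2 (volume : Measure (Cfg d)) :=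
          (S.st k l (-(2 * Real.pi))).comp_memLp' (Lp.memLp Ψ)
        exact (hm.locallyIntegrable (by norm_num)).integrable_smul_left_of_hasCompactSupport hg.continuous hgc
      have hI2 : Integrable (fun x => g x • (Ψ x)) (volume : Measure (Cfg d)) :=
        hloc.integrable_smul_left_of_hasCompactSupport hg.continuous hgc
      have e1 : ∀ x, inner ℂ (Ψ x) (S.Ut k l (2 * Real.pi) (fun x => g x • w) x) =
          inner ℂ (g x • S.st k l (-(2 * Real.pi)) (Ψ x)) w := by
        intro x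
        simp only [Setup.Ut, RR_two_pi]
        have hs : S.st k l (2 * Real.pi) (g x • w) = g x • S.st k l (2 * Real.pi) w := by
          rw [← Complex.coe_smul, map_smul, Complex.coe_smul]
        rw [inl, hs, inr, ← inner_conj_symm (Ψ x), S.st_adj, inner_conj_symm]
      have e2 : ∀ x, inner ℂ (Ψ x) (g x • w) = inner ℂ (g x • (Ψ x)) w := by
        intro x
        rw [inl, inr]
      simp only [e1, e2] at h1
      have e3 : inner ℂ (∫ x, g x • (S.st k l (-(2 * Real.pi)) (Ψ x) - Ψ x)) w =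
          (∫ x, inner ℂ (g x • S.st k l (-(2 * Real.pi)) (Ψ x)) w) - ∫ x, inner ℂ (g x • (Ψ x)) w := by
        rw [← inner_int hI1, ← inner_int hI2, ← inner_sub_left, ← integral_sub hI1 hI2]
        congr 2
        ext x
        rw [smul_sub]
      rw [e3, h1, sub_self]
    exact inner_self_eq_zero.1 (hz _)
  filter_upwards [key] with x hx
  have h1 : S.st k l (-(2 * Real.pi)) (Ψ x) = Ψ x := sub_eq_zero.1 hx
  have h2 := congrArg (fun T : F →L[ℂ] F => T (Ψ x)) (S.st_mul_neg k l (2 * Real.pi))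
  simp only [mul_apply_eq_comp, _root_.one_apply_eq_self] at h2
  rw [h1] at h2
  exact h2

end Ev977

open Ev977

variable {d : ℕ} {F : Type u} [NormedAddCommGroup F] [InnerProductSpace ℂ F]

/-- **S14 Even** -/
theorem even_stmt (S : Setup d F) (hSec : AX2.SecStmt S) : EvenStmt S := by
  intro hfd hirr hne P hP Ψ hΨ
  have : CompleteSpace F := FiniteDimensional.complete ℂ F
  have h34 : Same 3 4 := by
    refine ⟨by decide, ?_⟩
    decide
  obtain ⟨hA, hB, -⟩ := vacR_stmt S (Equiv.sumEmpty (Fin d) (Fin 0) : Spl d 0 d) hfd 3 4 h34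
  have hV : Imp S (-1) (spr S 3 4 (2 * Real.pi)) :=
    imp_two_pi (hA _).1 (hA _).2.1 fun v hv => (hB v hv).2 _
  have hPV : P = spr S 3 4 (2 * Real.pi) := (hSec hfd hirr hne).2 _ _ _ hP hV
  have hJ := U.zj S Ψ hΨ 3 4 h34.1
  have h := rot_inv S h34.1 Ψ hJ
  filter_upwards [h] with x hx
  rw [hPV]
  exact hx

end Vale.Agent.P353.Z.AS
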