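import Vale.Agent.P353.AN.SGN.Stmt
import Vale.Agent.P353.AN.NF.Std
import Vale.Agent.P353.AN.NF.Reg
import Vale.Agent.P353.AN.NF.Ex
import Vale.Agent.P353.Z.U.MAd

/-! # P353, all `N`, block SGN, S21: the `s` part of a normaliser element with trivial `z` part is inner (prover helper655) -/

open MeasureTheory Filter Topology Matrix
open scoped ContDiff

namespace Vale.Agent.P353.Z.AS

section Log

open scoped Matrix.Norms.L2Operator

/-- logarithm of a unitary matrix, commuting with everything that commutes with the matrix -/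
theorem ef655_log {N : ℕ} (V : Matrix (Fin N) (Fin N) ℂ) (hV : V ∈ unitary (Matrix (Fin N) (Fin N) ℂ)) :
    ∃ K : Matrix (Fin N) (Fin N) ℂ, K.IsHermitian ∧ NormedSpace.exp (Complex.I • K) = V ∧
      ∀ B : Matrix (Fin N) (Fin N) ℂ, V * B = B * V → star V * B = B * star V → K * B = B * K := by
  have hnorm : IsStarNormal V := by
    refine ⟨?_⟩
    rw [Commute, SemiconjBy, (Unitary.mem_iff.1 hV).1, (Unitary.mem_iff.1 hV).2]
  have hc : ContinuousOn Complex.arg (spectrum ℂ V) := (Matrix.finite_spectrum V).continuousOn _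
  refine ⟨cfc (fun z : ℂ => (Complex.arg z : ℂ)) V, ?_, ?_, fun B h1 h2 => ?_⟩
  · exact IsSelfAdjoint.cfc_arg V
  · rw [← CFC.exp_eq_normedSpace_exp (𝕜 := ℂ), ← cfc_comp_smul .., ← cfc_comp' ..]
    conv_rhs => rw [← cfc_id' ℂ V]
    refine cfc_congr fun y hy ↦ ?_
    have hy₁ : ‖y‖ = 1 := spectrum.norm_eq_one_of_unitary hV hy
    have hy0 : y ≠ 0 := by
      rintro rfl
      simp at hy₁
    have : Complex.I * y.arg = Complex.log y :=
      Complex.ext (by simp [Complex.log_re, hy₁]) (by simp [Complex.log_im])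
    simpa [← Complex.exp_eq_exp_ℂ, this] using Complex.exp_log hy0
  · exact (Commute.cfc (𝕜 := ℂ) (a := V) (b := B) h1 h2 _).eq

end Log

section Ex

variable {N d dh dm ds dz k : ℕ} {n : Fin k → ℕ} {T : Fin d → Matrix (Fin N) (Fin N) ℂ} {φ : Spl dh dm d} {ψ : Spl ds dz dh}
  {f : Fin d → Fin d → Fin d → ℝ}

/-- sums over the colours -/
theorem ef655_sum {V : Type*} [AddCommMonoid V] (φ : Spl dh dm d) (ψ : Spl ds dz dh) (g : Fin d → V) :
    ∑ A, g A = (∑ A, g (φ (Sum.inl (ψ (Sum.inl A))))) + (∑ A, g (φ (Sum.inl (ψ (Sum.inr A))))) +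
      ∑ A, g (φ (Sum.inr A)) := by
  rw [← φ.sum_comp, Fintype.sum_sum_type, ← ψ.sum_comp, Fintype.sum_sum_type]

theorem ef655_real (hb : Bas N d T f) {K : Matrix (Fin N) (Fin N) ℂ} (hK : K.conjTranspose = K) (A : Fin d) :
    (T A * K).trace = (((T A * K).trace.re : ℝ) : ℂ) := by
  symm
  rw [← Complex.conj_eq_iff_re]
  have h1 : (T A * K).conjTranspose.trace = star (T A * K).trace := Matrix.trace_conjTranspose _
  rw [Matrix.conjTranspose_mul, hb.herm, hK, Matrix.trace_mul_comm] at h1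
  exact h1.symm

theorem ef655_cyc (hb : Bas N d T f) (A B C : Fin d) : f A B C = f B C A := by
  have h1 := ANF.nr775_f hb A B C
  have h2 := ANF.nr775_f hb B C A
  have h3 : ((T A * T B - T B * T A) * T C).trace = ((T B * T C - T C * T B) * T A).trace := by
    rw [Matrix.sub_mul, Matrix.sub_mul, Matrix.trace_sub, Matrix.trace_sub]
    congr 1
    · rw [Matrix.mul_assoc, Matrix.trace_mul_comm]
    · rw [Matrix.mul_assoc, Matrix.mul_assoc, Matrix.trace_mul_comm, Matrix.mul_assoc, Matrix.trace_mul_comm,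
        Matrix.mul_assoc]
  rw [h3, ← h2] at h1
  have h4 := mul_left_cancel₀ Complex.I_ne_zero h1
  exact_mod_cast h4

/-- **S21** -/
theorem exF_stmt (f : Fin d → Fin d → Fin d → ℝ) (fr : NFr n T φ ψ) : ExFStmt f fr := by
  intro hb V hblk hz
  have hN : 0 < N := by
    have h0 : 0 < k := by have := fr.two; omega
    have h1 := fr.pos ⟨0, h0⟩
    have x := fr.E ⟨⟨0, h0⟩, ⟨0, by omega⟩⟩
    exact x.pos
  have hN' : (N : ℂ) ≠ 0 := by exact_mod_cast hN.ne'
  have hVu : V.val ∈ unitary (Matrix (Fin N) (Fin N) ℂ) := (Matrix.mem_specialUnitaryGroup_iff.1 V.2).1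
  have hV1 : V.val.conjTranspose * V.val = 1 := (Unitary.mem_iff.1 hVu).1
  have hV2 : V.val * V.val.conjTranspose = 1 := (Unitary.mem_iff.1 hVu).2
  -- V commutes with the z matrices
  have hfix : ∀ B, V.val * T (φ (Sum.inl (ψ (Sum.inr B)))) * V.val.conjTranspose = T (φ (Sum.inl (ψ (Sum.inr B)))) := by
    intro B
    set Y := V.val * T (φ (Sum.inl (ψ (Sum.inr B)))) * V.val.conjTranspose with hY
    have hYh : Y.conjTranspose = Y := by
      rw [hY, Matrix.conjTranspose_mul, Matrix.conjTranspose_mul, Matrix.conjTranspose_conjTranspose, hb.herm,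
        Matrix.mul_assoc]
    have hYt : Y.trace = 0 := by
      rw [hY, Matrix.trace_mul_comm, ← Matrix.mul_assoc, hV1, Matrix.one_mul, hb.tr0]
    have hc := ANF.nr775_complete hb hN Y
    rw [hYt, zero_div, zero_smul, add_zero, ef655_sum φ ψ] at hc
    have hco : ∀ A, (T A * Y).trace = ((adO T V A (φ (Sum.inl (ψ (Sum.inr B)))) : ℝ) : ℂ) := by
      intro A
      rw [ef655_real hb hYh A]
      rfl
    have h1 : ∀ A, ((T (φ (Sum.inl (ψ (Sum.inl A)))) * Y).trace • T (φ (Sum.inl (ψ (Sum.inl A)))) :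
        Matrix (Fin N) (Fin N) ℂ) = 0 := by
      intro A
      rw [hco, hblk.sz, Complex.ofReal_zero, zero_smul]
    have h2 : ∀ A, ((T (φ (Sum.inr A)) * Y).trace • T (φ (Sum.inr A)) : Matrix (Fin N) (Fin N) ℂ) = 0 := by
      intro A
      rw [hco, hblk.mh, Complex.ofReal_zero, zero_smul]
    have h3 : ∀ A, ((T (φ (Sum.inl (ψ (Sum.inr A)))) * Y).trace • T (φ (Sum.inl (ψ (Sum.inr A)))) :
        Matrix (Fin N) (Fin N) ℂ) = if A = B then T (φ (Sum.inl (ψ (Sum.inr A)))) else 0 := by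
      intro A
      have h4 : adO T V (φ (Sum.inl (ψ (Sum.inr A)))) (φ (Sum.inl (ψ (Sum.inr B)))) = if A = B then 1 else 0 := by
        have h5 : zO φ ψ (adO T V) A B = (1 : Matrix (Fin dz) (Fin dz) ℝ) A B := by rw [hz]
        rw [Matrix.one_apply] at h5
        exact h5
      rw [hco, h4]
      split_ifs <;> simp
    rw [Finset.sum_congr rfl fun A _ => h1 A, Finset.sum_congr rfl fun A _ => h2 A,
      Finset.sum_congr rfl fun A _ => h3 A] at hc
    simpa using hc
  have hcomV : ∀ B, V.val * T (φ (Sum.inl (ψ (Sum.inr B)))) = T (φ (Sum.inl (ψ (Sum.inr B)))) * V.val := by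
    intro B
    conv_rhs => rw [← hfix B]
    rw [Matrix.mul_assoc _ _ V.val, hV1, Matrix.mul_one]
  have hcomV' : ∀ B, star V.val * T (φ (Sum.inl (ψ (Sum.inr B)))) = T (φ (Sum.inl (ψ (Sum.inr B)))) * star V.val := by
    intro B
    have h := congrArg Matrix.conjTranspose (hcomV B)
    rw [Matrix.conjTranspose_mul, Matrix.conjTranspose_mul, hb.herm] at h
    exact h.symm
  obtain ⟨K, hKh, hKe, hKc⟩ := ef655_log V.val hVu
  have hKz : ∀ B, K * T (φ (Sum.inl (ψ (Sum.inr B)))) = T (φ (Sum.inl (ψ (Sum.inr B)))) * K := fun B =>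
    hKc _ (hcomV B) (hcomV' B)
  -- K commutes with block scalars
  have hbdz : ∀ v : Fin k → ℂ, K * bd fr.E v = bd fr.E v * K := by
    intro v
    have hbdBD : ANF.NrBD fr.E (bd fr.E v) := by
      intro s t h
      rw [ANF.nr775_bd, if_neg]
      rintro rfl
      exact h rfl
    have hc := ANF.nr775_complete hb hN (bd fr.E v)
    rw [ef655_sum φ ψ] at hc
    have h1 : ∀ A, ((T (φ (Sum.inr A)) * bd fr.E v).trace • T (φ (Sum.inr A)) : Matrix (Fin N) (Fin N) ℂ) = 0 := by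
      intro A
      rw [Matrix.trace_mul_comm, ANF.nr775_tr hbdBD (fr.m_eq A), zero_smul]
    have h2 : ∀ A, ((T (φ (Sum.inl (ψ (Sum.inl A)))) * bd fr.E v).trace • T (φ (Sum.inl (ψ (Sum.inl A)))) :
        Matrix (Fin N) (Fin N) ℂ) = 0 := by
      intro A
      obtain ⟨⟨a, i⟩, rfl⟩ := fr.es.surjective A
      have h3 : (T (φ (Sum.inl (ψ (Sum.inl (fr.es ⟨a, i⟩))))) * bd fr.E v).trace = 0 := by
        rw [fr.s_eq, ANF.EX808.tr_bk, ANF.EX808.blk_bd, Matrix.mul_smul, Matrix.mul_one, Matrix.trace_smul,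
          (fr.Tb_bas (n a) (fr.pos a)).tr0, smul_zero]
      rw [h3, zero_smul]
    rw [Finset.sum_congr rfl fun A _ => h1 A, Finset.sum_congr rfl fun A _ => h2 A, Finset.sum_const_zero,
      Finset.sum_const_zero, zero_add, add_zero] at hc
    rw [hc, Matrix.mul_add, Matrix.add_mul, Matrix.mul_sum, Matrix.sum_mul, Matrix.mul_smul, Matrix.smul_mul,
      Matrix.mul_one, Matrix.one_mul]
    congr 1
    refine Finset.sum_congr rfl fun A _ => ?_
    rw [Matrix.mul_smul, Matrix.smul_mul, hKz]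
  -- K is block diagonal
  have hKBD : ANF.NrBD fr.E K := by
    intro s t h
    have h1 := congrFun (congrFun (hbdz (Pi.single s.1 1)) (fr.E s)) (fr.E t)
    rw [Matrix.mul_apply, Matrix.mul_apply, ← fr.E.sum_comp, ← fr.E.sum_comp, Finset.sum_eq_single t,
      Finset.sum_eq_single s] at h1
    · rw [ANF.nr775_bd, ANF.nr775_bd, if_pos rfl, if_pos rfl, Pi.single_eq_same, Pi.single_eq_of_ne (Ne.symm h),
        mul_zero, one_mul] at h1
      exact h1.symm
    · intro r _ hr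
      rw [ANF.nr775_bd, if_neg (Ne.symm hr), zero_mul]
    · intro h2
      exact absurd (Finset.mem_univ _) h2
    · intro r _ hr
      rw [ANF.nr775_bd, if_neg hr, mul_zero]
    · intro h2
      exact absurd (Finset.mem_univ _) h2
  have hreal := fun A => ef655_real hb (K := K) hKh A
  set h : Fin ds → ℝ := fun A => (T (φ (Sum.inl (ψ (Sum.inl A)))) * K).trace.re with hh
  have hKexp : K = ∑ A, ((h A : ℝ) : ℂ) • T (φ (Sum.inl (ψ (Sum.inl A)))) +
      ((∑ A, (T (φ (Sum.inl (ψ (Sum.inr A)))) * K).trace • T (φ (Sum.inl (ψ (Sum.inr A))))) +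
        (K.trace / N) • (1 : Matrix (Fin N) (Fin N) ℂ)) := by
    have hc := ANF.nr775_complete hb hN K
    rw [ef655_sum φ ψ] at hc
    have h1 : ∀ A, ((T (φ (Sum.inr A)) * K).trace • T (φ (Sum.inr A)) : Matrix (Fin N) (Fin N) ℂ) = 0 := by
      intro A
      rw [Matrix.trace_mul_comm, ANF.nr775_tr hKBD (fr.m_eq A), zero_smul]
    rw [Finset.sum_congr rfl fun A _ => h1 A, Finset.sum_const_zero, add_zero,
      Finset.sum_congr rfl fun A _ => by rw [hreal (φ (Sum.inl (ψ (Sum.inl A))))], add_assoc] at hc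
    exact hc
  set Z : Matrix (Fin N) (Fin N) ℂ := (∑ A, (T (φ (Sum.inl (ψ (Sum.inr A)))) * K).trace • T (φ (Sum.inl (ψ (Sum.inr A))))) +
        (K.trace / N) • (1 : Matrix (Fin N) (Fin N) ℂ) with hZ
  have hZc : ∀ C : Fin ds, Z * T (φ (Sum.inl (ψ (Sum.inl C)))) = T (φ (Sum.inl (ψ (Sum.inl C)))) * Z := by
    intro C
    rw [hZ, Matrix.add_mul, Matrix.mul_add, Matrix.sum_mul, Matrix.mul_sum, Matrix.smul_mul, Matrix.mul_smul,
      Matrix.one_mul, Matrix.mul_one]
    congr 1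
    refine Finset.sum_congr rfl fun A _ => ?_
    rw [Matrix.smul_mul, Matrix.mul_smul, fr.z_eq, ANF.nst_bdcomm fr.E _ (ANF.nst_bd fr (ψ (Sum.inl C)))]
  set f' : Fin ds → Fin ds → Fin ds → ℝ := fun A B C =>
    f (φ (Sum.inl (ψ (Sum.inl A)))) (φ (Sum.inl (ψ (Sum.inl B)))) (φ (Sum.inl (ψ (Sum.inl C)))) with hf'
  have hcomm : ∀ A C : Fin ds, T (φ (Sum.inl (ψ (Sum.inl A)))) * T (φ (Sum.inl (ψ (Sum.inl C)))) -
      T (φ (Sum.inl (ψ (Sum.inl C)))) * T (φ (Sum.inl (ψ (Sum.inl A)))) =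
        ∑ B, (Complex.I * (f' A C B : ℂ)) • T (φ (Sum.inl (ψ (Sum.inl B)))) := by
    intro A C
    rw [hb.comm, ef655_sum φ ψ]
    have h1 : ∀ B, ((Complex.I * (f (φ (Sum.inl (ψ (Sum.inl A)))) (φ (Sum.inl (ψ (Sum.inl C)))) (φ (Sum.inr B)) : ℂ)) •
        T (φ (Sum.inr B)) : Matrix (Fin N) (Fin N) ℂ) = 0 := by
      intro B
      rw [ANF.nst_sub hb fr, Complex.ofReal_zero, mul_zero, zero_smul]
    have h2 : ∀ B, ((Complex.I * (f (φ (Sum.inl (ψ (Sum.inl A)))) (φ (Sum.inl (ψ (Sum.inl C))))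
        (φ (Sum.inl (ψ (Sum.inr B)))) : ℂ)) •
        T (φ (Sum.inl (ψ (Sum.inr B)))) : Matrix (Fin N) (Fin N) ℂ) = 0 := by
      intro B
      rw [ef655_cyc hb, ef655_cyc hb, ANF.nst_cen hb fr, Complex.ofReal_zero, mul_zero, zero_smul]
    rw [Finset.sum_congr rfl fun B _ => h1 B, Finset.sum_congr rfl fun B _ => h2 B, Finset.sum_const_zero,
      Finset.sum_const_zero, add_zero, add_zero]
  have hD : ∀ C : Fin ds, (Complex.I • K) * T (φ (Sum.inl (ψ (Sum.inl C)))) -
      T (φ (Sum.inl (ψ (Sum.inl C)))) * (Complex.I • K) =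
      ∑ B, ((adf f' (-h) B C : ℝ) : ℂ) • T (φ (Sum.inl (ψ (Sum.inl B)))) := by
    intro C
    have e1 : (Complex.I • K) * T (φ (Sum.inl (ψ (Sum.inl C)))) - T (φ (Sum.inl (ψ (Sum.inl C)))) * (Complex.I • K) =
        Complex.I • ∑ A, ((h A : ℝ) : ℂ) • (T (φ (Sum.inl (ψ (Sum.inl A)))) * T (φ (Sum.inl (ψ (Sum.inl C)))) -
          T (φ (Sum.inl (ψ (Sum.inl C)))) * T (φ (Sum.inl (ψ (Sum.inl A))))) := by
      conv_lhs => rw [hKexp]
      rw [Matrix.smul_mul, Matrix.mul_smul, ← smul_sub, Matrix.add_mul, Matrix.mul_add, hZc,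
        add_sub_add_right_eq_sub, Matrix.sum_mul, Matrix.mul_sum, ← Finset.sum_sub_distrib]
      congr 1
      refine Finset.sum_congr rfl fun A _ => ?_
      rw [Matrix.smul_mul, Matrix.mul_smul, smul_sub]
    rw [e1, Finset.smul_sum]
    have e2 : ∀ A, Complex.I • ((h A : ℝ) : ℂ) • (T (φ (Sum.inl (ψ (Sum.inl A)))) * T (φ (Sum.inl (ψ (Sum.inl C)))) -
          T (φ (Sum.inl (ψ (Sum.inl C)))) * T (φ (Sum.inl (ψ (Sum.inl A))))) =
        ∑ B, ((-(h A * f' A C B) : ℝ) : ℂ) • T (φ (Sum.inl (ψ (Sum.inl B)))) := by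
      intro A
      rw [hcomm, Finset.smul_sum, Finset.smul_sum]
      refine Finset.sum_congr rfl fun B _ => ?_
      rw [smul_smul, smul_smul]
      congr 1
      push_cast
      linear_combination ((h A : ℂ) * (f' A C B : ℂ)) * Complex.I_mul_I
    rw [Finset.sum_congr rfl fun A _ => e2 A, Finset.sum_comm]
    refine Finset.sum_congr rfl fun B _ => ?_
    rw [← Finset.sum_smul, ← Complex.ofReal_sum]
    congr 2
    simp only [adf, Matrix.of_apply, Pi.neg_apply]
    refine Finset.sum_congr rfl fun A _ => ?_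
    have h1 : f' B A C = f' A C B := ef655_cyc hb _ _ _
    rw [h1]
    ring
  have hconj := U.mad_conj (fun A : Fin ds => T (φ (Sum.inl (ψ (Sum.inl A))))) (Complex.I • K) (adf f' (-h)) hD
  have hstar : V.val.conjTranspose = NormedSpace.exp (-(Complex.I • K)) := by
    rw [← hKe, ← Matrix.exp_conjTranspose, Matrix.conjTranspose_smul, hKh.eq]
    simp
  refine ⟨-h, ?_⟩
  ext B A
  simp only [sO, Matrix.of_apply, adO]
  unfold BFSS.adCoeff
  rw [hstar]
  conv_lhs => rw [← hKe]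
  rw [hconj A, Matrix.mul_sum, Matrix.trace_sum, Finset.sum_eq_single B]
  · rw [Matrix.mul_smul, Matrix.trace_smul, hb.ortho, if_pos rfl]
    simp
  · intro C _ hC
    rw [Matrix.mul_smul, Matrix.trace_smul, hb.ortho, if_neg, smul_zero]
    intro h1
    have h2 := φ.injective h1
    have h3 := ψ.injective (Sum.inl.inj h2)
    exact hC (Sum.inl.inj h3).symm
  · intro h1
    exact absurd (Finset.mem_univ _) h1

end Ex

end Vale.Agent.P353.Z.AS
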