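import Vale.Agent.P353.AN.SGN.Stmt
import Vale.Agent.P353.AN.SGN.EtaComm

/-! # P353, all `N`, block SGN: S10 FerAt -/

open MeasureTheory Filter Topology Matrix
open scoped ContDiff

namespace Vale.Agent.P353.Z.AS

variable {d dh dm ds dz : ℕ} {F : Type*} [NormedAddCommGroup F] [InnerProductSpace ℂ F]

private lemma fa514_ImT_mul (S : Setup d F) {T1 T2 : Matrix (Fin 16 × Fin d) (Fin 16 × Fin d) ℂ} {M1 M2 : F →L[ℂ] F}
    (h1 : ImT S T1 M1) (h2 : ImT S T2 M2) : ImT S (T1 * T2) (M1 * M2) := by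
  intro q
  rw [mul_assoc, h2 q, Finset.mul_sum]
  have h3 : ∀ p : Fin 16 × Fin d, M1 * (T2 p q • (S.th p.1 p.2 * M2)) =
      ∑ r : Fin 16 × Fin d, (T1 r p * T2 p q) • (S.th r.1 r.2 * (M1 * M2)) := by
    intro p
    rw [mul_smul_comm, ← mul_assoc, h1 p, Finset.sum_mul, Finset.smul_sum]
    refine Finset.sum_congr rfl fun r _ => ?_
    rw [smul_mul_assoc, smul_smul, mul_comm (T2 p q), mul_assoc]
  simp only [h3]
  rw [Finset.sum_comm]
  refine Finset.sum_congr rfl fun r _ => ?_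
  rw [← Finset.sum_smul, Matrix.mul_apply]

private lemma fa514_cT_imp (S : Setup d F) {O : Matrix (Fin d) (Fin d) ℝ} {G : F →L[ℂ] F} (h : Imp S O G) :
    ImT S (cT O) G := by
  intro q
  rw [h.imp q.1 q.2, Fintype.sum_prod_type, Finset.sum_eq_single q.1]
  · refine Finset.sum_congr rfl fun B _ => ?_
    simp [cT]
  · intro α _ hα
    refine Finset.sum_eq_zero fun B _ => ?_
    simp [cT, hα]
  · simp

private lemma fa514_cT_orth {O : Matrix (Fin d) (Fin d) ℝ} (h : O * Oᵀ = 1) :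
    (cT O : Matrix (Fin 16 × Fin d) (Fin 16 × Fin d) ℂ) * (cT O)ᵀ = 1 := by
  ext p q
  rw [Matrix.mul_apply, Fintype.sum_prod_type]
  have h0 : ∀ A B, ∑ C, O A C * O B C = if A = B then 1 else 0 := by
    intro A B
    have h1 := congrFun (congrFun h A) B
    rw [Matrix.mul_apply, Matrix.one_apply] at h1
    simpa [Matrix.transpose_apply] using h1
  rw [Finset.sum_eq_single p.1]
  · by_cases hpq : p.1 = q.1
    · have h2 : ∀ C, (cT O) p (p.1, C) * (cT O)ᵀ (p.1, C) q = ((O p.2 C * O q.2 C : ℝ) : ℂ) := by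
        intro C
        simp [cT, Matrix.transpose_apply, hpq]
      simp only [h2]
      rw [← Complex.ofReal_sum, h0]
      by_cases h3 : p.2 = q.2
      · have h4 : p = q := Prod.ext hpq h3
        rw [if_pos h3, h4, Matrix.one_apply_eq, Complex.ofReal_one]
      · have h4 : p ≠ q := fun h => h3 (by rw [h])
        simp [h3, h4]
    · have h4 : p ≠ q := fun h => hpq (by rw [h])
      rw [Matrix.one_apply_ne h4]
      refine Finset.sum_eq_zero fun C _ => ?_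
      have h5 : q.1 ≠ p.1 := fun h => hpq h.symm
      simp [cT, Matrix.transpose_apply, h5]
  · intro α _ hα
    refine Finset.sum_eq_zero fun C _ => ?_
    simp [cT, hα.symm]
  · simp

/-- `JF` is affine in `c`, `s` -/
private lemma fa514_JF_aff (S : Setup d F) (φ : Spl dh dm d) (D : Fin 9 → Matrix (Fin dm) (Fin dm) ℝ)
    (Om : Matrix (Fin dm) (Fin dm) ℝ) (c s : ℝ) : JF S φ D Om c s = JF S φ D Om 0 0 +
      (c : ℂ) • (JF S φ D Om 1 0 - JF S φ D Om 0 0) + (s : ℂ) • (JF S φ D Om 0 1 - JF S φ D Om 0 0) := by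
  ext p q
  simp only [JF, Matrix.of_apply, Matrix.add_apply, Matrix.smul_apply, Matrix.sub_apply]
  rcases φ.symm p.2 with a | a <;> rcases φ.symm q.2 with b | b <;> simp

private lemma fa514_JF_cont (S : Setup d F) (φ : Spl dh dm d) (D : Fin 9 → Matrix (Fin dm) (Fin dm) ℝ)
    (Om : Matrix (Fin dm) (Fin dm) ℝ) :
    Continuous fun s : ℝ => JF S φ D Om (Real.cos (Real.pi / 2 * s)) (Real.sin (Real.pi / 2 * s)) := by
  have h : (fun s : ℝ => JF S φ D Om (Real.cos (Real.pi / 2 * s)) (Real.sin (Real.pi / 2 * s))) = fun s : ℝ =>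
      JF S φ D Om 0 0 + ((Real.cos (Real.pi / 2 * s) : ℝ) : ℂ) • (JF S φ D Om 1 0 - JF S φ D Om 0 0) +
        ((Real.sin (Real.pi / 2 * s) : ℝ) : ℂ) • (JF S φ D Om 0 1 - JF S φ D Om 0 0) := by
    funext s
    exact fa514_JF_aff S φ D Om _ _
  rw [h]
  fun_prop

private lemma fa514_Dz_zero (S : Setup d F) (φ : Spl dh dm d) (ψ : Spl ds dz dh) (η : Cfg dz) (i : Fin 9)
    (h : ∀ a, η (i, a) = 0) : AD.Dz S φ ψ η i = 0 := by
  rw [← AX.DM_Mz]
  simp [DM, h]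

/-- core of S10: the matrices `D_i(η)` commute -/
theorem fa514_core (S : Setup d F) (φ : Spl dh dm d) (ψ : Spl ds dz dh) (hE : EigStmt S) (hJ : JFStmt S φ)
    (hC : CovStmt S φ ψ) (hV : VacRStmt S φ) (hEta : EtaStmt S φ ψ) (hR : RParStmt S φ ψ)
    (hF : FiniteDimensional ℂ F) (hI : S.Irr) (L : Finset (Fin dz → ℝ)) (Om : Cfg dz → Matrix (Fin dm) (Fin dm) ℝ)
    (K : Submodule ℂ F) (U : Cfg dz → F →L[ℂ] F) (hB : AX.Bun S φ (AX.Mz S φ ψ) L Om K U)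
    (O : Matrix (Fin d) (Fin d) ℝ) (G : F →L[ℂ] F) (hS : Sym S O) (hBlk : Blk φ ψ O) (hG : Imp S O G)
    (η : Cfg dz) (hη : η ∉ Coll L) (h3 : ∀ i : Fin 9, i.val < 3 → ∀ a, η (i, a) = 0)
    (hcomm : ∀ i j, AD.Dz S φ ψ η i * AD.Dz S φ ψ η j = AD.Dz S φ ψ η j * AD.Dz S φ ψ η i)
    (hor : ro (zO φ ψ O) η = η ∨ (ro (zO φ ψ O) η = RR 3 4 Real.pi η ∧ ∀ t, RR 3 4 t η ∉ Coll L))
    (ζ : F) (hζ : Gv S φ K ζ) : G (U η ζ) = U (ro (zO φ ψ O) η) ζ := by
  by_cases hne : ∃ v : F, v ≠ 0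
  swap
  · push Not at hne
    rw [hne (G (U η ζ)), hne (U (ro (zO φ ψ O) η) ζ)]
  have hOm : IsOm S.κ (AD.Dz S φ ψ η) (Om η) := by
    have h := hB.om η (hB.det η hη)
    rwa [AX.DM_Mz] at h
  have hanti : ∀ i, (AD.Dz S φ ψ η i)ᵀ = -AD.Dz S φ ψ η i := by
    intro i
    rw [← AX.DM_Mz]
    simp only [DM, Matrix.transpose_sum, Matrix.transpose_smul, AX.Mz_anti, smul_neg, Finset.sum_neg_distrib]
  obtain ⟨-, hJ2, -, hJ4⟩ := hJ (AD.Dz S φ ψ η) (Om η) hanti hcomm hOm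
  have hD : ∀ i : Fin 9, i.val < 3 → AD.Dz S φ ψ η i = 0 := fun i hi => fa514_Dz_zero S φ ψ η i (h3 i hi)
  set J : ℝ → Matrix (Fin 16 × Fin d) (Fin 16 × Fin d) ℂ := fun s =>
    JF S φ (AD.Dz S φ ψ η) (Om η) (Real.cos (Real.pi / 2 * s)) (Real.sin (Real.pi / 2 * s)) with hJdef
  have hJc : Continuous J := fa514_JF_cont S φ _ _
  have hJs : ∀ s, CStr (J s) := fun s =>
    hJ2 (hD 0 (by decide)) (hD 1 (by decide)) (hD 2 (by decide)) _ _ (Real.cos_sq_add_sin_sq _)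
  have hJ0 : J 0 = JF S φ (AD.Dz S φ ψ η) (Om η) 1 0 := by
    simp only [hJdef, mul_zero, Real.cos_zero, Real.sin_zero]
  have hJ1 : J 1 = JF S φ (AD.Dz S φ ψ η) (Om η) 0 1 := by
    simp only [hJdef, mul_one, Real.cos_pi_div_two, Real.sin_pi_div_two]
  have hmem : U η ζ ∈ JV S (J 0) := by
    rw [hJ0]
    exact ((hEta hF hI L Om K U hB).1 η hη ζ).1 hζ
  have hcT := fa514_cT_orth (d := d) hG.orth
  rcases hor with hA | ⟨hA, hA2⟩
  · have h1 := hE hF hI hne J (cT O) G hJc hJs hcT ?_ (fa514_cT_imp S hG) hG.norm ?_ (U η ζ) hmem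
    · rw [hA]
      exact h1
    · intro s
      have h2 := hC.1 O hS hBlk η (Om η) (Om η) hOm (by rw [hA]; exact hOm) (Real.cos (Real.pi / 2 * s))
        (Real.sin (Real.pi / 2 * s))
      rw [hA] at h2
      exact h2
    · intro v hv
      rw [hJ1] at hv
      exact hG.vac v ((hJ4 v).1 hv)
  · have h34 : Same (3 : Fin 9) 4 := ⟨by decide, by decide⟩
    obtain ⟨hV1, hV2, -⟩ := hV hF 3 4 h34
    obtain ⟨hi, hn, ho⟩ := hV1 (-Real.pi)
    have hOm2 : IsOm S.κ (AD.Dz S φ ψ (RR 3 4 Real.pi η)) (Om η) := (hC.2 3 4 h34 Real.pi η (Om η) hOm).1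
    have hM : ∀ v, ‖(spr S 3 4 (-Real.pi) * G) v‖ = ‖v‖ := by
      intro v
      change ‖spr S 3 4 (-Real.pi) (G v)‖ = ‖v‖
      rw [hn, hG.norm]
    have hT : (sT (gtt S 3 4 (-Real.pi)) * cT O) * (sT (gtt S 3 4 (-Real.pi)) * cT O)ᵀ = 1 := by
      rw [Matrix.transpose_mul, Matrix.mul_assoc, ← Matrix.mul_assoc (cT O), hcT, Matrix.one_mul]
      exact ho
    have h1 := hE hF hI hne J (sT (gtt S 3 4 (-Real.pi)) * cT O) (spr S 3 4 (-Real.pi) * G) hJc hJs hT ?_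
      (fa514_ImT_mul S hi (fa514_cT_imp S hG)) hM ?_ (U η ζ) hmem
    · have h2 : spr S 3 4 (-Real.pi) (G (U η ζ)) = U η ζ := h1
      have h4 : spr S 3 4 Real.pi (spr S 3 4 (-Real.pi) (G (U η ζ))) = G (U η ζ) := by
        have h5 := DFunLike.congr_fun (S.st_mul_neg 3 4 Real.pi) (G (U η ζ))
        exact h5
      rw [h2] at h4
      rw [← h4, hA]
      exact hR hF hI L Om K U hB ζ hζ 3 4 h34 η hA2 Real.pi
    · intro s
      have h2 := hC.1 O hS hBlk η (Om η) (Om η) hOm (by rw [hA]; exact hOm2) (Real.cos (Real.pi / 2 * s))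
        (Real.sin (Real.pi / 2 * s))
      rw [hA] at h2
      have h4 := (hC.2 3 4 h34 (-Real.pi) (RR 3 4 Real.pi η) (Om η) hOm2).2 (Real.cos (Real.pi / 2 * s))
        (Real.sin (Real.pi / 2 * s))
      have h5 : RR 3 4 (-Real.pi) (RR 3 4 Real.pi η) = η := RR_neg_cancel h34.1 Real.pi η
      rw [h5] at h4
      change (sT (gtt S 3 4 (-Real.pi)) * cT O) * JF S φ (AD.Dz S φ ψ η) (Om η) (Real.cos (Real.pi / 2 * s))
        (Real.sin (Real.pi / 2 * s)) = JF S φ (AD.Dz S φ ψ η) (Om η) (Real.cos (Real.pi / 2 * s))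
        (Real.sin (Real.pi / 2 * s)) * (sT (gtt S 3 4 (-Real.pi)) * cT O)
      rw [Matrix.mul_assoc, h2, ← Matrix.mul_assoc, h4, Matrix.mul_assoc]
    · intro v hv
      rw [hJ1] at hv
      have h2 := (hJ4 v).1 hv
      change spr S 3 4 (-Real.pi) (G v) = v
      rw [hG.vac v h2]
      exact (hV2 v h2).2 _

/-- **S10 FerAt** -/
theorem ferAt_stmt (S : Setup d F) (φ : Spl dh dm d) (ψ : Spl ds dz dh) : EigStmt S → ImpTStmt S → JFStmt S φ →
    CovStmt S φ ψ → VacRStmt S φ → EtaStmt S φ ψ → RParStmt S φ ψ → FerAtStmt S φ ψ := by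
  intro hE _ hJ hC hV hEta hR hF hI L Om K U hB O G hS hBlk hG η hη h3 hor ζ hζ
  by_cases hne : ∃ v : F, v ≠ 0
  · exact fa514_core S φ ψ hE hJ hC hV hEta hR hF hI L Om K U hB O G hS hBlk hG η hη h3 (eta_comm S φ ψ hB hne hη) hor ζ hζ
  · push Not at hne
    rw [hne (G (U η ζ)), hne (U (ro (zO φ ψ O) η) ζ)]

end Vale.Agent.P353.Z.AS
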