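import Vale.Agent.P353.AN.SGN.Stmt

/-! # P353, all `N`, block SGN: task S3 ImpT (implementers map vacuum spaces to vacuum spaces) (helper516) -/

open Matrix

namespace Vale.Agent.P353.Z.AS

variable {d : ℕ} {F : Type*} [NormedAddCommGroup F] [InnerProductSpace ℂ F]

/-- **S3 ImpT** -/
theorem impT_stmt (S : Setup d F) : ImpTStmt S := by
  intro T J M hT hM v hv
  have hv' : ∀ p, ∑ q : Fin 16 × Fin d,
      ((1 : Matrix (Fin 16 × Fin d) (Fin 16 × Fin d) ℂ) - Complex.I • J) p q • S.th q.1 q.2 v = 0 := hv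
  have hM' : ∀ q : Fin 16 × Fin d, M (S.th q.1 q.2 v) = ∑ p : Fin 16 × Fin d, T p q • S.th p.1 p.2 (M v) := by
    intro q
    have h := congrArg (fun A : F →L[ℂ] F => A v) (hM q)
    simp only [_root_.sum_apply, _root_.smul_apply] at h
    exact h
  have h1 : ∀ p, ∑ r : Fin 16 × Fin d,
      (((1 : Matrix (Fin 16 × Fin d) (Fin 16 × Fin d) ℂ) - Complex.I • J) * Tᵀ) p r • S.th r.1 r.2 (M v) = 0 := by
    intro p
    have h2 := congrArg M (hv' p)
    rw [map_zero, map_sum] at h2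
    rw [← h2]
    have h3 : ∀ q : Fin 16 × Fin d,
        M ((((1 : Matrix (Fin 16 × Fin d) (Fin 16 × Fin d) ℂ) - Complex.I • J) p q) • S.th q.1 q.2 v) =
        ∑ r : Fin 16 × Fin d, ((((1 : Matrix (Fin 16 × Fin d) (Fin 16 × Fin d) ℂ) - Complex.I • J) p q) *
          Tᵀ q r) • S.th r.1 r.2 (M v) := by
      intro q
      rw [map_smul, hM' q, Finset.smul_sum]
      exact Finset.sum_congr rfl fun r _ => by rw [smul_smul, transpose_apply]
    rw [Finset.sum_congr rfl fun q _ => h3 q, Finset.sum_comm]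
    refine Finset.sum_congr rfl fun r _ => ?_
    rw [Matrix.mul_apply, Finset.sum_smul]
  have hE : (1 : Matrix (Fin 16 × Fin d) (Fin 16 × Fin d) ℂ) - Complex.I • (T * J * Tᵀ) =
      T * (((1 : Matrix (Fin 16 × Fin d) (Fin 16 × Fin d) ℂ) - Complex.I • J) * Tᵀ) := by
    rw [sub_mul, one_mul, mul_sub, hT, smul_mul_assoc, mul_smul_comm, Matrix.mul_assoc]
  change ∀ s, ∑ r : Fin 16 × Fin d,
      ((1 : Matrix (Fin 16 × Fin d) (Fin 16 × Fin d) ℂ) - Complex.I • (T * J * Tᵀ)) s r • S.th r.1 r.2 (M v) = 0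
  intro s
  rw [hE]
  have h4 : ∀ r : Fin 16 × Fin d,
      (T * (((1 : Matrix (Fin 16 × Fin d) (Fin 16 × Fin d) ℂ) - Complex.I • J) * Tᵀ)) s r • S.th r.1 r.2 (M v) =
      ∑ p : Fin 16 × Fin d, T s p •
        ((((1 : Matrix (Fin 16 × Fin d) (Fin 16 × Fin d) ℂ) - Complex.I • J) * Tᵀ) p r • S.th r.1 r.2 (M v)) := by
    intro r
    rw [Matrix.mul_apply, Finset.sum_smul]
    exact Finset.sum_congr rfl fun p _ => by rw [smul_smul]
  rw [Finset.sum_congr rfl fun r _ => h4 r, Finset.sum_comm]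
  refine Finset.sum_eq_zero fun p _ => ?_
  rw [← Finset.smul_sum, h1 p, smul_zero]

end Vale.Agent.P353.Z.AS
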