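import Vale.Agent.P353.AN.SGN.Stmt

/-! # P353, all `N`, block SGN: the complex structures `JF` (S5, helper964) -/

open MeasureTheory Filter Topology Matrix
open scoped ContDiff Kronecker

namespace Vale.Agent.P353.Z.AS

variable {d dh dm ds dz : ℕ} {F : Type*} [NormedAddCommGroup F] [InnerProductSpace ℂ F]

section real

variable {D : Fin 9 → Matrix (Fin dm) (Fin dm) ℝ} {Om : Matrix (Fin dm) (Fin dm) ℝ} {κ : ℝ}

lemma jf_unit (hOm : IsOm κ D Om) : IsUnit Om.det := by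
  rw [isUnit_iff_ne_zero]
  intro h
  obtain ⟨v, hv, h1⟩ := Matrix.exists_mulVec_eq_zero_iff.2 h
  have h2 := hOm.pos v hv
  rw [h1, dotProduct_zero] at h2
  exact lt_irrefl _ h2

lemma jf_comm (hc : ∀ i j, D i * D j = D j * D i) (hOm : IsOm κ D Om) (i : Fin 9) : D i * Om⁻¹ = Om⁻¹ * D i := by
  have h1 : D i * Om = Om * D i := hOm.comm (D i) (by
    rw [Finset.mul_sum, Finset.sum_mul]
    refine Finset.sum_congr rfl fun j _ => ?_
    rw [← mul_assoc, hc i j, mul_assoc, hc i j, ← mul_assoc])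
  have hu := jf_unit hOm
  calc D i * Om⁻¹ = Om⁻¹ * Om * (D i * Om⁻¹) := by rw [Matrix.nonsing_inv_mul _ hu, one_mul]
    _ = Om⁻¹ * (Om * D i) * Om⁻¹ := by simp only [mul_assoc]
    _ = Om⁻¹ * D i * (Om * Om⁻¹) := by rw [← h1]; simp only [mul_assoc]
    _ = Om⁻¹ * D i := by rw [Matrix.mul_nonsing_inv _ hu, mul_one]

/-- `κ Ω⁻¹ D_i` -/
noncomputable def jfV (κ : ℝ) (D : Fin 9 → Matrix (Fin dm) (Fin dm) ℝ) (Om : Matrix (Fin dm) (Fin dm) ℝ) (i : Fin 9) :
    Matrix (Fin dm) (Fin dm) ℝ := κ • (Om⁻¹ * D i)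

lemma jfV_mul (hc : ∀ i j, D i * D j = D j * D i) (hOm : IsOm κ D Om) (i j : Fin 9) :
    jfV κ D Om i * jfV κ D Om j = κ ^ 2 • (Om⁻¹ * Om⁻¹ * (D i * D j)) := by
  rw [jfV, jfV, Matrix.smul_mul, Matrix.mul_smul, smul_smul, ← pow_two]
  congr 1
  calc Om⁻¹ * D i * (Om⁻¹ * D j) = Om⁻¹ * (D i * Om⁻¹) * D j := by simp only [mul_assoc]
    _ = Om⁻¹ * Om⁻¹ * (D i * D j) := by rw [jf_comm hc hOm]; simp only [mul_assoc]

lemma jfV_comm (hc : ∀ i j, D i * D j = D j * D i) (hOm : IsOm κ D Om) (i j : Fin 9) :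
    jfV κ D Om i * jfV κ D Om j = jfV κ D Om j * jfV κ D Om i := by
  rw [jfV_mul hc hOm, jfV_mul hc hOm, hc]

lemma jfV_sq (hc : ∀ i j, D i * D j = D j * D i) (hOm : IsOm κ D Om) :
    ∑ i, jfV κ D Om i * jfV κ D Om i = -1 := by
  have hu := jf_unit hOm
  have h1 : κ ^ 2 • ∑ i, D i * D i = -(Om * Om) := by rw [hOm.sq, neg_neg]
  simp only [jfV_mul hc hOm]
  rw [← Finset.smul_sum, ← Finset.mul_sum, ← Matrix.mul_smul, h1]
  calc Om⁻¹ * Om⁻¹ * -(Om * Om) = -(Om⁻¹ * (Om⁻¹ * Om) * Om) := by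
        rw [mul_neg]; simp only [mul_assoc]
    _ = -1 := by rw [Matrix.nonsing_inv_mul _ hu, mul_one, Matrix.nonsing_inv_mul _ hu]

lemma jfV_tr (ha : ∀ i, (D i)ᵀ = -D i) (hc : ∀ i j, D i * D j = D j * D i) (hOm : IsOm κ D Om) (i : Fin 9) :
    (jfV κ D Om i)ᵀ = -jfV κ D Om i := by
  rw [jfV, Matrix.transpose_smul, Matrix.transpose_mul, Matrix.transpose_nonsing_inv, hOm.symm, ha, neg_mul,
    jf_comm hc hOm, smul_neg]

end real

/-- complexification -/
noncomputable def jfC (M : Matrix (Fin dm) (Fin dm) ℝ) : Matrix (Fin dm) (Fin dm) ℂ := Complex.ofRealHom.mapMatrix M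

lemma jfC_apply (M : Matrix (Fin dm) (Fin dm) ℝ) (A B : Fin dm) : jfC M A B = ((M A B : ℝ) : ℂ) := rfl

/-- `Ω⁻¹P` -/
noncomputable def jfX (S : Setup d F) (D : Fin 9 → Matrix (Fin dm) (Fin dm) ℝ) (Om : Matrix (Fin dm) (Fin dm) ℝ) :
    Matrix (Fin 16 × Fin dm) (Fin 16 × Fin dm) ℂ := ∑ i, S.g i ⊗ₖ jfC (jfV S.κ D Om i)

/-- `Γ ⊗ 1` -/
noncomputable def jfG (S : Setup d F) (m : ℕ) : Matrix (Fin 16 × Fin m) (Fin 16 × Fin m) ℂ :=
  S.Gam ⊗ₖ (1 : Matrix (Fin m) (Fin m) ℂ)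

lemma jfG_sq (S : Setup d F) (m : ℕ) : jfG S m * jfG S m = -1 := by
  rw [jfG, ← Matrix.mul_kronecker_mul, S.Gam_sq, mul_one]
  ext ⟨α, A⟩ ⟨β, B⟩
  simp only [Matrix.kroneckerMap_apply, Matrix.neg_apply, Matrix.one_apply, Prod.mk.injEq]
  by_cases h1 : α = β <;> by_cases h2 : A = B <;> simp [h1, h2]

lemma jfG_tr (S : Setup d F) (m : ℕ) : (jfG S m)ᵀ = -jfG S m := by
  ext ⟨α, A⟩ ⟨β, B⟩
  have h1 := congrFun (congrFun S.Gam_transpose α) β
  rw [Matrix.transpose_apply, Matrix.neg_apply] at h1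
  simp only [jfG, Matrix.transpose_apply, Matrix.neg_apply, Matrix.kroneckerMap_apply, h1, Matrix.one_apply, eq_comm,
    neg_mul]

lemma jfG_re (S : Setup d F) (m : ℕ) (p q : Fin 16 × Fin m) : (jfG S m p q).im = 0 := by
  simp only [jfG, Matrix.kroneckerMap_apply, Matrix.one_apply]
  split_ifs
  · rw [mul_one, S.Gam_real]
  · rw [mul_zero, Complex.zero_im]

section X

variable (S : Setup d F) {D : Fin 9 → Matrix (Fin dm) (Fin dm) ℝ} {Om : Matrix (Fin dm) (Fin dm) ℝ}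

lemma jfX_sq (hc : ∀ i j, D i * D j = D j * D i) (hOm : IsOm S.κ D Om) : jfX S D Om * jfX S D Om = -1 := by
  have e1 : jfX S D Om * jfX S D Om = ∑ i, ∑ j, (S.g i * S.g j) ⊗ₖ jfC (jfV S.κ D Om i * jfV S.κ D Om j) := by
    rw [jfX, Finset.sum_mul_sum]
    refine Finset.sum_congr rfl fun i _ => Finset.sum_congr rfl fun j _ => ?_
    rw [← Matrix.mul_kronecker_mul, jfC, jfC, jfC, map_mul]
  have e2 : jfX S D Om * jfX S D Om = ∑ i, ∑ j, (S.g j * S.g i) ⊗ₖ jfC (jfV S.κ D Om i * jfV S.κ D Om j) := by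
    rw [e1, Finset.sum_comm]
    refine Finset.sum_congr rfl fun i _ => Finset.sum_congr rfl fun j _ => ?_
    rw [jfV_comm hc hOm]
  have e3 : jfX S D Om * jfX S D Om + jfX S D Om * jfX S D Om = -1 + -1 := by
    conv_lhs => rw [e2]
    conv_lhs =>
      arg 1
      rw [← e2, e1]
    rw [← Finset.sum_add_distrib]
    have e4 : ∀ i, (∑ j, (S.g i * S.g j) ⊗ₖ jfC (jfV S.κ D Om i * jfV S.κ D Om j) +
        ∑ j, (S.g j * S.g i) ⊗ₖ jfC (jfV S.κ D Om i * jfV S.κ D Om j)) =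
        (2 : Matrix (Fin 16) (Fin 16) ℂ) ⊗ₖ jfC (jfV S.κ D Om i * jfV S.κ D Om i) := by
      intro i
      rw [← Finset.sum_add_distrib, Finset.sum_eq_single i]
      · rw [← Matrix.add_kronecker, S.g_anti, if_pos rfl]
      · intro j _ hj
        rw [← Matrix.add_kronecker, S.g_anti, if_neg hj.symm, Matrix.zero_kronecker]
      · intro h
        exact absurd (Finset.mem_univ _) h
    simp only [e4]
    have e5 : ∑ i, (2 : Matrix (Fin 16) (Fin 16) ℂ) ⊗ₖ jfC (jfV S.κ D Om i * jfV S.κ D Om i) =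
        (2 : Matrix (Fin 16) (Fin 16) ℂ) ⊗ₖ jfC (∑ i, jfV S.κ D Om i * jfV S.κ D Om i) := by
      ext ⟨α, A⟩ ⟨β, B⟩
      simp only [Matrix.sum_apply, Matrix.kroneckerMap_apply, jfC_apply]
      rw [← Finset.mul_sum]
      push_cast
      rfl
    rw [e5, jfV_sq hc hOm]
    ext ⟨α, A⟩ ⟨β, B⟩
    have h2 : (2 : Matrix (Fin 16) (Fin 16) ℂ) = (1 : Matrix (Fin 16) (Fin 16) ℂ) + 1 := by norm_num
    rw [h2]
    simp only [Matrix.kroneckerMap_apply, jfC_apply, Matrix.neg_apply, Matrix.add_apply, Matrix.one_apply, Prod.mk.injEq]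
    by_cases h3 : α = β <;> by_cases h4 : A = B <;> simp [h3, h4]
  have e6 : (2 : ℂ) • (jfX S D Om * jfX S D Om) = (2 : ℂ) • (-1) := by
    rw [two_smul, two_smul, e3]
  exact smul_right_injective _ (two_ne_zero) e6

lemma jfX_tr (ha : ∀ i, (D i)ᵀ = -D i) (hc : ∀ i j, D i * D j = D j * D i) (hOm : IsOm S.κ D Om) :
    (jfX S D Om)ᵀ = -jfX S D Om := by
  ext ⟨α, A⟩ ⟨β, B⟩
  simp only [jfX, Matrix.transpose_apply, Matrix.neg_apply, Matrix.sum_apply, Matrix.kroneckerMap_apply, jfC_apply]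
  rw [← Finset.sum_neg_distrib]
  refine Finset.sum_congr rfl fun i _ => ?_
  have h1 := congrFun (congrFun (jfV_tr ha hc hOm i) A) B
  rw [Matrix.transpose_apply, Matrix.neg_apply] at h1
  have h2 := congrFun (congrFun (S.g_symm i) α) β
  rw [Matrix.transpose_apply] at h2
  rw [h1, h2]
  push_cast
  ring

lemma jfX_re (p q : Fin 16 × Fin dm) : (jfX S D Om p q).im = 0 := by
  simp only [jfX, Matrix.sum_apply, Matrix.kroneckerMap_apply, jfC_apply]
  rw [Complex.im_sum]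
  refine Finset.sum_eq_zero fun i _ => ?_
  rw [Complex.mul_im, Complex.ofReal_re, Complex.ofReal_im, S.g_real]
  ring

lemma jfX_anti (h0 : D 0 = 0) (h1 : D 1 = 0) (h2 : D 2 = 0) :
    jfX S D Om * jfG S dm = -(jfG S dm * jfX S D Om) := by
  rw [jfX, jfG, Finset.sum_mul, Finset.mul_sum, ← Finset.sum_neg_distrib]
  refine Finset.sum_congr rfl fun i _ => ?_
  rw [← Matrix.mul_kronecker_mul, ← Matrix.mul_kronecker_mul, mul_one, one_mul]
  rcases lt_or_ge i.val 3 with hi | hi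
  · have h3 : D i = 0 := by
      rcases i with ⟨i, h⟩
      simp only at hi
      interval_cases i
      · exact h0
      · exact h1
      · exact h2
    have h4 : jfC (jfV S.κ D Om i) = 0 := by
      rw [jfV, h3, mul_zero, smul_zero, jfC, map_zero]
    rw [h4, Matrix.kronecker_zero, Matrix.kronecker_zero, neg_zero]
  · rw [S.g_Gam_anti hi]
    ext ⟨α, A⟩ ⟨β, B⟩
    simp only [Matrix.kroneckerMap_apply, Matrix.neg_apply, neg_mul]

end X

/-- splitting of the one particle space -/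
def jfe (φ : Spl dh dm d) : Fin 16 × Fin d ≃ (Fin 16 × Fin dh) ⊕ (Fin 16 × Fin dm) :=
  (Equiv.prodCongr (Equiv.refl _) φ.symm).trans (Equiv.prodSumDistrib _ _ _)

/-- block form -/
lemma jf_blocks (S : Setup d F) (φ : Spl dh dm d) (D : Fin 9 → Matrix (Fin dm) (Fin dm) ℝ)
    (Om : Matrix (Fin dm) (Fin dm) ℝ) (c s : ℝ) :
    JF S φ D Om c s = (Matrix.fromBlocks (jfG S dh) 0 0 ((c : ℂ) • jfX S D Om + (s : ℂ) • jfG S dm)).submatrix
      (jfe φ) (jfe φ) := by
  ext ⟨α, C⟩ ⟨β, C'⟩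
  obtain ⟨x, rfl⟩ := φ.surjective C
  obtain ⟨y, rfl⟩ := φ.surjective C'
  rcases x with A | A <;> rcases y with B | B
  · simp [JF, jfe, jfG, Matrix.one_apply]
  · simp [JF, jfe]
  · simp [JF, jfe]
  · simp only [JF, Matrix.of_apply, Equiv.symm_apply_apply, Sum.elim_inr, jfe, Equiv.trans_apply,
      Equiv.prodCongr_apply, Equiv.coe_refl, Prod.map_apply, id_eq, Equiv.prodSumDistrib_apply_right,
      Matrix.submatrix_apply, Matrix.fromBlocks_apply₂₂, Matrix.add_apply, Matrix.smul_apply, jfX, Matrix.sum_apply,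
      Matrix.kroneckerMap_apply, jfC_apply, jfV, smul_eq_mul, jfG, Matrix.one_apply, mul_ite, mul_one, mul_zero]
    congr 1
    rw [Finset.mul_sum]
    congr 1
    refine Finset.sum_congr rfl fun i _ => ?_
    push_cast
    ring

/-- generic complex structure -/
lemma jf_cstr (S : Setup d F) (φ : Spl dh dm d) (D : Fin 9 → Matrix (Fin dm) (Fin dm) ℝ)
    (Om : Matrix (Fin dm) (Fin dm) ℝ) (c s : ℝ) (ha : ∀ i, (D i)ᵀ = -D i) (hc : ∀ i j, D i * D j = D j * D i)
    (hOm : IsOm S.κ D Om)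
    (hY : ((c : ℂ) • jfX S D Om + (s : ℂ) • jfG S dm) * ((c : ℂ) • jfX S D Om + (s : ℂ) • jfG S dm) = -1) :
    CStr (JF S φ D Om c s) := by
  have hb := jf_blocks S φ D Om c s
  refine ⟨⟨?_, ?_⟩, ?_⟩
  · intro p q
    rw [hb, Matrix.submatrix_apply]
    rcases jfe φ p with x | x <;> rcases jfe φ q with y | y
    · rw [Matrix.fromBlocks_apply₁₁]; exact jfG_re S dh x y
    · rw [Matrix.fromBlocks_apply₁₂]; rfl
    · rw [Matrix.fromBlocks_apply₂₁]; rfl
    · rw [Matrix.fromBlocks_apply₂₂, Matrix.add_apply, Matrix.smul_apply, Matrix.smul_apply, Complex.add_im,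
        smul_eq_mul, smul_eq_mul, Complex.mul_im, Complex.mul_im, jfX_re, jfG_re, Complex.ofReal_im, Complex.ofReal_im]
      ring
  · rw [hb, Matrix.transpose_submatrix, Matrix.fromBlocks_transpose, jfG_tr, Matrix.transpose_add,
      Matrix.transpose_smul, Matrix.transpose_smul, jfG_tr, jfX_tr S ha hc hOm, Matrix.transpose_zero,
      Matrix.transpose_zero]
    ext p q
    rw [Matrix.neg_apply, Matrix.submatrix_apply, Matrix.submatrix_apply]
    rcases jfe φ p with x | x <;> rcases jfe φ q with y | y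
    · simp
    · simp
    · simp
    · simp only [Matrix.fromBlocks_apply₂₂, Matrix.add_apply, Matrix.smul_apply, Matrix.neg_apply, smul_eq_mul]
      ring
  · rw [hb, Matrix.submatrix_mul_equiv, Matrix.fromBlocks_multiply, jfG_sq, hY]
    simp only [Matrix.mul_zero, Matrix.zero_mul, add_zero, zero_add]
    have h1 : (Matrix.fromBlocks (-1 : Matrix (Fin 16 × Fin dh) (Fin 16 × Fin dh) ℂ) 0 0
        (-1 : Matrix (Fin 16 × Fin dm) (Fin 16 × Fin dm) ℂ)) = -1 := by
      rw [← Matrix.fromBlocks_one, Matrix.fromBlocks_neg, neg_zero, neg_zero]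
    rw [h1]
    ext p q
    simp [Matrix.one_apply]

/-- splitting of the sum over the one particle space -/
lemma jf_sum {E : Type*} [AddCommMonoid E] (φ : Spl dh dm d) (g : Fin 16 × Fin d → E) :
    ∑ q, g q = ∑ β : Fin 16, (∑ B : Fin dh, g (β, φ (Sum.inl B)) + ∑ B : Fin dm, g (β, φ (Sum.inr B))) := by
  rw [Fintype.sum_prod_type]
  refine Finset.sum_congr rfl fun β _ => ?_
  rw [← φ.sum_comp, Fintype.sum_sum_type]

/-- row of an `h` colour -/
lemma jf_row_l (S : Setup d F) (φ : Spl dh dm d) (D : Fin 9 → Matrix (Fin dm) (Fin dm) ℝ)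
    (Om : Matrix (Fin dm) (Fin dm) ℝ) (c s : ℝ) (v : F) (α : Fin 16) (A : Fin dh) :
    ∑ q : Fin 16 × Fin d, ((1 : Matrix (Fin 16 × Fin d) (Fin 16 × Fin d) ℂ) - Complex.I • JF S φ D Om c s)
      (α, φ (Sum.inl A)) q • S.th q.1 q.2 v = S.amF (φ (Sum.inl A)) α v := by
  have h1 : ∀ β (B : Fin dm), ((1 : Matrix (Fin 16 × Fin d) (Fin 16 × Fin d) ℂ) - Complex.I • JF S φ D Om c s)
      (α, φ (Sum.inl A)) (β, φ (Sum.inr B)) = 0 := by
    intro β B
    simp [JF, Matrix.one_apply]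
  have h2 : ∀ β (B : Fin dh), ((1 : Matrix (Fin 16 × Fin d) (Fin 16 × Fin d) ℂ) - Complex.I • JF S φ D Om c s)
      (α, φ (Sum.inl A)) (β, φ (Sum.inl B)) = if A = B then ((if α = β then 1 else 0) - Complex.I * S.Gam α β) else 0 := by
    intro β B
    by_cases h : A = B
    · subst h
      simp [JF, Matrix.one_apply]
    · have h' : φ (Sum.inl A) ≠ φ (Sum.inl B) := fun h3 => h (Sum.inl.inj (φ.injective h3))
      simp [JF, Matrix.one_apply, h]
  rw [jf_sum φ]
  simp only [h1, h2, zero_smul, Finset.sum_const_zero, add_zero, ite_smul, Finset.sum_ite_eq, Finset.mem_univ, if_true,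
    sub_smul, Finset.sum_sub_distrib, one_smul]
  rw [Setup.amF, CS.vec, _root_.sub_apply, _root_.smul_apply, _root_.sum_apply, Finset.smul_sum]
  simp only [_root_.smul_apply, smul_smul]

/-- the vector `((1 - iX)θv)_p` -/
noncomputable def jfY (S : Setup d F) (φ : Spl dh dm d) (D : Fin 9 → Matrix (Fin dm) (Fin dm) ℝ)
    (Om : Matrix (Fin dm) (Fin dm) ℝ) (v : F) (α : Fin 16) (A : Fin dm) : F :=
  ∑ β : Fin 16, ∑ B : Fin dm, ((if α = β then (if A = B then (1 : ℂ) else 0) else 0) -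
    Complex.I * ((S.κ : ℂ) * ∑ i, S.g i α β * (((Om⁻¹ * D i) A B : ℝ) : ℂ))) • S.th β (φ (Sum.inr B)) v

lemma jf_row_r (S : Setup d F) (φ : Spl dh dm d) (D : Fin 9 → Matrix (Fin dm) (Fin dm) ℝ)
    (Om : Matrix (Fin dm) (Fin dm) ℝ) (v : F) (α : Fin 16) (A : Fin dm) :
    ∑ q : Fin 16 × Fin d, ((1 : Matrix (Fin 16 × Fin d) (Fin 16 × Fin d) ℂ) - Complex.I • JF S φ D Om 1 0)
      (α, φ (Sum.inr A)) q • S.th q.1 q.2 v = jfY S φ D Om v α A := by
  have h1 : ∀ β (B : Fin dh), ((1 : Matrix (Fin 16 × Fin d) (Fin 16 × Fin d) ℂ) - Complex.I • JF S φ D Om 1 0)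
      (α, φ (Sum.inr A)) (β, φ (Sum.inl B)) = 0 := by
    intro β B
    simp [JF, Matrix.one_apply]
  have h2 : ∀ β (B : Fin dm), ((1 : Matrix (Fin 16 × Fin d) (Fin 16 × Fin d) ℂ) - Complex.I • JF S φ D Om 1 0)
      (α, φ (Sum.inr A)) (β, φ (Sum.inr B)) = (if α = β then (if A = B then (1 : ℂ) else 0) else 0) -
    Complex.I * ((S.κ : ℂ) * ∑ i, S.g i α β * (((Om⁻¹ * D i) A B : ℝ) : ℂ)) := by
    intro β B
    by_cases h : A = B
    · subst h
      by_cases h3 : α = β <;> simp [JF, Matrix.one_apply, h3]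
    · have h' : φ (Sum.inr A) ≠ φ (Sum.inr B) := fun h3 => h (Sum.inr.inj (φ.injective h3))
      simp [JF, Matrix.one_apply, h]
  rw [jf_sum φ]
  simp only [h1, h2, zero_smul, Finset.sum_const_zero, zero_add, jfY]

/-- `Λθv` in terms of `(1 - iX)θv` -/
lemma jf_lth (S : Setup d F) (φ : Spl dh dm d) (D : Fin 9 → Matrix (Fin dm) (Fin dm) ℝ)
    (Om : Matrix (Fin dm) (Fin dm) ℝ) (hOm : IsOm S.κ D Om) (v : F) (α : Fin 16) (A : Fin dm) :
    S.Lth φ D Om (α, A) v = (1 / 2 : ℂ) • ∑ A', ((Om A A' : ℝ) : ℂ) • jfY S φ D Om v α A' := by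
  have hu := jf_unit hOm
  have h1 : ∀ β (B : Fin dm), ∑ A', ((Om A A' : ℝ) : ℂ) * ((if α = β then (if A' = B then (1 : ℂ) else 0) else 0) -
      Complex.I * ((S.κ : ℂ) * ∑ i, S.g i α β * (((Om⁻¹ * D i) A' B : ℝ) : ℂ))) =
      ((if α = β then ((Om A B : ℝ) : ℂ) else 0) - Complex.I * S.PP D (α, A) (β, B)) := by
    intro β B
    simp only [mul_sub, Finset.sum_sub_distrib]
    congr 1
    · by_cases h : α = β
      · simp [h]
      · simp [h]
    · have h2 : ∀ i, ∑ A', Om A A' * (Om⁻¹ * D i) A' B = D i A B := by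
        intro i
        have h3 := congrFun (congrFun (show Om * (Om⁻¹ * D i) = D i by
          rw [← mul_assoc, Matrix.mul_nonsing_inv _ hu, one_mul]) A) B
        rw [Matrix.mul_apply] at h3
        exact h3
      simp only [Setup.PP, Matrix.of_apply]
      simp only [← h2]
      push_cast
      simp only [Finset.mul_sum]
      rw [Finset.sum_comm]
      refine Finset.sum_congr rfl fun i _ => Finset.sum_congr rfl fun A' _ => ?_
      ring
  rw [Setup.Lth, _root_.sum_apply, Fintype.sum_prod_type]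
  simp only [jfY, Finset.smul_sum, smul_smul]
  conv_rhs => rw [Finset.sum_comm]
  refine Finset.sum_congr rfl fun β _ => ?_
  conv_rhs => rw [Finset.sum_comm]
  refine Finset.sum_congr rfl fun B _ => ?_
  rw [_root_.smul_apply, ← Finset.sum_smul]
  congr 1
  rw [← Finset.mul_sum, h1, Setup.Lam, Matrix.of_apply]

/-- **S5 JF** -/
theorem jF_stmt (S : Setup d F) (φ : Spl dh dm d) : JFStmt S φ := by
  intro D Om ha hc hOm
  have hu := jf_unit hOm
  refine ⟨?_, ?_, ?_, ?_⟩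
  · refine jf_cstr S φ D Om 1 0 ha hc hOm ?_
    simp only [Complex.ofReal_one, Complex.ofReal_zero, one_smul, zero_smul, add_zero]
    exact jfX_sq S hc hOm
  · intro h0 h1 h2 c s hcs
    refine jf_cstr S φ D Om c s ha hc hOm ?_
    have h3 := jfX_anti S (Om := Om) h0 h1 h2
    rw [add_mul, mul_add, mul_add, Matrix.smul_mul, Matrix.mul_smul, Matrix.smul_mul, Matrix.mul_smul,
      Matrix.smul_mul, Matrix.mul_smul, Matrix.smul_mul, Matrix.mul_smul, jfX_sq S hc hOm, jfG_sq, h3]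
    have h4 : (c : ℂ) * c + (s : ℂ) * s = 1 := by
      have := congrArg (fun t : ℝ => (t : ℂ)) hcs
      push_cast at this
      rw [← this]
      ring
    rw [smul_smul, smul_smul, smul_smul, smul_smul, smul_neg, mul_comm (s : ℂ) (c : ℂ)]
    have h5 : ∀ X Y : Matrix (Fin 16 × Fin dm) (Fin 16 × Fin dm) ℂ, ∀ a b : ℂ,
        -(a • Y) + b • -X + (b • X + (1 - a) • -Y) = -Y := by
      intro X Y a b
      rw [sub_smul, one_smul, smul_neg, smul_neg]
      abel
    have h6 : (s : ℂ) * s = 1 - (c : ℂ) * c := by rw [← h4]; ring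
    rw [h6]
    exact h5 _ _ _ _
  · intro v
    constructor
    · intro hv
      have hY : ∀ α A, jfY S φ D Om v α A = 0 := by
        intro α A
        rw [← jf_row_r]
        exact hv (α, φ (Sum.inr A))
      refine ⟨?_, ?_⟩
      · rintro ⟨α, A⟩
        rw [jf_lth S φ D Om hOm]
        simp only [hY, smul_zero, Finset.sum_const_zero]
      · intro A α
        rw [← jf_row_l S φ D Om 1 0]
        exact hv (α, φ (Sum.inl A))
    · rintro ⟨hF, hv⟩ ⟨α, C⟩
      obtain ⟨x, rfl⟩ := φ.surjective C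
      rcases x with A | A
      · rw [jf_row_l S φ D Om 1 0]
        exact hv A α
      · rw [jf_row_r]
        have h1 : ∀ A', ∑ A'', ((Om A' A'' : ℝ) : ℂ) • jfY S φ D Om v α A'' = 0 := by
          intro A'
          have h2 := hF (α, A')
          rw [jf_lth S φ D Om hOm] at h2
          exact (smul_eq_zero.1 h2).resolve_left (by norm_num)
        have h3 : ∑ A', ((Om⁻¹ A A' : ℝ) : ℂ) • ∑ A'', ((Om A' A'' : ℝ) : ℂ) • jfY S φ D Om v α A'' = 0 := by
          simp only [h1, smul_zero, Finset.sum_const_zero]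
        have h4 : ∑ A', ((Om⁻¹ A A' : ℝ) : ℂ) • ∑ A'', ((Om A' A'' : ℝ) : ℂ) • jfY S φ D Om v α A'' =
            jfY S φ D Om v α A := by
          simp only [Finset.smul_sum, smul_smul]
          rw [Finset.sum_comm]
          simp only [← Finset.sum_smul]
          have h5 : ∀ A'', ∑ A', ((Om⁻¹ A A' : ℝ) : ℂ) * ((Om A' A'' : ℝ) : ℂ) = if A = A'' then 1 else 0 := by
            intro A''
            have h6 := congrFun (congrFun (Matrix.nonsing_inv_mul _ hu) A) A''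
            rw [Matrix.mul_apply, Matrix.one_apply] at h6
            have h7 := congrArg (fun t : ℝ => (t : ℂ)) h6
            push_cast at h7
            rw [h7]
            split_ifs <;> simp
          simp only [h5, ite_smul, one_smul, zero_smul, Finset.sum_ite_eq, Finset.mem_univ, if_true]
        rw [← h4]
        exact h3
  · intro v
    have hg : ∀ α (A : Fin dm), ∑ q : Fin 16 × Fin d, ((1 : Matrix (Fin 16 × Fin d) (Fin 16 × Fin d) ℂ) -
        Complex.I • JF S φ D Om 0 1) (α, φ (Sum.inr A)) q • S.th q.1 q.2 v = S.amF (φ (Sum.inr A)) α v := by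
      intro α A
      have h1 : ∀ β (B : Fin dh), ((1 : Matrix (Fin 16 × Fin d) (Fin 16 × Fin d) ℂ) - Complex.I • JF S φ D Om 0 1)
          (α, φ (Sum.inr A)) (β, φ (Sum.inl B)) = 0 := by
        intro β B
        simp [JF, Matrix.one_apply]
      have h2 : ∀ β (B : Fin dm), ((1 : Matrix (Fin 16 × Fin d) (Fin 16 × Fin d) ℂ) - Complex.I • JF S φ D Om 0 1)
          (α, φ (Sum.inr A)) (β, φ (Sum.inr B)) =
            if A = B then ((if α = β then 1 else 0) - Complex.I * S.Gam α β) else 0 := by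
        intro β B
        by_cases h : A = B
        · subst h
          simp [JF, Matrix.one_apply]
        · have h' : φ (Sum.inr A) ≠ φ (Sum.inr B) := fun h3 => h (Sum.inr.inj (φ.injective h3))
          simp [JF, Matrix.one_apply, h]
      rw [jf_sum φ]
      simp only [h1, h2, zero_smul, Finset.sum_const_zero, zero_add, ite_smul, Finset.sum_ite_eq, Finset.mem_univ,
        if_true, sub_smul, Finset.sum_sub_distrib, one_smul]
      rw [Setup.amF, CS.vec, _root_.sub_apply, _root_.smul_apply, _root_.sum_apply, Finset.smul_sum]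
      simp only [_root_.smul_apply, smul_smul]
    constructor
    · intro hv A α
      obtain ⟨x, rfl⟩ := φ.surjective A
      rcases x with A | A
      · rw [← jf_row_l S φ D Om 0 1]
        exact hv (α, φ (Sum.inl A))
      · rw [← hg]
        exact hv (α, φ (Sum.inr A))
    · rintro hv ⟨α, C⟩
      obtain ⟨x, rfl⟩ := φ.surjective C
      rcases x with A | A
      · rw [jf_row_l S φ D Om 0 1]
        exact hv _ α
      · rw [hg]
        exact hv _ α

end Vale.Agent.P353.Z.AS
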