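import Vale.Agent.P353.AN.SGN.Stmt
import Vale.Agent.P353.Z.U.Vac

/-! # P353, all `N`, block SGN: task S1 Line (the vacuum line of a complex structure) (helper516) -/

open Matrix

namespace Vale.Agent.P353.Z.AS

variable {d : ℕ} {F : Type*} [NormedAddCommGroup F] [InnerProductSpace ℂ F]

section

variable {J : Matrix (Fin 16 × Fin d) (Fin 16 × Fin d) ℂ}

lemma lnSq (hJ : CStr J) : ((1 : Matrix (Fin 16 × Fin d) (Fin 16 × Fin d) ℂ) - Complex.I • J) *
    (1 - Complex.I • J) = (2 : ℂ) • (1 - Complex.I • J) := by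
  have h : (Complex.I • J) * (Complex.I • J) = 1 := by
    rw [smul_mul_smul_comm, Complex.I_mul_I, hJ.sq, neg_smul, one_smul, neg_neg]
  rw [sub_mul, one_mul, mul_sub, mul_one, h]
  module

lemma lnT (hJ : CStr J) : ((1 : Matrix (Fin 16 × Fin d) (Fin 16 × Fin d) ℂ) - Complex.I • J)ᵀ =
    1 + Complex.I • J := by
  rw [transpose_sub, transpose_one, transpose_smul, hJ.anti, smul_neg, sub_neg_eq_add]

lemma lnZ (hJ : CStr J) : ((1 : Matrix (Fin 16 × Fin d) (Fin 16 × Fin d) ℂ) - Complex.I • J) *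
    (1 - Complex.I • J)ᵀ = 0 := by
  have h : (Complex.I • J) * (Complex.I • J) = 1 := by
    rw [smul_mul_smul_comm, Complex.I_mul_I, hJ.sq, neg_smul, one_smul, neg_neg]
  rw [lnT hJ, sub_mul, one_mul, mul_add, mul_one, h]
  abel

end

/-- the isotropic space spanned by the rows of `1 - iJ` -/
noncomputable def lnA (J : Matrix (Fin 16 × Fin d) (Fin 16 × Fin d) ℂ) :
    Submodule ℂ (Fin 16 × Fin d → ℂ) where
  carrier := {z | z ᵥ* ((1 : Matrix (Fin 16 × Fin d) (Fin 16 × Fin d) ℂ) - Complex.I • J) = (2 : ℂ) • z}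
  add_mem' := by
    intro a b ha hb
    change (a + b) ᵥ* _ = (2 : ℂ) • (a + b)
    have ha' : a ᵥ* ((1 : Matrix (Fin 16 × Fin d) (Fin 16 × Fin d) ℂ) - Complex.I • J) = (2 : ℂ) • a := ha
    have hb' : b ᵥ* ((1 : Matrix (Fin 16 × Fin d) (Fin 16 × Fin d) ℂ) - Complex.I • J) = (2 : ℂ) • b := hb
    rw [add_vecMul, ha', hb', smul_add]
  zero_mem' := by
    change (0 : Fin 16 × Fin d → ℂ) ᵥ* _ = (2 : ℂ) • 0
    rw [zero_vecMul, smul_zero]
  smul_mem' := by
    intro c a ha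
    have ha' : a ᵥ* ((1 : Matrix (Fin 16 × Fin d) (Fin 16 × Fin d) ℂ) - Complex.I • J) = (2 : ℂ) • a := ha
    change (c • a) ᵥ* _ = (2 : ℂ) • (c • a)
    rw [smul_vecMul, ha', smul_comm]

lemma lnA_iff {J : Matrix (Fin 16 × Fin d) (Fin 16 × Fin d) ℂ} {z : Fin 16 × Fin d → ℂ} :
    z ∈ lnA J ↔ z ᵥ* ((1 : Matrix (Fin 16 × Fin d) (Fin 16 × Fin d) ℂ) - Complex.I • J) = (2 : ℂ) • z :=
  Iff.rfl

lemma lnA_mem {J : Matrix (Fin 16 × Fin d) (Fin 16 × Fin d) ℂ} (hJ : CStr J) (w : Fin 16 × Fin d → ℂ) :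
    w ᵥ* ((1 : Matrix (Fin 16 × Fin d) (Fin 16 × Fin d) ℂ) - Complex.I • J) ∈ lnA J := by
  rw [lnA_iff, vecMul_vecMul, lnSq hJ, vecMul_smul]

/-- the vacuum space in terms of the isotropic space -/
lemma ln_iff (S : Setup d F) {J : Matrix (Fin 16 × Fin d) (Fin 16 × Fin d) ℂ} (hJ : CStr J) (v : F) :
    v ∈ JV S J ↔ ∀ a ∈ lnA J, ∑ p : Fin 16 × Fin d, a p • S.th p.1 p.2 v = 0 := by
  constructor
  · intro hv a ha
    have hv' : ∀ p, ∑ q : Fin 16 × Fin d,
        ((1 : Matrix (Fin 16 × Fin d) (Fin 16 × Fin d) ℂ) - Complex.I • J) p q • S.th q.1 q.2 v = 0 := hv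
    have ha' := lnA_iff.1 ha
    have h1 : (2 : ℂ) • ∑ q : Fin 16 × Fin d, a q • S.th q.1 q.2 v = 0 := by
      have h2 : ∀ q, (2 : ℂ) • (a q • S.th q.1 q.2 v) =
          ∑ p, a p • (((1 : Matrix (Fin 16 × Fin d) (Fin 16 × Fin d) ℂ) - Complex.I • J) p q • S.th q.1 q.2 v) := by
        intro q
        have h3 : (2 : ℂ) * a q = ∑ p, a p *
            ((1 : Matrix (Fin 16 × Fin d) (Fin 16 × Fin d) ℂ) - Complex.I • J) p q := by
          have := congrFun ha' q
          rw [Pi.smul_apply, smul_eq_mul] at this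
          rw [← this]
          rfl
        rw [smul_smul, h3, Finset.sum_smul]
        exact Finset.sum_congr rfl fun p _ => by rw [mul_smul]
      rw [Finset.smul_sum, Finset.sum_congr rfl fun q _ => h2 q, Finset.sum_comm]
      refine Finset.sum_eq_zero fun p _ => ?_
      rw [← Finset.smul_sum, hv' p, smul_zero]
    exact (smul_eq_zero.1 h1).resolve_left two_ne_zero
  · intro h p
    have h1 : (fun q => ((1 : Matrix (Fin 16 × Fin d) (Fin 16 × Fin d) ℂ) - Complex.I • J) p q) ∈ lnA J := by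
      have h2 := lnA_mem hJ (Pi.single p 1)
      rw [single_one_vecMul] at h2
      exact h2
    exact h _ h1

/-- **S1 Line** -/
theorem line_stmt (S : Setup d F) : LineStmt S := by
  intro hirr hF J hJ
  have hiso : ∀ a ∈ lnA J, ∀ b ∈ lnA J, ∑ p, a p * b p = 0 := by
    intro a ha b hb
    have ha' := lnA_iff.1 ha
    have hb' := lnA_iff.1 hb
    have h1 : ((2 : ℂ) • a) ⬝ᵥ ((2 : ℂ) • b) = 0 := by
      rw [← ha', ← hb', ← dotProduct_mulVec, ← mulVec_transpose, mulVec_mulVec, lnZ hJ]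
      simp
    rw [smul_dotProduct, dotProduct_smul, smul_smul] at h1
    have h2 := (smul_eq_zero.1 h1).resolve_left (by norm_num)
    exact h2
  have hmax : ∀ z : Fin 16 × Fin d → ℂ, ∃ a ∈ lnA J, ∃ b ∈ lnA J, z = a + fun p => (starRingEnd ℂ) (b p) := by
    intro z
    refine ⟨(1 / 2 : ℂ) • (z ᵥ* (1 - Complex.I • J)), Submodule.smul_mem _ _ (lnA_mem hJ z),
      (1 / 2 : ℂ) • ((fun p => (starRingEnd ℂ) (z p)) ᵥ* (1 - Complex.I • J)),
      Submodule.smul_mem _ _ (lnA_mem hJ _), ?_⟩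
    funext q
    have hr : ∀ p, (starRingEnd ℂ) (J p q) = J p q := fun p => Complex.conj_eq_iff_im.2 (hJ.real p q)
    have h1 : (z ᵥ* ((1 : Matrix (Fin 16 × Fin d) (Fin 16 × Fin d) ℂ) - Complex.I • J)) q =
        z q - Complex.I * ∑ p, z p * J p q := by
      rw [vecMul_sub, Pi.sub_apply, vecMul_one, vecMul_smul, Pi.smul_apply, smul_eq_mul]
      rfl
    have h2 : (starRingEnd ℂ) (((fun p => (starRingEnd ℂ) (z p)) ᵥ*
        ((1 : Matrix (Fin 16 × Fin d) (Fin 16 × Fin d) ℂ) - Complex.I • J)) q) =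
        z q + Complex.I * ∑ p, z p * J p q := by
      rw [vecMul_sub, Pi.sub_apply, vecMul_one, vecMul_smul, Pi.smul_apply, smul_eq_mul, map_sub, map_mul,
        Complex.conj_conj, Complex.conj_I]
      have h3 : (starRingEnd ℂ) (((fun p => (starRingEnd ℂ) (z p)) ᵥ* J) q) = ∑ p, z p * J p q := by
        change (starRingEnd ℂ) (∑ p, (starRingEnd ℂ) (z p) * J p q) = _
        rw [map_sum]
        refine Finset.sum_congr rfl fun p _ => ?_
        rw [map_mul, Complex.conj_conj, hr]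
      rw [h3]
      ring
    rw [Pi.add_apply, Pi.smul_apply, Pi.smul_apply, smul_eq_mul, smul_eq_mul, h1, map_mul, h2]
    have h4 : (starRingEnd ℂ) (1 / 2 : ℂ) = 1 / 2 := by
      rw [map_div₀, map_one, map_ofNat]
    rw [h4]
    ring
  obtain ⟨Ω, hn, hΩ, hu⟩ := U.vac S hirr hF (lnA J) hiso hmax
  exact ⟨Ω, (ln_iff S hJ Ω).2 hΩ, hn, fun v hv => hu v ((ln_iff S hJ v).1 hv)⟩

end Vale.Agent.P353.Z.AS
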