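import Vale.Agent.P353.AN.SGN.Stmt
import Vale.Agent.P353.AN.NF.One

/-! # P353, all `N`, block SGN: S22, direct sums of finite families (helper925) -/

open MeasureTheory Filter Topology Matrix
open scoped ContDiff

namespace Vale.Agent.P353.Z.AS

universe u

theorem oneFam_stmt : OneFamStmt.{u} := by
  intro hP hZ κ k dd ff D e f h1 h2 h3
  refine ANF.one925_sum hP hZ κ k dd ff h3 D e f ?_
  intro a b c i j l
  by_cases h : a = b ∧ a = c
  · obtain ⟨rfl, rfl⟩ := h
    rw [dif_pos ⟨rfl, rfl⟩]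
    exact h1 a i j l
  · rw [dif_neg h]
    exact h2 _ _ _ fun h' => h ⟨h'.1, h'.1.trans h'.2⟩

end Vale.Agent.P353.Z.AS
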