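import Vale.Agent.P353.AN.SGN.Stmt
import Vale.Agent.P353.AN.X.VecSp
import Vale.Agent.P353.Z.U.GamLem

/-! # P353, all `N`, block SGN: S9 RPar (helper216) -/

open MeasureTheory Filter Topology Matrix
open scoped ContDiff

namespace Vale.Agent.P353.Z.AS

variable {d dh dm ds dz : ℕ} {F : Type*} [NormedAddCommGroup F] [InnerProductSpace ℂ F]

/-- a real `J` with a nonzero vacuum vector is a complex structure -/
lemma rp_cstr (S : Setup d F) (J : Matrix (Fin 16 × Fin d) (Fin 16 × Fin d) ℂ) (hr : ∀ p q, (J p q).im = 0)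
    (v : F) (hv : v ∈ JV S J) (h0 : v ≠ 0) : CStr J := by
  set A : Matrix (Fin 16 × Fin d) (Fin 16 × Fin d) ℂ :=
    (1 : Matrix (Fin 16 × Fin d) (Fin 16 × Fin d) ℂ) - Complex.I • J with hA
  have hk : ∀ p, ∑ q : Fin 16 × Fin d, A p q • S.th q.1 q.2 v = 0 := hv
  let a : Fin 16 × Fin d → (F →L[ℂ] F) := fun p => ∑ q : Fin 16 × Fin d, A p q • S.th q.1 q.2
  have ha : ∀ p, a p v = 0 := by
    intro p
    have := hk p
    simpa [a, _root_.sum_apply, _root_.smul_apply] using this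
  have hac : ∀ p r, a p * a r + a r * a p = ((A * Aᵀ) p r) • (1 : F →L[ℂ] F) := by
    intro p r
    have e1 : a p * a r = ∑ q : Fin 16 × Fin d, ∑ s : Fin 16 × Fin d,
        (A p q * A r s) • (S.th q.1 q.2 * S.th s.1 s.2) := by
      simp only [a, Finset.sum_mul_sum, smul_mul_smul_comm]
    have e2 : a r * a p = ∑ q : Fin 16 × Fin d, ∑ s : Fin 16 × Fin d,
        (A p q * A r s) • (S.th s.1 s.2 * S.th q.1 q.2) := by
      simp only [a, Finset.sum_mul_sum, smul_mul_smul_comm]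
      rw [Finset.sum_comm]
      refine Finset.sum_congr rfl fun q _ => Finset.sum_congr rfl fun s _ => ?_
      rw [mul_comm (A r s)]
    rw [e1, e2, ← Finset.sum_add_distrib]
    simp only [← Finset.sum_add_distrib, ← smul_add, S.th_anti]
    rw [Matrix.mul_apply, Finset.sum_smul]
    refine Finset.sum_congr rfl fun q _ => ?_
    rw [Finset.sum_eq_single q]
    · simp [Matrix.transpose_apply]
    · intro s _ hs
      have : ¬ (q.1 = s.1 ∧ q.2 = s.2) := by
        rintro ⟨h1, h2⟩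
        exact hs (Prod.ext h1.symm h2.symm)
      rw [if_neg this, smul_zero]
    · intro h; exact absurd (Finset.mem_univ _) h
  have hz : A * Aᵀ = 0 := by
    ext p r
    have h1 := congrArg (fun T : F →L[ℂ] F => T v) (hac p r)
    simp only [_root_.add_apply, mul_apply_eq_comp, ha, map_zero, add_zero, _root_.smul_apply,
      one_apply_eq_self] at h1
    rcases smul_eq_zero.1 h1.symm with h | h
    · rw [h]; rfl
    · exact absurd h h0
  -- real and imaginary parts
  have hexp : A * Aᵀ = (1 : Matrix (Fin 16 × Fin d) (Fin 16 × Fin d) ℂ) - J * Jᵀ - Complex.I • (J + Jᵀ) := by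
    rw [hA, Matrix.transpose_sub, Matrix.transpose_one, Matrix.transpose_smul, sub_mul, mul_sub, mul_sub,
      Matrix.mul_smul, Matrix.smul_mul, Matrix.smul_mul, Matrix.mul_smul, one_mul, mul_one, one_mul, smul_smul,
      Complex.I_mul_I]
    module
  have hent : ∀ p r, ((1 : Matrix (Fin 16 × Fin d) (Fin 16 × Fin d) ℂ) p r - (J * Jᵀ) p r) -
      Complex.I * (J p r + J r p) = 0 := by
    intro p r
    have := congrFun (congrFun (hexp.symm.trans hz) p) r
    simpa [Matrix.sub_apply, Matrix.smul_apply, Matrix.add_apply, mul_add] using this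
  have hJJim : ∀ p r, ((J * Jᵀ) p r).im = 0 := by
    intro p r
    rw [Matrix.mul_apply, Complex.im_sum]
    refine Finset.sum_eq_zero fun q _ => ?_
    rw [Complex.mul_im, Matrix.transpose_apply, hr, hr]; ring
  have h1im : ∀ p r, ((1 : Matrix (Fin 16 × Fin d) (Fin 16 × Fin d) ℂ) p r).im = 0 := by
    intro p r
    rw [Matrix.one_apply]; split_ifs <;> simp
  have hanti : ∀ p r, J p r + J r p = 0 := by
    intro p r
    have h1 := congrArg Complex.im (hent p r)
    have h2 : (J p r + J r p).im = 0 := by rw [Complex.add_im, hr, hr, add_zero]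
    simp only [Complex.sub_im, Complex.mul_im, Complex.I_re, Complex.I_im, zero_mul, one_mul, hJJim, h1im,
      sub_zero, zero_add, zero_sub, Complex.zero_im, neg_eq_zero] at h1
    exact Complex.ext (by simpa using h1) (by simpa using h2)
  have hJt : Jᵀ = -J := by
    ext p r
    rw [Matrix.transpose_apply, Matrix.neg_apply]
    exact eq_neg_of_add_eq_zero_left (hanti r p)
  have hsq : J * Jᵀ = 1 := by
    ext p r
    have h1 := hent p r
    rw [hanti, mul_zero, sub_zero] at h1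
    exact (sub_eq_zero.1 h1).symm
  refine ⟨⟨hr, hJt⟩, ?_⟩
  rw [hJt, mul_neg] at hsq
  rw [← hsq, neg_neg]

/-- `tr((γ^{kl})ᵀ Γ) = 0` -/
lemma rp_trG (S : Setup d F) (k l : Fin 9) (h : k ≠ l) : ∑ α, ∑ β, S.g2 k l α β * S.Gam α β = 0 := by
  obtain ⟨m, hm, hk, hl⟩ : ∃ m : Fin 9, 3 ≤ m.val ∧ m ≠ k ∧ m ≠ l := by
    revert k l
    decide
  have e0 : ∑ α, ∑ β, S.g2 k l α β * S.Gam α β = Matrix.trace (S.g2 k l * S.Gamᵀ) := by
    simp only [Matrix.trace, Matrix.diag_apply, Matrix.mul_apply, Matrix.transpose_apply]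
  rw [e0, S.Gam_transpose, mul_neg, Matrix.trace_neg, neg_eq_zero]
  set X := S.g2 k l * S.Gam with hX
  have e1 : S.g m * S.g2 k l = S.g2 k l * S.g m := by
    rw [S.g2_eq_mul h, ← mul_assoc, S.g_ac hk, neg_mul, mul_assoc, S.g_ac hl, mul_neg, neg_neg, mul_assoc]
  have e2 : S.g m * X = -(X * S.g m) := by
    rw [hX, ← mul_assoc, e1, mul_assoc, S.g_Gam_anti hm, mul_neg, mul_assoc]
  have e3 : Matrix.trace (S.g m * (S.g m * X)) = Matrix.trace X := by
    rw [← mul_assoc, S.g_sq', one_mul]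
  have e4 : Matrix.trace (S.g m * (S.g m * X)) = -Matrix.trace X := by
    rw [e2, mul_neg, Matrix.trace_neg, ← mul_assoc, Matrix.trace_mul_comm, ← mul_assoc, S.g_sq', one_mul]
  have e5 : Matrix.trace X = -Matrix.trace X := e3.symm.trans e4
  have e6 : (2 : ℂ) * Matrix.trace X = 0 := by linear_combination e5
  exact (mul_eq_zero.1 e6).resolve_left two_ne_zero

lemma rp_trOm (D Om : Matrix (Fin dm) (Fin dm) ℝ) (hD : Dᵀ = -D) (hO : Omᵀ = Om) : Matrix.trace (Om⁻¹ * D) = 0 := by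
  have h1 : Matrix.trace (Om⁻¹ * D) = Matrix.trace ((Om⁻¹ * D)ᵀ) := (Matrix.trace_transpose _).symm
  rw [Matrix.transpose_mul, Matrix.transpose_nonsing_inv, hO, hD, neg_mul, Matrix.trace_neg, Matrix.trace_mul_comm D] at h1
  linarith

/-- the trace term of S2 vanishes for `JF` (no commutativity needed) -/
lemma rp_tr (S : Setup d F) (φ : Spl dh dm d) (k l : Fin 9) (h : k ≠ l) (D : Fin 9 → Matrix (Fin dm) (Fin dm) ℝ)
    (Om : Matrix (Fin dm) (Fin dm) ℝ) (hD : ∀ i, (D i)ᵀ = -D i) (hO : Omᵀ = Om) :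
    ∑ α, ∑ β, ∑ A, S.g2 k l α β * JF S φ D Om 1 0 (α, A) (β, A) = 0 := by
  have e : ∀ α β, ∑ A, S.g2 k l α β * JF S φ D Om 1 0 (α, A) (β, A) = (dh : ℂ) * (S.g2 k l α β * S.Gam α β) := by
    intro α β
    rw [← Finset.mul_sum, ← φ.sum_comp, Fintype.sum_sum_type]
    simp only [JF, Matrix.of_apply, Equiv.symm_apply_apply, Sum.elim_inl, Sum.elim_inr, if_true,
      Finset.sum_const, Finset.card_univ, Fintype.card_fin, nsmul_eq_mul, Complex.ofReal_one, one_mul,
      Complex.ofReal_zero, zero_mul, add_zero]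
    have h0 : ∑ B, (S.κ : ℂ) * ∑ i, S.g i α β * (((Om⁻¹ * D i) B B : ℝ) : ℂ) = 0 := by
      rw [← Finset.mul_sum, Finset.sum_comm]
      have : ∀ i, ∑ B, S.g i α β * (((Om⁻¹ * D i) B B : ℝ) : ℂ) = 0 := by
        intro i
        rw [← Finset.mul_sum, ← Complex.ofReal_sum]
        have h1 : ∑ B, (Om⁻¹ * D i) B B = Matrix.trace (Om⁻¹ * D i) := rfl
        rw [h1, rp_trOm _ _ (hD i) hO, Complex.ofReal_zero, mul_zero]
      simp only [this, Finset.sum_const_zero, mul_zero]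
    rw [h0, add_zero]
    ring
  simp only [e, ← Finset.mul_sum]
  rw [rp_trG S k l h, mul_zero]

/-- `JF` is real -/
lemma rp_real (S : Setup d F) (φ : Spl dh dm d) (D : Fin 9 → Matrix (Fin dm) (Fin dm) ℝ)
    (Om : Matrix (Fin dm) (Fin dm) ℝ) (c s : ℝ) (p q : Fin 16 × Fin d) : (JF S φ D Om c s p q).im = 0 := by
  simp only [JF, Matrix.of_apply]
  rcases φ.symm p.2 with A | A <;> rcases φ.symm q.2 with B | B
  · simp only [Sum.elim_inl]
    split_ifs
    · exact S.Gam_real _ _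
    · rfl
  · simp
  · simp
  · simp only [Sum.elim_inr]
    have h1 : (∑ i, S.g i p.1 q.1 * (((Om⁻¹ * D i) A B : ℝ) : ℂ)).im = 0 := by
      rw [Complex.im_sum]
      refine Finset.sum_eq_zero fun i _ => ?_
      rw [Complex.mul_im, S.g_real, Complex.ofReal_im]; ring
    have h2 : ((if A = B then S.Gam p.1 q.1 else 0 : ℂ)).im = 0 := by
      split_ifs
      · exact S.Gam_real _ _
      · rfl
    simp only [Complex.add_im, Complex.mul_im, Complex.ofReal_im, Complex.ofReal_re, h1, h2, mul_zero, zero_mul, add_zero]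

/-- **S9 RPar** -/
theorem rPar_stmt (S : Setup d F) (φ : Spl dh dm d) (ψ : Spl ds dz dh) : LineStmt S → TwoStmt S → ImpTStmt S →
    JFStmt S φ → CovStmt S φ ψ → VacRStmt S φ → EtaStmt S φ ψ → RParStmt S φ ψ := by
  intro _ hTwo hImp _ hCov hVac hEta hfin hirr L Om K U hB ζ hζ k l hkl η hη t
  have : CompleteSpace F := FiniteDimensional.complete ℂ F
  by_cases hz : ζ = 0
  · subst hz; simp
  obtain ⟨hE1, hE2⟩ := hEta hfin hirr L Om K U hB
  obtain ⟨hV1, -, -⟩ := hVac hfin k l hkl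
  have hne : k ≠ l := hkl.1
  -- data at the rotated points
  have hOm : ∀ s, IsOm S.κ (AD.Dz S φ ψ (RR k l s η)) (Om (RR k l s η)) := by
    intro s
    have := hB.om (RR k l s η) (hB.det _ (hη s))
    rwa [AX.DM_Mz] at this
  have hRR0 : RR k l 0 η = η := by rw [RR_zero]; rfl
  have hOm0 : IsOm S.κ (AD.Dz S φ ψ η) (Om η) := by
    have := hOm 0
    rwa [hRR0] at this
  have hOmE : ∀ s, Om (RR k l s η) = Om η := fun s =>
    AX.omU dm S.κ _ _ _ S.κ_pos (hOm s) ((hCov.2 k l hkl s η (Om η) hOm0).1)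
  have hb : ∀ s, U (RR k l s η) ζ ∈ JV S (JF S φ (AD.Dz S φ ψ (RR k l s η)) (Om η) 1 0) := by
    intro s
    have := (hE1 _ (hη s) ζ).1 hζ
    rwa [hOmE s] at this
  have hηc : η ∉ Coll L := by
    have := hη 0
    rwa [hRR0] at this
  have hb0 : U η ζ ∈ JV S (JF S φ (AD.Dz S φ ψ η) (Om η) 1 0) := (hE1 _ hηc ζ).1 hζ
  have ha : ∀ s, spr S k l s (U η ζ) ∈ JV S (JF S φ (AD.Dz S φ ψ (RR k l s η)) (Om η) 1 0) := by
    intro s
    obtain ⟨i1, -, i3⟩ := hV1 s
    have h1 := hImp _ _ _ i3 i1 _ hb0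
    have h2 := (hCov.2 k l hkl s η (Om η) hOm0).2 1 0
    rw [h2, Matrix.mul_assoc, i3, Matrix.mul_one] at h1
    exact h1
  have hlin : ∀ s, ∃ c : ℂ, spr S k l s (U η ζ) = c • U (RR k l s η) ζ := by
    intro s
    refine hE2 ζ hζ hz _ (hη s) _ ?_
    rw [hOmE s]
    exact ha s
  have hUn : ∀ η', inner ℂ (U η' ζ) (U η' ζ) = inner ℂ ζ ζ := fun η' => hB.U_inner _ _ _
  have hζζ : inner ℂ ζ ζ ≠ 0 := inner_self_ne_zero.2 hz
  have hUne : ∀ η', U η' ζ ≠ 0 := by
    intro η' h0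
    have := hUn η'
    rw [h0, inner_zero_left] at this
    exact hζζ this.symm
  -- derivative of the two curves
  have hRRd : ∀ s, ∃ ξ : Cfg dz, HasDerivAt (fun s => RR k l s η) ξ s := by
    intro s
    have h1 := hasDerivAt_RR_neg hne (-s) η
    have h2 := HasDerivAt.scomp s h1 (hasDerivAt_neg s)
    have e : (fun s => (RR k l s : Cfg dz →L[ℝ] Cfg dz) η) = (fun s => (RR k l (-s) : Cfg dz →L[ℝ] Cfg dz) η) ∘ Neg.neg := by
      funext r
      simp
    rw [e]
    exact ⟨_, h2⟩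
  have hopen : IsOpen (Coll L)ᶜ := hB.closed.isOpen_compl
  have hUd : ∀ η' ∉ Coll L, HasFDerivAt U (fderiv ℝ U η') η' := by
    intro η' h'
    exact ((hB.U_smooth.contDiffAt (hopen.mem_nhds h')).differentiableAt (by simp)).hasFDerivAt
  have hg : ∀ s, HasDerivAt (fun s => inner ℂ (U (RR k l s η) ζ) (spr S k l s (U η ζ))) 0 s := by
    intro s
    obtain ⟨ξ, hξ⟩ := hRRd s
    obtain ⟨c, hc⟩ := hlin s
    have d1 : HasDerivAt (fun s => U (RR k l s η)) (fderiv ℝ U (RR k l s η) ξ) s :=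
      (hUd _ (hη s)).comp_hasDerivAt s hξ
    have d2 : HasDerivAt (fun s => U (RR k l s η) ζ) ((fderiv ℝ U (RR k l s η) ξ) ζ) s :=
      ((ContinuousLinearMap.apply ℂ F ζ).restrictScalars ℝ).hasFDerivAt.comp_hasDerivAt s d1
    have d3 : HasDerivAt (fun s => spr S k l s (U η ζ)) (((Complex.I • S.Skl k l) * S.st k l s) (U η ζ)) s := by
      have h := S.hasDerivAt_st k l s
      exact ((ContinuousLinearMap.apply ℂ F (U η ζ)).restrictScalars ℝ).hasFDerivAt.comp_hasDerivAt s h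
    have d4 := d2.inner ℂ d3
    have e1 : inner ℂ ((fderiv ℝ U (RR k l s η) ξ) ζ) (spr S k l s (U η ζ)) = 0 := by
      rw [hc, inner_smul_right, ← inner_conj_symm, hB.U_par _ (hη s) ζ hζ.1 ζ hζ.1 ξ, map_zero, mul_zero]
    have hJ : CStr (JF S φ (AD.Dz S φ ψ (RR k l s η)) (Om η) 1 0) :=
      rp_cstr S _ (rp_real S φ _ _ 1 0) _ (hb s) (hUne _)
    have hDa : ∀ i, (AD.Dz S φ ψ (RR k l s η) i)ᵀ = -AD.Dz S φ ψ (RR k l s η) i := by
      intro i
      rw [← AX.DM_Mz]
      simp only [DM, Matrix.transpose_sum, Matrix.transpose_smul, AX.Mz_anti, smul_neg, Finset.sum_neg_distrib]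
    have e2 : inner ℂ (U (RR k l s η) ζ) (S.Skl k l (U (RR k l s η) ζ)) = 0 := by
      rw [((hTwo _ hJ _ (hb s)).2 k l hne), rp_tr S φ k l hne _ _ hDa hOm0.symm, mul_zero, zero_mul]
    have e3 : ((Complex.I • S.Skl k l) * S.st k l s) (U η ζ) = Complex.I • S.Skl k l (spr S k l s (U η ζ)) := rfl
    have e4 : inner ℂ (U (RR k l s η) ζ) (((Complex.I • S.Skl k l) * S.st k l s) (U η ζ)) +
        inner ℂ ((fderiv ℝ U (RR k l s η) ξ) ζ) (spr S k l s (U η ζ)) = 0 := by
      rw [e1, e3, hc, map_smul, inner_smul_right, inner_smul_right, e2]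
      simp
    exact d4.congr_deriv e4
  have hconst := is_const_of_deriv_eq_zero (fun s => (hg s).differentiableAt) (fun s => (hg s).deriv) t 0
  have hs0 : spr S k l 0 (U η ζ) = U η ζ := by
    have := S.st_zero k l
    have h' : S.st k l 0 (U η ζ) = U η ζ := by rw [this]; rfl
    exact h'
  simp only [hRR0, hs0, hUn] at hconst
  obtain ⟨c, hc⟩ := hlin t
  rw [hc, inner_smul_right, hUn] at hconst
  have hc1 : c = 1 := mul_right_cancel₀ hζζ (by rw [hconst, one_mul])
  rw [hc, hc1, one_smul]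

end Vale.Agent.P353.Z.AS
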