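import Vale.Agent.P353.AN.SGN.Stmt
import Vale.Agent.P353.AN.GL.Eqv
import Vale.Agent.P353.AN.X2.CsV
import Vale.Agent.P353.AN.A.Rot
import Vale.Agent.P353.Z.U.A2

/-! # P353, all `N`, block SGN, S13: gauge invariance of zero modes (helper232) -/

open MeasureTheory Filter Topology Matrix
open scoped ContDiff

namespace Vale.Agent.P353.Z.AS

universe u

variable {d : ℕ} {F : Type*} [NormedAddCommGroup F] [InnerProductSpace ℂ F]

private lemma sex_comm (S : Setup d F) (a : Fin d → ℝ) (α : Fin 16) (B : Fin d) (w : F) :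
    AN.eqvK S a (S.th α B w) = S.th α B (AN.eqvK S a w) + ∑ D, ((S.adm a D B : ℝ) : ℂ) • S.th α D w := by
  have h : ∀ C, S.cS C (S.th α B w) = S.th α B (S.cS C w) + Complex.I • ∑ E, (S.f C B E : ℂ) • S.th α E w := by
    intro C
    have h1 := congrArg (fun T : F →L[ℂ] F => T w) (U.comm_cS S C 1 B α)
    simp only [S.vec_one] at h1
    simp only [_root_.sub_apply, mul_apply_eq_comp, _root_.smul_apply, _root_.sum_apply] at h1
    rw [← h1]
    abel
  simp only [AN.eqvK, _root_.smul_apply, _root_.sum_apply, h, map_smul, map_sum, smul_add, Finset.sum_add_distrib]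
  congr 1
  simp only [Finset.smul_sum, smul_smul]
  rw [Finset.sum_comm]
  refine Finset.sum_congr rfl fun D _ => ?_
  rw [← Finset.sum_smul]
  congr 1
  simp only [Setup.adm, Matrix.of_apply]
  push_cast
  refine Finset.sum_congr rfl fun C _ => ?_
  rw [S.f_cyc D C B]
  have hI : Complex.I * Complex.I = -1 := Complex.I_mul_I
  linear_combination (-(a C : ℂ) * (S.f C B D : ℂ)) * hI

private lemma sex_exp (S : Setup d F) (hF : FiniteDimensional ℂ F) (a : Fin d → ℝ) (α : Fin 16) (A : Fin d) (v : F) :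
    AN.spn S a (S.th α A v) = ∑ B, ((NormedSpace.exp (S.adm a) B A : ℝ) : ℂ) • S.th α B (AN.spn S a v) := by
  have : CompleteSpace F := FiniteDimensional.complete ℂ F
  let _ : NormedAlgebra ℚ (F →L[ℂ] F) := NormedAlgebra.restrictScalars ℚ ℂ (F →L[ℂ] F)
  set K := AN.eqvK S a with hKd
  have hK : AN.spn S a = NormedSpace.exp K := rfl
  have hw : ∀ t : ℝ, HasDerivAt (fun t : ℝ => (NormedSpace.exp (t • K)) v) (K ((NormedSpace.exp (t • K)) v)) t := by
    intro t
    have h1 : HasDerivAt (fun t : ℝ => NormedSpace.exp (t • K)) (K * NormedSpace.exp (t • K)) t :=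
      hasDerivAt_exp_smul_const' (𝕂 := ℝ) K t
    have h2 : HasDerivAt (fun t : ℝ => (NormedSpace.exp (t • K)).restrictScalars ℝ)
        ((K * NormedSpace.exp (t • K)).restrictScalars ℝ) t :=
      (ContinuousLinearMap.restrictScalarsL ℂ F F ℝ ℝ).hasFDerivAt.comp_hasDerivAt t h1
    have h3 := h2.clm_apply (hasDerivAt_const t v)
    refine h3.congr_deriv ?_
    simp
  have hh : ∀ t : ℝ, HasDerivAt (fun t : ℝ => ∑ B, ((NormedSpace.exp (t • S.adm a) B A : ℝ) : ℂ) •
      S.th α B ((NormedSpace.exp (t • K)) v))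
      (K (∑ B, ((NormedSpace.exp (t • S.adm a) B A : ℝ) : ℂ) • S.th α B ((NormedSpace.exp (t • K)) v))) t := by
    intro t
    have h1 : HasDerivAt (fun t : ℝ => ∑ B, ((NormedSpace.exp (t • S.adm a) B A : ℝ) : ℂ) •
        S.th α B ((NormedSpace.exp (t • K)) v))
        (∑ B, (((NormedSpace.exp (t • S.adm a) B A : ℝ) : ℂ) • S.th α B (K ((NormedSpace.exp (t • K)) v)) +
          (((S.adm a * NormedSpace.exp (t • S.adm a)) B A : ℝ) : ℂ) • S.th α B ((NormedSpace.exp (t • K)) v))) t := by
      refine HasDerivAt.fun_sum fun B _ => ?_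
      have e1 : HasDerivAt (fun t : ℝ => ((NormedSpace.exp (t • S.adm a) B A : ℝ) : ℂ))
          (((S.adm a * NormedSpace.exp (t • S.adm a)) B A : ℝ) : ℂ) t :=
        (U.gx983_hasDerivAt_exp (S.adm a) t B A).ofReal_comp
      have e2 : HasDerivAt (fun t : ℝ => S.th α B ((NormedSpace.exp (t • K)) v))
          (S.th α B (K ((NormedSpace.exp (t • K)) v))) t :=
        ((S.th α B).restrictScalars ℝ).hasFDerivAt.comp_hasDerivAt t (hw t)
      exact e1.smul e2
    refine h1.congr_deriv ?_
    rw [map_sum, Finset.sum_add_distrib]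
    simp only [map_smul, hKd, sex_comm, smul_add, Finset.sum_add_distrib]
    congr 1
    simp only [Matrix.mul_apply, Finset.smul_sum, smul_smul]
    rw [Finset.sum_comm]
    refine Finset.sum_congr rfl fun B _ => ?_
    rw [← Finset.sum_smul]
    congr 1
    push_cast
    exact Finset.sum_congr rfl fun C _ => by ring
  have hE' : ∀ t : ℝ, HasDerivAt
      (fun t : ℝ => (NormedSpace.exp (t • (-K))).restrictScalars ℝ)
      ((NormedSpace.exp (t • (-K)) * (-K)).restrictScalars ℝ) t := fun t =>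
    (ContinuousLinearMap.restrictScalarsL ℂ F F ℝ ℝ).hasFDerivAt.comp_hasDerivAt t
      (hasDerivAt_exp_smul_const (𝕂 := ℝ) (-K) t)
  have hg : ∀ t : ℝ, HasDerivAt (fun t : ℝ =>
      (NormedSpace.exp (t • (-K))) (∑ B, ((NormedSpace.exp (t • S.adm a) B A : ℝ) : ℂ) •
      S.th α B ((NormedSpace.exp (t • K)) v))) 0 t := by
    intro t
    have h := (hE' t).clm_apply (hh t)
    refine h.congr_deriv ?_
    simp
  have hc := is_const_of_deriv_eq_zero (f := fun t : ℝ =>
      (NormedSpace.exp (t • (-K))) (∑ B, ((NormedSpace.exp (t • S.adm a) B A : ℝ) : ℂ) •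
      S.th α B ((NormedSpace.exp (t • K)) v)))
    (fun t => (hg t).differentiableAt) (fun t => (hg t).deriv) 1 0
  simp only [one_smul, zero_smul, NormedSpace.exp_zero, one_apply_eq_self] at hc
  have hinv : NormedSpace.exp K * NormedSpace.exp (-K) = 1 := by
    have hcm : Commute K (-K) := (Commute.refl _).neg_right
    rw [← NormedSpace.exp_add_of_commute hcm, add_neg_cancel, NormedSpace.exp_zero]
  have h6 := congrArg (fun T : F →L[ℂ] F => T (∑ B, ((NormedSpace.exp (S.adm a) B A : ℝ) : ℂ) •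
      S.th α B ((NormedSpace.exp K) v))) hinv
  simp only [mul_apply_eq_comp, one_apply_eq_self] at h6
  rw [hc] at h6
  rw [hK, ← h6]
  congr 1
  rw [Finset.sum_eq_single A]
  · simp
  · intro B _ hB
    simp [Matrix.one_apply_ne hB]
  · intro h
    exact absurd (Finset.mem_univ _) h

private lemma sex_fix (S : Setup d F) (hF : FiniteDimensional ℂ F) (a : Fin d → ℝ) (v : F) (hv : AN.eqvK S a v = 0) :
    AN.spn S a v = v := by
  have : CompleteSpace F := FiniteDimensional.complete ℂ F
  let _ : NormedAlgebra ℚ (F →L[ℂ] F) := NormedAlgebra.restrictScalars ℚ ℂ (F →L[ℂ] F)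
  set K := AN.eqvK S a with hKd
  have hK : AN.spn S a = NormedSpace.exp K := rfl
  have hw : ∀ t : ℝ, HasDerivAt (fun t : ℝ => (NormedSpace.exp (t • K)) v) 0 t := by
    intro t
    have h1 : HasDerivAt (fun t : ℝ => NormedSpace.exp (t • K)) (NormedSpace.exp (t • K) * K) t :=
      hasDerivAt_exp_smul_const (𝕂 := ℝ) K t
    have h2 : HasDerivAt (fun t : ℝ => (NormedSpace.exp (t • K)).restrictScalars ℝ)
        ((NormedSpace.exp (t • K) * K).restrictScalars ℝ) t :=
      (ContinuousLinearMap.restrictScalarsL ℂ F F ℝ ℝ).hasFDerivAt.comp_hasDerivAt t h1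
    have h3 := h2.clm_apply (hasDerivAt_const t v)
    refine h3.congr_deriv ?_
    simp [hv]
  have hc := is_const_of_deriv_eq_zero (f := fun t : ℝ => (NormedSpace.exp (t • K)) v)
    (fun t => (hw t).differentiableAt) (fun t => (hw t).deriv) 1 0
  simp only [one_smul, zero_smul, NormedSpace.exp_zero, one_apply_eq_self] at hc
  rw [hK]
  exact hc

private lemma sex_imp (S : Setup d F) (hF : FiniteDimensional ℂ F) (a : Fin d → ℝ) :
    Imp S (NormedSpace.exp (S.adm a)) (AN.spn S a) := by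
  refine ⟨?_, fun α A => ?_, (AN.eqv_stmt S hF).1 a, fun v hv => ?_⟩
  · have h := U.gx983_orth S a 1
    rw [one_smul] at h
    exact mul_eq_one_comm.1 h
  · refine ContinuousLinearMap.ext fun v => ?_
    simp only [mul_apply_eq_comp, _root_.sum_apply, _root_.smul_apply]
    exact sex_exp S hF a α A v
  · refine sex_fix S hF a v ?_
    simp only [AN.eqvK, _root_.smul_apply, _root_.sum_apply]
    rw [Finset.sum_eq_zero fun C _ => by rw [AX2.csV_stmt S v hv C, smul_zero], smul_zero]

private lemma sex_ro (O : Matrix (Fin d) (Fin d) ℝ) (x : Cfg d) : ro O x = rox 1 O x := by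
  ext p
  simp only [ro, rox]
  rw [Finset.sum_eq_single p.1]
  · simp
  · intro j _ hj
    exact Finset.sum_eq_zero fun B _ => by rw [Matrix.one_apply_ne hj.symm, zero_mul, zero_mul]
  · intro h
    exact absurd (Finset.mem_univ _) h

omit [InnerProductSpace ℂ F] in
private lemma sex_L2t {O : Matrix (Fin d) (Fin d) ℝ} (hO : O * O.transpose = 1) {u : ℕ → Cfg d → F} {g : Cfg d → F}
    (h : L2t u g) : L2t (fun n x => u n (ro O x)) (fun x => g (ro O x)) := by
  have h1 : (1 : Matrix (Fin 9) (Fin 9) ℝ) * (1 : Matrix (Fin 9) (Fin 9) ℝ).transpose = 1 := by simp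
  have hmp : MeasurePreserving (rox (1 : Matrix (Fin 9) (Fin 9) ℝ) O : Cfg d → Cfg d) volume volume := AN.rt_mp h1 hO
  have hemb : MeasurableEmbedding (rox (1 : Matrix (Fin 9) (Fin 9) ℝ) O : Cfg d → Cfg d) :=
    (AN.rtE 1 h1 O hO).toHomeomorph.measurableEmbedding
  simp only [sex_ro]
  refine ⟨fun n => (h.mem n).comp_measurePreserving hmp, h.mem'.comp_measurePreserving hmp, ?_⟩
  have h2 : ∀ n, nsq (fun x => u n (rox 1 O x) - g (rox 1 O x)) = nsq (fun x => u n x - g x) := by
    intro n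
    exact hmp.integral_comp hemb (fun x => ‖u n x - g x‖ ^ 2)
  simp only [h2]
  exact h.lim

/-- **S13** -/
theorem sex_stmt (hS : ∀ (d : ℕ) (E : Type u) [NormedAddCommGroup E] [InnerProductSpace ℂ E] (S : Setup d E),
    AX2.SecStmt S) : SexStmt.{u} := by
  intro κ d f a E _ _ hE S hf hκ hI hne W hW Ψ hΨ
  obtain ⟨u, hu1, hu2, hu3, _⟩ := hΨ
  have had : adf f a = S.adm a := by
    rw [← hf]
    rfl
  rw [had] at hW ⊢
  have hWs : W = AN.spn S a := (hS d E S hE hI hne).2 _ _ _ hW (sex_imp S hE a)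
  have hL : L2t u Ψ := Lp_L2t hu1 hu3
  have hL1 : L2t (fun n x => W (u n x)) (fun x => W (Ψ x)) := hL.op (A := fun _ => W) continuous_const fun _ => le_rfl
  have hL2 : L2t (fun n x => u n (ro (NormedSpace.exp (S.adm a)) x)) (fun x => Ψ (ro (NormedSpace.exp (S.adm a)) x)) :=
    sex_L2t hW.orth hL
  have heq : (fun n x => u n (ro (NormedSpace.exp (S.adm a)) x)) = fun n x => W (u n x) := by
    funext n x
    rw [hWs]
    exact (AN.eqv_stmt S hE).2.2.2.2 (u n) (hu1 n).1 (hu2 n) a x
  have t1 := hL1.lim_toLp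
  have t2 := hL2.lim_toLp
  have e1 : ∀ n, (hL2.mem n).toLp (fun x => u n (ro (NormedSpace.exp (S.adm a)) x)) =
      (hL1.mem n).toLp (fun x => W (u n x)) := by
    intro n
    refine MemLp.toLp_congr _ _ (Eventually.of_forall fun x => ?_)
    exact congrFun (congrFun heq n) x
  have t3 := tendsto_nhds_unique t1 (t2.congr e1)
  have t4 := (MemLp.toLp_eq_toLp_iff hL1.mem' hL2.mem').1 t3
  exact t4

end Vale.Agent.P353.Z.AS
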