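import Vale.Agent.P353.AN.SGN.Stmt

/-! # P353, all `N`, block SGN, S23: the `s` part of an exchange (helper206) -/

open MeasureTheory Filter Topology Matrix
open scoped ContDiff

namespace Vale.Agent.P353.Z.AS

universe u

variable {N d dh dm ds dz k : ℕ} {n : Fin k → ℕ} {T : Fin d → Matrix (Fin N) (Fin N) ℂ} {φ : Spl dh dm d} {ψ : Spl ds dz dh}

/-- the structure constants of the semisimple part -/
private noncomputable def sf206 {F : Type u} [NormedAddCommGroup F] [InnerProductSpace ℂ F] (S : Setup d F) (φ : Spl dh dm d)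
    (ψ : Spl ds dz dh) : Fin ds → Fin ds → Fin ds → ℝ := fun A B C =>
  S.f (φ (Sum.inl (ψ (Sum.inl A)))) (φ (Sum.inl (ψ (Sum.inl B)))) (φ (Sum.inl (ψ (Sum.inl C))))

private lemma sf206_cast (fr : NFr n T φ ψ) :
    ∀ (m m' : ℕ) (h : m = m') (i j l : Fin (m ^ 2 - 1)),
      fr.fb m' (Fin.cast (by rw [h]) i) (Fin.cast (by rw [h]) j) (Fin.cast (by rw [h]) l) = fr.fb m i j l := by
  intro m m' h i j l
  subst h
  rfl

/-- same block -/
private lemma sf206_same {F : Type u} [NormedAddCommGroup F] [InnerProductSpace ℂ F] {S : Setup d F} {fr : NFr n T φ ψ}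
    (hB : Bas N d T S.f) (hSf : ANF.SfStmt S fr) (a : Fin k) (i j l : Fin (n a ^ 2 - 1)) :
    sf206 S φ ψ (fr.es ⟨a, i⟩) (fr.es ⟨a, j⟩) (fr.es ⟨a, l⟩) = fr.fb (n a) i j l := by
  have h := hSf hB a a a i j l
  rw [dif_pos ⟨rfl, rfl⟩] at h
  exact h

/-- different blocks -/
private lemma sf206_diff {F : Type u} [NormedAddCommGroup F] [InnerProductSpace ℂ F] {S : Setup d F} {fr : NFr n T φ ψ}
    (hB : Bas N d T S.f) (hSf : ANF.SfStmt S fr) (s t v : Σ a, Fin (n a ^ 2 - 1)) (h : ¬ (s.1 = t.1 ∧ t.1 = v.1)) :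
    sf206 S φ ψ (fr.es s) (fr.es t) (fr.es v) = 0 := by
  have h1 := hSf hB s.1 t.1 v.1 s.2 t.2 v.2
  rw [dif_neg (fun h2 => h ⟨h2.1, h2.1.symm.trans h2.2⟩)] at h1
  exact h1

/-- blocks different from `a`, `b` -/
private abbrev Rb206 {k : ℕ} (a b : Fin k) : Type := {x : Fin k // x ≠ a ∧ x ≠ b}

private noncomputable def g206 {k : ℕ} (a b : Fin k) (x : Fin (Fintype.card (Rb206 a b))) : Fin k :=
  ((Fintype.equivFin (Rb206 a b)).symm x).1

private lemma g206_ne {k : ℕ} (a b : Fin k) (x : Fin (Fintype.card (Rb206 a b))) : g206 a b x ≠ a ∧ g206 a b x ≠ b :=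
  ((Fintype.equivFin (Rb206 a b)).symm x).2

private lemma g206_inj {k : ℕ} (a b : Fin k) : Function.Injective (g206 a b) := by
  intro x y h
  exact (Fintype.equivFin (Rb206 a b)).symm.injective (Subtype.ext h)

private lemma g206_surj {k : ℕ} (a b c : Fin k) (h1 : c ≠ a) (h2 : c ≠ b) : ∃ x, g206 a b x = c := by
  refine ⟨Fintype.equivFin (Rb206 a b) ⟨c, h1, h2⟩, ?_⟩
  rw [g206, Equiv.symm_apply_apply]

/-- the positions of the rest -/
private abbrev M206 {k : ℕ} (n : Fin k → ℕ) (a b : Fin k) : Type :=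
  Σ x : Fin (Fintype.card (Rb206 a b)), Fin (n (g206 a b x) ^ 2 - 1)

/-- decomposition of the positions -/
private noncomputable def E206 {k : ℕ} (n : Fin k → ℕ) (a b : Fin k) (hab : n a = n b) :
    (Fin (n a ^ 2 - 1) ⊕ Fin (n a ^ 2 - 1)) ⊕ M206 n a b → Σ a, Fin (n a ^ 2 - 1) :=
  Sum.elim (Sum.elim (fun i => ⟨a, i⟩) (fun i => ⟨b, Fin.cast (by rw [hab]) i⟩)) (fun y => ⟨g206 a b y.1, y.2⟩)

private lemma E206_bij {k : ℕ} (n : Fin k → ℕ) (a b : Fin k) (hne : a ≠ b) (hab : n a = n b) :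
    Function.Bijective (E206 n a b hab) := by
  constructor
  · rintro ((i | i) | ⟨x, i⟩) ((j | j) | ⟨y, j⟩) h
    · have h1 : i = j := by simpa [E206] using h
      rw [h1]
    · exact absurd (congrArg Sigma.fst h) hne
    · exact absurd (congrArg Sigma.fst h).symm (g206_ne a b y).1
    · exact absurd (congrArg Sigma.fst h).symm hne
    · have h1 : i = j := by simpa [E206] using h
      rw [h1]
    · exact absurd (congrArg Sigma.fst h).symm (g206_ne a b y).2
    · exact absurd (congrArg Sigma.fst h) (g206_ne a b x).1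
    · exact absurd (congrArg Sigma.fst h) (g206_ne a b x).2
    · have h1 : x = y := g206_inj a b (congrArg Sigma.fst h)
      subst h1
      have h2 : i = j := by simpa [E206] using h
      rw [h2]
  · rintro ⟨c, i⟩
    by_cases h1 : c = a
    · subst h1
      exact ⟨Sum.inl (Sum.inl i), rfl⟩
    · by_cases h2 : c = b
      · subst h2
        exact ⟨Sum.inl (Sum.inr (Fin.cast (by rw [hab]) i)), rfl⟩
      · obtain ⟨x, rfl⟩ := g206_surj a b c h1 h2
        exact ⟨Sum.inr ⟨x, i⟩, rfl⟩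

/-- the full decomposition -/
private noncomputable def e206 {k ds : ℕ} {n : Fin k → ℕ} (es : (Σ a, Fin (n a ^ 2 - 1)) ≃ Fin ds) (a b : Fin k) (hne : a ≠ b)
    (hab : n a = n b) : (Fin (n a ^ 2 - 1) ⊕ Fin (n a ^ 2 - 1)) ⊕ Fin (Fintype.card (M206 n a b)) ≃ Fin ds :=
  ((Equiv.sumCongr (Equiv.refl _) (Fintype.equivFin (M206 n a b)).symm).trans
    (Equiv.ofBijective _ (E206_bij n a b hne hab))).trans es

private lemma e206_1 {k ds : ℕ} {n : Fin k → ℕ} (es : (Σ a, Fin (n a ^ 2 - 1)) ≃ Fin ds) (a b : Fin k) (hne : a ≠ b)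
    (hab : n a = n b) (i : Fin (n a ^ 2 - 1)) : e206 es a b hne hab (Sum.inl (Sum.inl i)) = es ⟨a, i⟩ := rfl

private lemma e206_2 {k ds : ℕ} {n : Fin k → ℕ} (es : (Σ a, Fin (n a ^ 2 - 1)) ≃ Fin ds) (a b : Fin k) (hne : a ≠ b)
    (hab : n a = n b) (i : Fin (n a ^ 2 - 1)) : e206 es a b hne hab (Sum.inl (Sum.inr i)) =
      es ⟨b, Fin.cast (by rw [hab]) i⟩ := rfl

private lemma e206_3 {k ds : ℕ} {n : Fin k → ℕ} (es : (Σ a, Fin (n a ^ 2 - 1)) ≃ Fin ds) (a b : Fin k) (hne : a ≠ b)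
    (hab : n a = n b) (y : M206 n a b) : e206 es a b hne hab (Sum.inr (Fintype.equivFin (M206 n a b) y)) =
      es ⟨g206 a b y.1, y.2⟩ := by
  show es (E206 n a b hab (Sum.map id (Fintype.equivFin (M206 n a b)).symm (Sum.inr (Fintype.equivFin (M206 n a b) y)))) = _
  rw [Sum.map_inr, Equiv.symm_apply_apply]
  rfl

/-- every position is one of the three kinds -/
private lemma e206_cases {k ds : ℕ} {n : Fin k → ℕ} (es : (Σ a, Fin (n a ^ 2 - 1)) ≃ Fin ds) (a b : Fin k) (hne : a ≠ b)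
    (hab : n a = n b) (A : Fin ds) : (∃ i, A = e206 es a b hne hab (Sum.inl (Sum.inl i))) ∨
      (∃ i, A = e206 es a b hne hab (Sum.inl (Sum.inr i))) ∨
      ∃ y, A = e206 es a b hne hab (Sum.inr (Fintype.equivFin (M206 n a b) y)) := by
  obtain ⟨x, rfl⟩ := (e206 es a b hne hab).surjective A
  rcases x with (i | i) | j
  · exact Or.inl ⟨i, rfl⟩
  · exact Or.inr (Or.inl ⟨i, rfl⟩)
  · exact Or.inr (Or.inr ⟨(Fintype.equivFin (M206 n a b)).symm j, by rw [Equiv.apply_symm_apply]⟩)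

private lemma e206_tag {k ds : ℕ} {n : Fin k → ℕ} (es : (Σ a, Fin (n a ^ 2 - 1)) ≃ Fin ds) (a b : Fin k) (hne : a ≠ b)
    (hab : n a = n b) (s : Σ a, Fin (n a ^ 2 - 1)) :
    tag (e206 es a b hne hab) (es s) = if s.1 = a then 0 else if s.1 = b then 1 else 2 := by
  rcases e206_cases es a b hne hab (es s) with ⟨i, h⟩ | ⟨i, h⟩ | ⟨y, h⟩
  · have h1 : s = ⟨a, i⟩ := es.injective (h.trans (e206_1 es a b hne hab i))
    rw [h, tag, Equiv.symm_apply_apply, h1, if_pos rfl]
    rfl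
  · have h1 : s = ⟨b, Fin.cast (by rw [hab]) i⟩ := es.injective (h.trans (e206_2 es a b hne hab i))
    rw [h, tag, Equiv.symm_apply_apply, h1, if_neg (fun h => hne h.symm), if_pos rfl]
    rfl
  · have h1 : s = ⟨g206 a b y.1, y.2⟩ := es.injective (h.trans (e206_3 es a b hne hab y))
    rw [h, tag, Equiv.symm_apply_apply, h1, if_neg (g206_ne a b y.1).1, if_neg (g206_ne a b y.1).2]
    rfl

/-- the exchange as a permutation matrix -/
private lemma e206_sw {k ds : ℕ} {n : Fin k → ℕ} (es : (Σ a, Fin (n a ^ 2 - 1)) ≃ Fin ds) (a b : Fin k) (hne : a ≠ b)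
    (hab : n a = n b) (t : Σ a, Fin (n a ^ 2 - 1)) :
    e206 es a b hne hab (Sum.map Sum.swap id ((e206 es a b hne hab).symm (es t))) =
      es (if h : t.1 = a then ⟨b, Fin.cast (by rw [h, hab]) t.2⟩ else
        if h : t.1 = b then ⟨a, Fin.cast (by rw [h, hab]) t.2⟩ else t) := by
  rcases e206_cases es a b hne hab (es t) with ⟨i, h⟩ | ⟨i, h⟩ | ⟨y, h⟩
  · have h1 : t = ⟨a, i⟩ := es.injective (h.trans (e206_1 es a b hne hab i))
    rw [h, Equiv.symm_apply_apply]
    subst h1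
    rw [dif_pos rfl]
    exact e206_2 es a b hne hab i
  · have h1 : t = ⟨b, Fin.cast (by rw [hab]) i⟩ := es.injective (h.trans (e206_2 es a b hne hab i))
    rw [h, Equiv.symm_apply_apply]
    subst h1
    rw [dif_neg (fun h => hne h.symm), dif_pos rfl]
    exact e206_1 es a b hne hab i
  · have h1 : t = ⟨g206 a b y.1, y.2⟩ := es.injective (h.trans (e206_3 es a b hne hab y))
    rw [h, Equiv.symm_apply_apply]
    subst h1
    rw [dif_neg (g206_ne a b y.1).1, dif_neg (g206_ne a b y.1).2]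
    exact e206_3 es a b hne hab y

/-- **S23** -/
theorem swF_stmt {F : Type u} [NormedAddCommGroup F] [InnerProductSpace ℂ F] (S : Setup d F) (fr : NFr n T φ ψ) :
    SwFStmt S fr := by
  intro hB hSw hSf hOF hP hZ hSwp hOne a b hne hab V c hc hV
  obtain ⟨-, -, hsO⟩ := hSw hB a b hne hab V c hc hV
  set e := e206 fr.es a b hne hab with he
  set f3 : Fin (Fintype.card (M206 n a b)) → Fin (Fintype.card (M206 n a b)) → Fin (Fintype.card (M206 n a b)) → ℝ :=
    fun A B C => sf206 S φ ψ (e (Sum.inr A)) (e (Sum.inr B)) (e (Sum.inr C)) with hf3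
  -- the structure constants are a double
  have hD : Dbl e (sf206 S φ ψ) (fr.fb (n a)) f3 := by
    refine ⟨?_, ?_, fun A B C => rfl, ?_⟩
    · intro A B C
      rw [he, e206_1, e206_1, e206_1]
      exact sf206_same hB hSf a A B C
    · intro A B C
      rw [he, e206_2, e206_2, e206_2, sf206_same hB hSf b]
      exact sf206_cast fr (n a) (n b) hab A B C
    · intro A B C hmix
      obtain ⟨s, rfl⟩ := fr.es.surjective A
      obtain ⟨t, rfl⟩ := fr.es.surjective B
      obtain ⟨v, rfl⟩ := fr.es.surjective C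
      refine sf206_diff hB hSf s t v fun h => hmix ?_
      rw [he, e206_tag, e206_tag, e206_tag, h.1, h.2]
      exact ⟨rfl, rfl⟩
  -- uniqueness for the rest and for everything
  have h3 : OneA.{u} 1 f3 := by
    refine hOF hP hZ 1 (Fintype.card (Rb206 a b)) (fun x => n (g206 a b x) ^ 2 - 1) (fun x => fr.fb (n (g206 a b x)))
      (Fintype.card (M206 n a b)) (Fintype.equivFin (M206 n a b)) f3 ?_ ?_ (fun x => hOne _)
    · intro x i j l
      rw [hf3]
      show sf206 S φ ψ (e (Sum.inr _)) (e (Sum.inr _)) (e (Sum.inr _)) = _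
      rw [he, e206_3, e206_3, e206_3]
      exact sf206_same hB hSf (g206 a b x) i j l
    · intro s t v h
      rw [hf3]
      show sf206 S φ ψ (e (Sum.inr _)) (e (Sum.inr _)) (e (Sum.inr _)) = _
      rw [he, e206_3, e206_3, e206_3]
      refine sf206_diff hB hSf _ _ _ fun h' => h ⟨g206_inj a b h'.1, g206_inj a b h'.2⟩
  have hA : OneA.{u} 1 (sf206 S φ ψ) := by
    refine hOF hP hZ 1 k (fun x => n x ^ 2 - 1) (fun x => fr.fb (n x)) ds fr.es (sf206 S φ ψ) ?_ ?_ hOne
    · intro x i j l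
      exact sf206_same hB hSf x i j l
    · intro s t v h
      exact sf206_diff hB hSf s t v h
  have hmain := hSwp 1 ds (n a ^ 2 - 1) (Fintype.card (M206 n a b)) e (sf206 S φ ψ) (fr.fb (n a)) f3 hD (hOne a) h3 hA
  have hO : sO φ ψ (adO T V) = swO e := by
    ext A B
    obtain ⟨s, rfl⟩ := fr.es.surjective A
    obtain ⟨t, rfl⟩ := fr.es.surjective B
    rw [hsO s t, swO, Matrix.of_apply, he, e206_sw]
    simp only [EmbeddingLike.apply_eq_iff_eq]
  rw [hO]
  exact hmain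

end Vale.Agent.P353.Z.AS
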