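import Vale.Agent.P353.AN.SGN.Stmt
import Vale.Agent.P353.Z.U.Pack

/-! # P353, all `N`, block SGN: `SwpStmt` from `SwpAStmt` (helper379)

The zero mode is unique up to a factor, so the covariance of one nonzero zero mode gives it for all of them. -/

open MeasureTheory Filter Topology Matrix
open scoped ContDiff

namespace Vale.Agent.P353.Z.AS

universe u

lemma swp379_qmp {d : ℕ} {O : Matrix (Fin d) (Fin d) ℝ} (h : O * Oᵀ = 1) :
    Measure.QuasiMeasurePreserving (ro O : Cfg d → Cfg d) volume volume := by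
  have h' : O.transpose * O = 1 := mul_eq_one_comm.1 h
  exact (U.pack_roE O h').measurePreserving.quasiMeasurePreserving

lemma swp379_smul {d : ℕ} {E : Type*} [NormedAddCommGroup E] [InnerProductSpace ℂ E] {O : Matrix (Fin d) (Fin d) ℝ}
    (h : O * Oᵀ = 1) (W : E →L[ℂ] E) (c : ℂ) {Ψ : Lp E 2 (volume : Measure (Cfg d))}
    (hΨ : ∀ᵐ x ∂(volume : Measure (Cfg d)), W (Ψ x) = Ψ (ro O x)) :
    ∀ᵐ x ∂(volume : Measure (Cfg d)), W ((c • Ψ) x) = (c • Ψ) (ro O x) := by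
  have h1 := Lp.coeFn_smul c Ψ
  have h2 := (swp379_qmp h).ae h1
  filter_upwards [hΨ, h1, h2] with x a1 a2 a3
  rw [a2, a3, Pi.smul_apply, Pi.smul_apply, map_smul, a1]

/-- **S17** -/
theorem swp_stmt : SwpAStmt.{u} → SwpStmt.{u} := by
  intro hA κ d d1 d3 e f f1 f3 hD h1 h3 hf E _ _ hfin S hSf hSκ hirr hne W hW Ψ hΨ
  obtain ⟨Φ, hΦ, hΦ0, hΦW⟩ := hA κ d d1 d3 e f f1 f3 hD h1 h3 E hfin S hSf hSκ hirr hne W hW
  obtain ⟨Ψ₀, -, -, hu⟩ := hf E hfin S hSf hSκ hirr hne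
  obtain ⟨a, ha⟩ := hu Φ hΦ
  obtain ⟨b, hb⟩ := hu Ψ hΨ
  have ha0 : a ≠ 0 := by
    rintro rfl
    exact hΦ0 (by rw [ha, zero_smul])
  have he : Ψ = (b * a⁻¹) • Φ := by
    rw [ha, smul_smul, mul_assoc, inv_mul_cancel₀ ha0, mul_one, hb]
  rw [he]
  exact swp379_smul hW.orth W _ hΦW

end Vale.Agent.P353.Z.AS
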