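import Vale.Agent.P353.AN.SGN.SwpM

/-! # P353, all `N`, block SGN: data of the product construction (helper973) -/

open MeasureTheory Filter Topology Matrix
open scoped ContDiff

namespace Vale.Agent.P353.Z.AS

universe u

/-- the vacuum space of the complementary colours is irreducible -/
theorem sd_irr {d m m' : ℕ} {E : Type u} [NormedAddCommGroup E] [InnerProductSpace ℂ E] (fd : FiniteDimensional ℂ E)
    (S : Setup d E) (hI : S.Irr) (hne : ∃ v : E, v ≠ 0) (ψ : Spl m m' d) (hs : S.IsSub ψ) (hs' : S.IsSub (spsw ψ)) :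
    IrrOn (S.sub ψ hs) (vca (S.sub (spsw ψ) hs') ⊤) := by
  have hAnt : Ant (S.sub ψ hs) (S.sub (spsw ψ) hs') := by
    refine ⟨rfl, fun α A β B => ?_⟩
    have h := S.th_anti α (ψ (Sum.inl A)) β (ψ (Sum.inr B))
    have hne' : ¬(α = β ∧ ψ (Sum.inl A) = ψ (Sum.inr B)) := by
      rintro ⟨-, h⟩
      exact absurd (ψ.injective h) (by simp)
    rw [if_neg hne'] at h
    exact h
  obtain ⟨v₀, hv₀⟩ := hne
  have hI2 : IrrOn2 (S.sub ψ hs) (S.sub (spsw ψ) hs') (⊤ : Submodule ℂ E) := by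
    refine ⟨fun _ _ _ _ => Submodule.mem_top, fun _ _ _ _ => Submodule.mem_top, ?_, ?_⟩
    · intro h
      have : v₀ ∈ (⊤ : Submodule ℂ E) := Submodule.mem_top
      rw [h, Submodule.mem_bot] at this
      exact hv₀ this
    · intro W _ hW1 hW2
      refine hI W fun α A v hv => ?_
      obtain ⟨p, rfl⟩ := ψ.surjective A
      rcases p with a | b
      · exact hW1 α a v hv
      · exact hW2 α b v hv
  exact (AX2.vci_main (S.sub ψ hs) (S.sub (spsw ψ) hs') fd hAnt ⊤ hI2).1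

theorem sd_vne {m : ℕ} {E : Type u} [NormedAddCommGroup E] [InnerProductSpace ℂ E] {S : Setup m E} {V : Submodule ℂ E}
    (h : IrrOn S V) : ∃ v : V, v ≠ 0 := by
  obtain ⟨v, hv, hv0⟩ := (Submodule.ne_bot_iff _).1 h.ne
  exact ⟨⟨v, hv⟩, fun h => hv0 (congrArg Subtype.val h)⟩

section Tags

variable {d d1 d3 : ℕ} (e : (Fin d1 ⊕ Fin d1) ⊕ Fin d3 ≃ Fin d)

theorem sd_g1 (A : Fin d1) : tag e (sa1 e (Sum.inl A)) = 0 := by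
  rw [sa1_inl]
  simp [tag]

theorem sd_g2 (A : Fin d1) : tag e (sa1 (saE e) (Sum.inl A)) = 1 := by
  rw [sa2_inl]
  simp [tag]

theorem sd_g3 (A : Fin d3) : tag e (sa3 e (Sum.inl A)) = 2 := by
  rw [sa3_inl]
  simp [tag]

theorem sd_g2' (A : Fin (d1 + d3)) : tag e (sa1 (saE e) (Sum.inr A)) ≠ 1 := by
  obtain ⟨p, rfl⟩ := finSumFinEquiv.surjective A
  rcases p with p | p
  · rw [sa2_r1]
    simp [tag]
  · rw [sa2_r2]
    simp [tag]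

end Tags

section Subs

variable {d d1 d3 : ℕ} {e : (Fin d1 ⊕ Fin d1) ⊕ Fin d3 ≃ Fin d} {f : Fin d → Fin d → Fin d → ℝ}
  {f1 : Fin d1 → Fin d1 → Fin d1 → ℝ} {f3 : Fin d3 → Fin d3 → Fin d3 → ℝ} {E : Type u} [NormedAddCommGroup E]
  [InnerProductSpace ℂ E] {S : Setup d E}

theorem sd_s1 (hD : Dbl e f f1 f3) (hf : S.f = f) : S.IsSub (sa1 e) := by
  intro A B C
  rw [hf]
  refine hD.mix _ _ _ fun h => ?_
  have h1 := h.2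
  rw [sd_g1] at h1
  exact sa_tag1 e C h1.symm

theorem sd_s1' (hD : Dbl e f f1 f3) (hf : S.f = f) : S.IsSub (spsw (sa1 e)) := by
  intro A B C
  rw [hf]
  refine hD.mix _ _ _ fun h => ?_
  have h1 : tag e (sa1 e (Sum.inr B)) = tag e (sa1 e (Sum.inl C)) := h.2
  rw [sd_g1] at h1
  exact sa_tag1 e B h1

theorem sd_s2 (hD : Dbl e f f1 f3) (hf : S.f = f) : S.IsSub (sa1 (saE e)) := by
  intro A B C
  rw [hf]
  refine hD.mix _ _ _ fun h => ?_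
  have h1 := h.2
  rw [sd_g2] at h1
  exact sd_g2' e C h1.symm

theorem sd_s2' (hD : Dbl e f f1 f3) (hf : S.f = f) : S.IsSub (spsw (sa1 (saE e))) := by
  intro A B C
  rw [hf]
  refine hD.mix _ _ _ fun h => ?_
  have h1 : tag e (sa1 (saE e) (Sum.inr B)) = tag e (sa1 (saE e) (Sum.inl C)) := h.2
  rw [sd_g2] at h1
  exact sd_g2' e B h1

theorem sd_s3 (hD : Dbl e f f1 f3) (hf : S.f = f) : S.IsSub (sa3 e) := by
  intro A B C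
  rw [hf]
  refine hD.mix _ _ _ fun h => ?_
  have h1 := h.2
  rw [sd_g3] at h1
  exact sa_tag3 e C h1.symm

theorem sd_s3' (hD : Dbl e f f1 f3) (hf : S.f = f) : S.IsSub (spsw (sa3 e)) := by
  intro A B C
  rw [hf]
  refine hD.mix _ _ _ fun h => ?_
  have h1 : tag e (sa3 e (Sum.inr B)) = tag e (sa3 e (Sum.inl C)) := h.2
  rw [sd_g3] at h1
  exact sa_tag3 e B h1

theorem sd_V1 (hs : S.IsSub (spsw (sa1 e))) (v : E) : v ∈ vca (S.sub (spsw (sa1 e)) hs) ⊤ ↔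
    ∀ A α, tag e A ≠ 0 → S.amF A α v = 0 := by
  constructor
  · intro h A α hA
    obtain ⟨B, rfl⟩ := sa_tag1' e A hA
    exact h.2 B α
  · intro h
    exact ⟨Submodule.mem_top, fun A α => h _ α (sa_tag1 e A)⟩

theorem sd_V1' (hs : S.IsSub (spsw (sa1 e))) (v : E) : v ∈ vca (S.sub (spsw (sa1 e)) hs) ⊤ ↔
    ∀ A α, S.amF (sa1 e (Sum.inr A)) α v = 0 :=
  ⟨fun h => h.2, fun h => ⟨Submodule.mem_top, h⟩⟩

theorem sd_V3 (hs : S.IsSub (spsw (sa3 e))) (v : E) : v ∈ vca (S.sub (spsw (sa3 e)) hs) ⊤ ↔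
    ∀ A α, tag e A ≠ 2 → S.amF A α v = 0 := by
  constructor
  · intro h A α hA
    obtain ⟨B, rfl⟩ := sa_tag3' e A hA
    exact h.2 B α
  · intro h
    exact ⟨Submodule.mem_top, fun A α => h _ α (sa_tag3 e A)⟩

/-- the fields of `SaC` -/
theorem sd_sac (hD : Dbl e f f1 f3) (hf : S.f = f) {W P : E →L[ℂ] E} {τ : E →ₗ[ℂ] E →ₗ[ℂ] E →ₗ[ℂ] E}
    (hT : Tri e S W P τ)
    (i1 : ∀ α A, ∀ v ∈ vca (S.sub (spsw (sa1 e)) (sd_s1' hD hf)) ⊤, (S.sub (sa1 e) (sd_s1 hD hf)).th α A v ∈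
      vca (S.sub (spsw (sa1 e)) (sd_s1' hD hf)) ⊤)
    (i3 : ∀ α A, ∀ v ∈ vca (S.sub (spsw (sa3 e)) (sd_s3' hD hf)) ⊤, (S.sub (sa3 e) (sd_s3 hD hf)).th α A v ∈
      vca (S.sub (spsw (sa3 e)) (sd_s3' hD hf)) ⊤) :
    SaC e S (S.sub (sa1 e) (sd_s1 hD hf)) (S.sub (sa1 (saE e)) (sd_s2 hD hf)) (S.sub (sa3 e) (sd_s3 hD hf))
      (vca (S.sub (spsw (sa1 e)) (sd_s1' hD hf)) ⊤) (vca (S.sub (spsw (sa3 e)) (sd_s3' hD hf)) ⊤) W P τ where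
  F1 := ⟨rfl, rfl, fun _ _ => rfl, fun _ _ _ => rfl, sd_s1 hD hf, sd_s1' hD hf⟩
  F2 := ⟨rfl, rfl, fun _ _ => rfl, fun _ _ _ => rfl, sd_s2 hD hf, sd_s2' hD hf⟩
  F3 := ⟨rfl, rfl, fun _ _ => rfl, fun _ _ _ => rfl, sd_s3 hD hf, sd_s3' hD hf⟩
  f2 := by
    funext A B C
    change S.f (e (Sum.inl (Sum.inr A))) (e (Sum.inl (Sum.inr B))) (e (Sum.inl (Sum.inr C))) =
      S.f (e (Sum.inl (Sum.inl A))) (e (Sum.inl (Sum.inl B))) (e (Sum.inl (Sum.inl C)))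
    rw [hf, hD.a1, hD.a2]
  i1 := i1
  i3 := i3
  nrm := fun u u' k => hT.norm u u' k ((sd_V1 _ _).1 u.2) ((sd_V1 _ _).1 u'.2) ((sd_V3 _ _).1 k.2)
  t1 := fun u u' k α A => hT.t1 u u' k α A ((sd_V1 _ _).1 u.2) ((sd_V1 _ _).1 u'.2) ((sd_V3 _ _).1 k.2)
  t2 := fun u u' k α A hu => hT.t2 u u' k α A hu ((sd_V1 _ _).1 u.2) ((sd_V1 _ _).1 u'.2) ((sd_V3 _ _).1 k.2)
  t3 := fun u u' k α A hu hu' => hT.t3 u u' k α A hu hu' ((sd_V1 _ _).1 u.2) ((sd_V1 _ _).1 u'.2) ((sd_V3 _ _).1 k.2)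
  sw := fun u u' k hu hu' => hT.sw u u' k hu hu' ((sd_V1 _ _).1 u.2) ((sd_V1 _ _).1 u'.2) ((sd_V3 _ _).1 k.2)

end Subs

/-- the parity operator (statement of `sa_par`, SwpE) -/
def ParH : Prop := ∀ {d : ℕ} {E : Type u} [NormedAddCommGroup E] [InnerProductSpace ℂ E] (_ : FiniteDimensional ℂ E) (S : Setup d E) (_ : AX2.SecStmt S) (_ : S.Irr) (_ : ∃ v : E, v ≠ 0), ∃ P : E →L[ℂ] E, Imp S (-1) P ∧ (∀ v, P (P v) = v) ∧ (∀ α A v, P (S.th α A v) = -S.th α A (P v)) ∧ (∀ A α v, P (S.amF A α v) = -S.amF A α (P v))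

/-- even approximants (statement of `sa_evd`, SwpE) -/
def EvdH : Prop := ∀ (_ : ∀ (m : ℕ) (V : Type u) [NormedAddCommGroup V] [InnerProductSpace ℂ V] (T : Setup m V), EvenStmt T) {d d1 r : ℕ} {E : Type u} [NormedAddCommGroup E] [InnerProductSpace ℂ E] [FiniteDimensional ℂ E] {S : Setup d E} {κ : ℝ} {f1 : Fin d1 → Fin d1 → Fin d1 → ℝ} {P : E →L[ℂ] E} (_ : Imp S (-1) P) (_ : ∀ v, P (P v) = v) {ψ : Spl d1 r d} {S1 : Setup d1 E} (_ : AX2.FuS S S1 ψ) (_ : S1.κ = κ) (_ : S1.f = f1) (_ : OneA.{u} κ f1) (V : Submodule ℂ E) (_ : ∀ v, v ∈ V ↔ ∀ A α, S.amF (ψ (Sum.inr A)) α v = 0) (i1 : ∀ α A, ∀ v ∈ V, S1.th α A v ∈ V) (_ : (S1.rst V i1).Irr) (_ : ∃ v : V, v ≠ 0), (∀ v ∈ V, P v ∈ V) ∧ ∃ (Φ : Lp V 2 (volume : Measure (Cfg d1))) (a : ℕ → Cfg d1 → V), (S1.rst V i1).Apx Φ a ∧ Φ ≠ 0 ∧ (∀ n y, P (a n y) = a n y) ∧ ∀ᵐ y ∂(volume : Measure (Cfg d1)),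 P ((Φ y : V) : E) = ((Φ y : V) : E)

/-- **data of the product construction** -/
theorem sa_data (sa_par : ParH.{u}) (sa_evd : EvdH.{u}) (hTri : TriStmt.{u})
    (hEv : ∀ (m : ℕ) (V : Type u) [NormedAddCommGroup V] [InnerProductSpace ℂ V] (T : Setup m V), EvenStmt T)
    {d d1 d3 : ℕ} {e : (Fin d1 ⊕ Fin d1) ⊕ Fin d3 ≃ Fin d} {f : Fin d → Fin d → Fin d → ℝ}
    {f1 : Fin d1 → Fin d1 → Fin d1 → ℝ} {f3 : Fin d3 → Fin d3 → Fin d3 → ℝ} {κ : ℝ} (hD : Dbl e f f1 f3)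
    (h1 : OneA.{u} κ f1) (h3 : OneA.{u} κ f3) {E : Type u} [NormedAddCommGroup E] [InnerProductSpace ℂ E]
    (fd : FiniteDimensional ℂ E) (S : Setup d E) (hSec : AX2.SecStmt S) (hf : S.f = f) (hκ : S.κ = κ) (hI : S.Irr)
    (hne : ∃ v : E, v ≠ 0) (W : E →L[ℂ] E) (hW : Imp S (swO e) W) :
    ∃ (S1 S2 : Setup d1 E) (S3 : Setup d3 E) (V1 V3 : Submodule ℂ E) (P : E →L[ℂ] E)
      (τ : E →ₗ[ℂ] E →ₗ[ℂ] E →ₗ[ℂ] E) (hC : SaC e S S1 S2 S3 V1 V3 W P τ)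
      (Φ : Lp V1 2 (volume : Measure (Cfg d1))) (K : Lp V3 2 (volume : Measure (Cfg d3)))
      (a : ℕ → Cfg d1 → V1) (c : ℕ → Cfg d3 → V3),
      (S1.rst V1 hC.i1).Apx Φ a ∧ (S3.rst V3 hC.i3).Apx K c ∧ Φ ≠ 0 ∧ K ≠ 0 ∧
      (∀ n y, P (a n y) = a n y) ∧ ∀ᵐ y ∂(volume : Measure (Cfg d1)), P ((Φ y : V1) : E) = ((Φ y : V1) : E) := by
  obtain ⟨P, hP, hPP, -, -⟩ := sa_par fd S hSec hI hne
  obtain ⟨τ, hT⟩ := hTri d d1 d3 e E fd S hI hne W P hW hP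
  have hirr1 := sd_irr fd S hI hne (sa1 e) (sd_s1 hD hf) (sd_s1' hD hf)
  have hirr3 := sd_irr fd S hI hne (sa3 e) (sd_s3 hD hf) (sd_s3' hD hf)
  have hC := sd_sac hD hf hT hirr1.inv hirr3.inv
  obtain ⟨-, Φ, a, hA, hΦ, hPa, hPΦ⟩ := sa_evd hEv hP hPP (ψ := sa1 e) (S1 := S.sub (sa1 e) (sd_s1 hD hf)) hC.F1 hκ
    (by
      funext A B C
      change S.f (e (Sum.inl (Sum.inl A))) (e (Sum.inl (Sum.inl B))) (e (Sum.inl (Sum.inl C))) = _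
      rw [hf, hD.a1]) h1 (vca (S.sub (spsw (sa1 e)) (sd_s1' hD hf)) ⊤) (sd_V1' _) hirr1.inv
    (AX2.pz775_irr _ _ hirr1) (sd_vne hirr1)
  obtain ⟨K, hKz, hK0, -⟩ := h3 (vca (S.sub (spsw (sa3 e)) (sd_s3' hD hf)) ⊤) inferInstance
    ((S.sub (sa3 e) (sd_s3 hD hf)).rst _ hirr3.inv)
    (by
      funext A B C
      change S.f (e (Sum.inr A)) (e (Sum.inr B)) (e (Sum.inr C)) = _
      rw [hf, hD.a3]) hκ (AX2.pz775_irr _ _ hirr3) (sd_vne hirr3)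
  obtain ⟨c, hc⟩ := hKz
  exact ⟨_, _, _, _, _, P, τ, hC, Φ, K, a, c, hA, hc, hΦ, hK0, hPa, hPΦ⟩

end Vale.Agent.P353.Z.AS
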