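import Vale.Agent.P353.AN.SGN.SwpM

/-! # P353, all `N`, block SGN, S16: parity and even approximants on the vacuum subspace (helper221) -/

open MeasureTheory Filter Topology Matrix
open scoped ContDiff

namespace Vale.Agent.P353.Z.AS

universe u

section Par

variable {d : ℕ} {E : Type*} [NormedAddCommGroup E] [InnerProductSpace ℂ E]

theorem sa_imp_th {S : Setup d E} {P : E →L[ℂ] E} (hP : Imp S (-1) P) (α : Fin 16) (A : Fin d) (v : E) :
    P (S.th α A v) = -S.th α A (P v) := by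
  have h := congrArg (fun T : E →L[ℂ] E => T v) (hP.imp α A)
  have h1 : P (S.th α A v) = (∑ B, (((-1 : Matrix (Fin d) (Fin d) ℝ) B A : ℝ) : ℂ) • (S.th α B * P)) v := h
  rw [h1, _root_.sum_apply, Finset.sum_eq_single A]
  · rw [Matrix.neg_apply, Matrix.one_apply_eq]
    push_cast
    rw [neg_smul, one_smul]
    rfl
  · intro B _ hB
    rw [Matrix.neg_apply, Matrix.one_apply_ne hB, neg_zero]
    push_cast
    rw [zero_smul]
    rfl
  · intro h
    exact absurd (Finset.mem_univ _) h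

theorem sa_imp_am {S : Setup d E} {P : E →L[ℂ] E} (hP : Imp S (-1) P) (A : Fin d) (α : Fin 16) (v : E) :
    P (S.amF A α v) = -S.amF A α (P v) := by
  rw [AX2.vci_amF_apply, AX2.vci_amF_apply, map_sub, map_smul, map_sum]
  simp only [map_smul, sa_imp_th hP, smul_neg, Finset.sum_neg_distrib]
  abel

end Par

/-- the parity of an irreducible module -/
theorem sa_par {d : ℕ} {E : Type u} [NormedAddCommGroup E] [InnerProductSpace ℂ E] (fd : FiniteDimensional ℂ E)
    (S : Setup d E) (hSec : AX2.SecStmt S) (hI : S.Irr) (hne : ∃ v : E, v ≠ 0) :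
    ∃ P : E →L[ℂ] E, Imp S (-1) P ∧ (∀ v, P (P v) = v) ∧ (∀ α A v, P (S.th α A v) = -S.th α A (P v)) ∧
      ∀ A α v, P (S.amF A α v) = -S.amF A α (P v) := by
  obtain ⟨⟨G, hG, -⟩, huni⟩ := hSec fd hI hne
  have hO : (-1 : Matrix (Fin d) (Fin d) ℝ) * (-1 : Matrix (Fin d) (Fin d) ℝ)ᵀ = 1 := by
    rw [Matrix.transpose_neg, Matrix.transpose_one, neg_mul_neg, one_mul]
  have hP : Imp S (-1) (G (-1)) := hG _ hO
  have h1 : Imp S 1 (1 : E →L[ℂ] E) := by
    refine ⟨by simp, fun α A => ?_, fun v => rfl, fun v _ => rfl⟩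
    rw [one_mul, Finset.sum_eq_single A]
    · rw [Matrix.one_apply_eq]
      simp
    · intro B _ hB
      rw [Matrix.one_apply_ne hB]
      simp
    · intro h
      exact absurd (Finset.mem_univ _) h
  have h2 : Imp S 1 (G (-1) * G (-1)) := by
    refine ⟨by simp, fun α A => ?_, fun v => ?_, fun v hv => ?_⟩
    · ext1 v
      have e1 : (G (-1) * G (-1) * S.th α A) v = S.th α A (G (-1) (G (-1) v)) := by
        change G (-1) (G (-1) (S.th α A v)) = _
        rw [sa_imp_th hP, map_neg, sa_imp_th hP, neg_neg]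
      rw [e1, _root_.sum_apply, Finset.sum_eq_single A]
      · rw [Matrix.one_apply_eq]
        push_cast
        rw [one_smul]
        rfl
      · intro B _ hB
        rw [Matrix.one_apply_ne hB]
        push_cast
        rw [zero_smul]
        rfl
      · intro h
        exact absurd (Finset.mem_univ _) h
    · change ‖G (-1) (G (-1) v)‖ = _
      rw [hP.norm, hP.norm]
    · change G (-1) (G (-1) v) = v
      rw [hP.vac v hv, hP.vac v hv]
  have h3 := huni 1 _ _ h2 h1
  refine ⟨G (-1), hP, fun v => ?_, sa_imp_th hP, sa_imp_am hP⟩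
  exact congrArg (fun T : E →L[ℂ] E => T v) h3

/-- even approximants of the zero mode on the vacuum subspace of the other colours -/
theorem sa_evd
    (hEv : ∀ (m : ℕ) (V : Type u) [NormedAddCommGroup V] [InnerProductSpace ℂ V] (T : Setup m V), EvenStmt T)
    {d d1 r : ℕ} {E : Type u} [NormedAddCommGroup E] [InnerProductSpace ℂ E] [FiniteDimensional ℂ E] {S : Setup d E}
    {κ : ℝ} {f1 : Fin d1 → Fin d1 → Fin d1 → ℝ} {P : E →L[ℂ] E} (hP : Imp S (-1) P) (hPP : ∀ v, P (P v) = v)
    {ψ : Spl d1 r d} {S1 : Setup d1 E} (hF : AX2.FuS S S1 ψ) (hκ : S1.κ = κ) (hf : S1.f = f1) (h1 : OneA.{u} κ f1)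
    (V : Submodule ℂ E) (hV : ∀ v, v ∈ V ↔ ∀ A α, S.amF (ψ (Sum.inr A)) α v = 0)
    (i1 : ∀ α A, ∀ v ∈ V, S1.th α A v ∈ V) (hI : (S1.rst V i1).Irr) (hne : ∃ v : V, v ≠ 0) :
    (∀ v ∈ V, P v ∈ V) ∧ ∃ (Φ : Lp V 2 (volume : Measure (Cfg d1))) (a : ℕ → Cfg d1 → V),
      (S1.rst V i1).Apx Φ a ∧ Φ ≠ 0 ∧ (∀ n y, P (a n y) = a n y) ∧
        ∀ᵐ y ∂(volume : Measure (Cfg d1)), P ((Φ y : V) : E) = ((Φ y : V) : E) := by
  have hPV : ∀ v ∈ V, P v ∈ V := by
    intro v hv
    rw [hV] at hv ⊢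
    intro A α
    have h2 := sa_imp_am hP (ψ (Sum.inr A)) α v
    rw [hv A α, map_zero] at h2
    exact (neg_eq_zero.1 h2.symm)
  refine ⟨hPV, ?_⟩
  set P1 : V →L[ℂ] V := opR V P hPV with hP1
  have hth : ∀ α A (v : V), P1 ((S1.rst V i1).th α A v) = -(S1.rst V i1).th α A (P1 v) := by
    intro α A v
    apply Subtype.ext
    change P (S1.th α A v) = -S1.th α A (P v)
    rw [hF.th, sa_imp_th hP]
  have hPP1 : ∀ v : V, P1 (P1 v) = v := fun v => Subtype.ext (hPP v)
  have hn1 : ∀ v : V, ‖P1 v‖ = ‖v‖ := fun v => hP.norm v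
  have hImp : Imp (S1.rst V i1) (-1) P1 := by
    refine ⟨?_, fun α A => ?_, hn1, fun v hv => ?_⟩
    · rw [Matrix.transpose_neg, Matrix.transpose_one, neg_mul_neg, one_mul]
    · ext1 v
      rw [_root_.sum_apply, Finset.sum_eq_single A]
      · rw [Matrix.neg_apply, Matrix.one_apply_eq]
        push_cast
        rw [neg_smul, one_smul]
        exact hth α A v
      · intro B _ hB
        rw [Matrix.neg_apply, Matrix.one_apply_ne hB, neg_zero]
        push_cast
        rw [zero_smul]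
        rfl
      · intro h
        exact absurd (Finset.mem_univ _) h
    · apply Subtype.ext
      change P v = v
      refine hP.vac _ fun B α => ?_
      obtain ⟨p, rfl⟩ := ψ.surjective B
      rcases p with A | A
      · have h3 := congrArg Subtype.val (hv A α)
        rw [AX2.vci_amF_rst] at h3
        have h4 : S.amF (ψ (Sum.inl A)) α (v : E) = S1.amF A α v := by
          rw [AX2.vci_amF_apply, AX2.vci_amF_apply]
          have e2 : S1.Gam = S.Gam := by
            change S1.g 0 * S1.g 1 * S1.g 2 = S.g 0 * S.g 1 * S.g 2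
            rw [hF.g]
          simp only [hF.th, e2]
        rw [h4, h3]
        rfl
      · exact (hV v).1 v.2 A α
  have fV : FiniteDimensional ℂ V := inferInstance
  obtain ⟨Φ, hz, h0, -⟩ := h1 V fV (S1.rst V i1) hf hκ hI hne
  have hPΦ := hEv d1 V (S1.rst V i1) fV hI hne P1 hImp Φ hz
  obtain ⟨a, ha, hev⟩ := sa_even (S1.rst V i1) P1 hth hPP1 hn1 hz hPΦ
  refine ⟨Φ, a, ha, h0, fun n y => congrArg Subtype.val (hev n y), ?_⟩
  filter_upwards [hPΦ] with y hy
  exact congrArg Subtype.val hy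

end Vale.Agent.P353.Z.AS
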