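import Vale.Agent.P353.AN.SGN.SwpC
import Vale.Agent.P353.AN.SGN.SwpD
import Vale.Agent.P353.AN.SGN.SwpE

/-! # P353, all `N`, block SGN, S16: a symmetric zero mode -/

open MeasureTheory Filter Topology Matrix
open scoped ContDiff

namespace Vale.Agent.P353.Z.AS

universe u

/-- **S16 SwpA** -/
theorem swpA_stmt (hTri : TriStmt.{u})
    (hEv : ∀ (m : ℕ) (V : Type u) [NormedAddCommGroup V] [InnerProductSpace ℂ V] (T : Setup m V), EvenStmt T)
    (hSec : ∀ (m : ℕ) (V : Type u) [NormedAddCommGroup V] [InnerProductSpace ℂ V] (T : Setup m V), AX2.SecStmt T) :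
    SwpAStmt.{u} := by
  intro κ d d1 d3 e f f1 f3 hD h1 h3 E _ _ fd S hf hκ hI hne W hW
  obtain ⟨S1, S2, S3, V1, V3, P, τ, hC, Φ, K, a, c, ha, hc, hΦ, hK, pa, pΦ⟩ :=
    sa_data sa_par sa_evd hTri hEv hD h1 h3 fd S (hSec d E S) hf hκ hI hne W hW
  exact sac_core hC ha hc hΦ hK pa pΦ

end Vale.Agent.P353.Z.AS
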