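import Vale.Agent.P353.AN.SGN.Stmt
import Vale.Agent.P353.AN.X2.VcaIrr
import Vale.Agent.P353.AN.F.Vac

/-! # P353, all `N`, block SGN: the product construction for two copies (S15 Tri, helper489) -/

open MeasureTheory Filter Topology Matrix
open scoped ContDiff

namespace Vale.Agent.P353.Z.AS

universe u

variable {d : ℕ} {F : Type u} [NormedAddCommGroup F] [InnerProductSpace ℂ F]

/-- the fermions of some of the colours -/
noncomputable def trS (S : Setup d F) {n : ℕ} (i : Fin n → Fin d) (hi : Function.Injective i) : Setup n F where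
  g := S.g
  g_symm := S.g_symm
  g_anti := S.g_anti
  th := fun α A => S.th α (i A)
  th_anti := by
    intro α A β B
    rw [S.th_anti]
    by_cases h : α = β ∧ A = B
    · rw [if_pos h, if_pos ⟨h.1, by rw [h.2]⟩]
    · rw [if_neg h, if_neg fun h' => h ⟨h'.1, hi h'.2⟩]
  κ := 1
  κ_pos := one_pos
  f := fun _ _ _ => 0
  f_swap := fun _ _ _ => neg_zero.symm
  f_cyc := fun _ _ _ => rfl
  f_jac := fun _ _ _ _ => by simp
  g_real := S.g_real
  th_sa := fun α A v w => S.th_sa α (i A) v w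

lemma tr_amF (S : Setup d F) {n : ℕ} (i : Fin n → Fin d) (hi : Function.Injective i) (A : Fin n) (α : Fin 16) :
    (trS S i hi).amF A α = S.amF (i A) α := rfl

lemma tr_rep_ι {n : ℕ} (S : Setup n F) (p : Fin 16 × Fin n) : S.rep (FreeAlgebra.ι ℂ p) = S.th p.1 p.2 := by
  unfold Setup.rep
  rw [FreeAlgebra.lift_ι_apply]

/-- parity of words -/
noncomputable def trP (n : ℕ) : FreeAlgebra ℂ (Fin 16 × Fin n) →ₐ[ℂ] FreeAlgebra ℂ (Fin 16 × Fin n) :=
  FreeAlgebra.lift ℂ fun p => -FreeAlgebra.ι ℂ p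

lemma trP_ι {n : ℕ} (p : Fin 16 × Fin n) : trP n (FreeAlgebra.ι ℂ p) = -FreeAlgebra.ι ℂ p := by
  unfold trP
  rw [FreeAlgebra.lift_ι_apply]

lemma trP_trP {n : ℕ} (X : FreeAlgebra ℂ (Fin 16 × Fin n)) : trP n (trP n X) = X := by
  have h : (trP n).comp (trP n) = AlgHom.id ℂ _ := by
    apply FreeAlgebra.hom_ext
    funext p
    change trP n (trP n (FreeAlgebra.ι ℂ p)) = FreeAlgebra.ι ℂ p
    rw [trP_ι, map_neg, trP_ι, neg_neg]
  exact congrArg (fun φ : FreeAlgebra ℂ (Fin 16 × Fin n) →ₐ[ℂ] FreeAlgebra ℂ (Fin 16 × Fin n) => φ X) h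

/-- an intertwiner of generators intertwines words -/
lemma tr_int {κ : Type*} (R R' : FreeAlgebra ℂ κ →ₐ[ℂ] (F →L[ℂ] F)) (T : F →L[ℂ] F)
    (h : ∀ p, T * R (FreeAlgebra.ι ℂ p) = R' (FreeAlgebra.ι ℂ p) * T) (X : FreeAlgebra ℂ κ) : T * R X = R' X * T := by
  refine FreeAlgebra.induction ℂ κ (motive := fun x => T * R x = R' x * T) ?_ h ?_ ?_ X
  · intro c
    rw [AlgHom.commutes, AlgHom.commutes]
    exact (Algebra.commutes c T).symm
  · intro a b ha hb
    rw [map_mul, map_mul, ← mul_assoc, ha, mul_assoc, hb, mul_assoc]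
  · intro a b ha hb
    rw [map_add, map_add, mul_add, add_mul, ha, hb]

lemma tr_int_apply {κ : Type*} (R R' : FreeAlgebra ℂ κ →ₐ[ℂ] (F →L[ℂ] F)) (T : F →L[ℂ] F)
    (h : ∀ p, T * R (FreeAlgebra.ι ℂ p) = R' (FreeAlgebra.ι ℂ p) * T) (X : FreeAlgebra ℂ κ) (v : F) :
    T (R X v) = R' X (T v) := by
  have h1 := congrArg (fun A : F →L[ℂ] F => A v) (tr_int R R' T h X)
  exact h1

/-- operators which anticommute with the fermions of the words -/
lemma tr_anti (S : Setup d F) {n : ℕ} (i : Fin n → Fin d) (hi : Function.Injective i) (T : F →L[ℂ] F)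
    (h : ∀ α A, T * S.th α (i A) = -(S.th α (i A) * T)) (X : FreeAlgebra ℂ (Fin 16 × Fin n)) (v : F) :
    T ((trS S i hi).rep X v) = (trS S i hi).rep (trP n X) (T v) := by
  refine tr_int_apply ((trS S i hi).rep) (((trS S i hi).rep).comp (trP n)) T (fun p => ?_) X v
  change T * (trS S i hi).rep (FreeAlgebra.ι ℂ p) = (trS S i hi).rep (trP n (FreeAlgebra.ι ℂ p)) * T
  rw [trP_ι, map_neg, tr_rep_ι, neg_mul]
  exact h p.1 p.2

lemma tr_th_anti (S : Setup d F) {A B : Fin d} (h : A ≠ B) (α β : Fin 16) :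
    S.th α A * S.th β B = -(S.th β B * S.th α A) := by
  rw [eq_neg_iff_add_eq_zero, S.th_anti, if_neg fun h' => h h'.2]

lemma tr_am_anti (S : Setup d F) {A B : Fin d} (h : A ≠ B) (α β : Fin 16) :
    S.amF A α * S.th β B = -(S.th β B * S.amF A α) := by
  unfold Setup.amF CS.vec
  rw [sub_mul, mul_sub, tr_th_anti S h, smul_mul_assoc, mul_smul_comm, Finset.sum_mul, Finset.mul_sum]
  have e : ∑ γ, S.Gam α γ • S.th γ A * S.th β B = -∑ γ, S.th β B * S.Gam α γ • S.th γ A := by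
    rw [← Finset.sum_neg_distrib]
    refine Finset.sum_congr rfl fun γ _ => ?_
    rw [smul_mul_assoc, mul_smul_comm, tr_th_anti S h, smul_neg]
  rw [e, smul_neg]
  abel

/-- the vectors killed by the annihilators of the other colours are obtained from the vacuum -/
lemma tr_ex (S : Setup d F) (hfd : FiniteDimensional ℂ F) (hirr : S.Irr) (hne : ∃ v : F, v ≠ 0) {n m : ℕ}
    (i : Fin n → Fin d) (hi : Function.Injective i) (j : Fin m → Fin d) (hj : Function.Injective j)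
    (hij : ∀ A B, i A ≠ j B) (hc : ∀ C, (∃ A, i A = C) ∨ ∃ B, j B = C) {ζ : F} (h0 : ζ ≠ 0)
    (hζ : ∀ A α, S.amF A α ζ = 0) {v : F} (hv : ∀ A α, S.amF (j A) α v = 0) :
    ∃ X, (trS S i hi).rep X ζ = v := by
  have hA : Ant (trS S i hi) (trS S j hj) := ⟨rfl, fun α A β B => by
    change S.th α (i A) * S.th β (j B) + S.th β (j B) * S.th α (i A) = 0
    rw [S.th_anti, if_neg fun h' => hij A B h'.2]⟩
  have hI : IrrOn2 (trS S i hi) (trS S j hj) (⊤ : Submodule ℂ F) := by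
    refine ⟨fun _ _ _ _ => Submodule.mem_top, fun _ _ _ _ => Submodule.mem_top, ?_, fun W _ h1 h2 => ?_⟩
    · intro h
      obtain ⟨w, hw⟩ := hne
      have : w ∈ (⊤ : Submodule ℂ F) := Submodule.mem_top
      rw [h, Submodule.mem_bot] at this
      exact hw this
    · refine hirr W fun α C w hw => ?_
      rcases hc C with ⟨A, rfl⟩ | ⟨B, rfl⟩
      · exact h1 α A w hw
      · exact h2 α B w hw
  obtain ⟨hirr1, -⟩ := AX2.vci_main (trS S i hi) (trS S j hj) hfd hA ⊤ hI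
  obtain ⟨L, hL⟩ : ∃ L : FreeAlgebra ℂ (Fin 16 × Fin n) →ₗ[ℂ] F, ∀ X, L X = (trS S i hi).rep X ζ :=
    ⟨{ toFun := fun X => (trS S i hi).rep X ζ
       map_add' := fun X Y => by rw [map_add]; rfl
       map_smul' := fun c X => by rw [map_smul]; rfl }, fun _ => rfl⟩
  have hle : LinearMap.range L ≤ vca (trS S j hj) (⊤ : Submodule ℂ F) := by
    rintro _ ⟨X, rfl⟩
    refine ⟨Submodule.mem_top, fun B β => ?_⟩
    rw [tr_amF, hL, tr_anti S i hi (S.amF (j B) β) (fun α A => tr_am_anti S (hij A B).symm β α) X ζ, hζ, map_zero]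
  have hinv : ∀ α A, ∀ w ∈ LinearMap.range L, (trS S i hi).th α A w ∈ LinearMap.range L := by
    rintro α A _ ⟨X, rfl⟩
    refine ⟨FreeAlgebra.ι ℂ (α, A) * X, ?_⟩
    rw [hL, hL, map_mul, tr_rep_ι]
    rfl
  rcases hirr1.irr _ hle hinv with h | h
  · exfalso
    have h1 : ζ ∈ LinearMap.range L := ⟨1, by
      rw [hL, map_one]
      rfl⟩
    rw [h, Submodule.mem_bot] at h1
    exact h0 h1
  · have h1 : v ∈ vca (trS S j hj) (⊤ : Submodule ℂ F) := ⟨Submodule.mem_top, fun A α => hv A α⟩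
    rw [← h] at h1
    obtain ⟨X, hX⟩ := h1
    exact ⟨X, by rw [← hL, hX]⟩

/-- section of words, even on even vectors -/
lemma tr_sec {n : ℕ} (S : Setup n F) {ζ : F} (P : F →L[ℂ] F) (hP : ∀ α A, P * S.th α A = -(S.th α A * P)) (hPζ : P ζ = ζ) :
    ∃ s : F →ₗ[ℂ] FreeAlgebra ℂ (Fin 16 × Fin n), (∀ X, S.rep (s (S.rep X ζ)) ζ = S.rep X ζ) ∧
      ∀ v, P v = v → trP n (s v) = s v := by
  obtain ⟨L, hL⟩ : ∃ L : FreeAlgebra ℂ (Fin 16 × Fin n) →ₗ[ℂ] F, ∀ X, L X = S.rep X ζ :=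
    ⟨{ toFun := fun X => S.rep X ζ
       map_add' := fun X Y => by rw [map_add]; rfl
       map_smul' := fun c X => by rw [map_smul]; rfl }, fun _ => rfl⟩
  obtain ⟨g, hg⟩ := L.rangeRestrict.exists_rightInverse_of_surjective L.range_rangeRestrict
  obtain ⟨s₀, hs₀⟩ := LinearMap.exists_extend g
  have h1 : ∀ X, L (s₀ (L X)) = L X := by
    intro X
    have h2 : s₀ (L X) = g (L.rangeRestrict X) :=
      congrArg (fun φ : LinearMap.range L →ₗ[ℂ] FreeAlgebra ℂ (Fin 16 × Fin n) => φ (L.rangeRestrict X)) hs₀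
    have h3 : L.rangeRestrict (g (L.rangeRestrict X)) = L.rangeRestrict X :=
      congrArg (fun φ : LinearMap.range L →ₗ[ℂ] LinearMap.range L => φ (L.rangeRestrict X)) hg
    rw [h2]
    exact congrArg Subtype.val h3
  have h4 : ∀ X, P (L X) = L (trP n X) := by
    intro X
    rw [hL, hL]
    have h5 := tr_int_apply S.rep ((S.rep).comp (trP n)) P (fun p => by
      change P * S.rep (FreeAlgebra.ι ℂ p) = S.rep (trP n (FreeAlgebra.ι ℂ p)) * P
      rw [trP_ι, map_neg, tr_rep_ι, neg_mul, hP]) X ζ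
    rw [h5, hPζ]
    rfl
  refine ⟨(1 / 2 : ℂ) • (s₀ + (trP n).toLinearMap ∘ₗ s₀ ∘ₗ (P : F →ₗ[ℂ] F)), fun X => ?_, fun v hv => ?_⟩
  · rw [← hL, ← hL]
    change L ((1 / 2 : ℂ) • (s₀ (L X) + trP n (s₀ (P (L X))))) = L X
    have h6 : L (trP n (s₀ (P (L X)))) = L X := by
      rw [← h4, h4 X, h1, h4, trP_trP]
    rw [map_smul, map_add, h1, h6, ← two_smul ℂ, smul_smul]
    norm_num
  · change trP n ((1 / 2 : ℂ) • (s₀ v + trP n (s₀ (P v)))) = (1 / 2 : ℂ) • (s₀ v + trP n (s₀ (P v)))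
    rw [hv, map_smul, map_add, trP_trP, add_comm]

lemma tr_impP {S : Setup d F} {P : F →L[ℂ] F} (hP : Imp S (-1) P) (α : Fin 16) (A : Fin d) :
    P * S.th α A = -(S.th α A * P) := by
  rw [hP.imp, Finset.sum_eq_single A]
  · simp
  · intro B _ hB
    simp [hB]
  · intro h
    exact absurd (Finset.mem_univ _) h

lemma tr_impW {d1 d3 : ℕ} {e : (Fin d1 ⊕ Fin d1) ⊕ Fin d3 ≃ Fin d} {S : Setup d F} {W : F →L[ℂ] F} (hW : Imp S (swO e) W)
    (α : Fin 16) (A : Fin d) : W * S.th α A = S.th α (e (Sum.map Sum.swap id (e.symm A))) * W := by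
  rw [hW.imp, Finset.sum_eq_single (e (Sum.map Sum.swap id (e.symm A)))]
  · simp [swO]
  · intro B _ hB
    simp [swO, hB]
  · intro h
    exact absurd (Finset.mem_univ _) h

/-- **S15 Tri** -/
theorem tri_stmt : AX2.WickStmt.{u} → TriStmt.{u} := by
  intro hWick d d1 d3 e F _ _ hfd S hirr hne W P hW hP
  obtain ⟨ζ, hn, hζ, -, -⟩ := AF.vacF S hirr hne
  have h0 : ζ ≠ 0 := fun h => by rw [h, norm_zero] at hn; exact zero_ne_one hn
  have hPζ : P ζ = ζ := hP.vac ζ hζ
  have hWζ : W ζ = ζ := hW.vac ζ hζ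
  -- the colours
  obtain ⟨i1, hi1⟩ : ∃ i1 : Fin d1 → Fin d, ∀ A, i1 A = e (Sum.inl (Sum.inl A)) := ⟨_, fun _ => rfl⟩
  obtain ⟨i2, hi2⟩ : ∃ i2 : Fin d1 → Fin d, ∀ A, i2 A = e (Sum.inl (Sum.inr A)) := ⟨_, fun _ => rfl⟩
  obtain ⟨i3, hi3⟩ : ∃ i3 : Fin d3 → Fin d, ∀ A, i3 A = e (Sum.inr A) := ⟨_, fun _ => rfl⟩
  have j1 : Function.Injective i1 := fun A B h => by
    rw [hi1, hi1] at h
    exact Sum.inl_injective (Sum.inl_injective (e.injective h))
  have j2 : Function.Injective i2 := fun A B h => by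
    rw [hi2, hi2] at h
    exact Sum.inr_injective (Sum.inl_injective (e.injective h))
  have j3 : Function.Injective i3 := fun A B h => by
    rw [hi3, hi3] at h
    exact Sum.inr_injective (e.injective h)
  have n12 : ∀ A B, i1 A ≠ i2 B := fun A B h => by
    rw [hi1, hi2] at h
    simpa using e.injective h
  have n13 : ∀ A B, i1 A ≠ i3 B := fun A B h => by
    rw [hi1, hi3] at h
    simpa using e.injective h
  have n23 : ∀ A B, i2 A ≠ i3 B := fun A B h => by
    rw [hi2, hi3] at h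
    simpa using e.injective h
  have t1 : ∀ A, tag e (i1 A) = 0 := fun A => by rw [hi1]; simp [tag]
  have t2 : ∀ A, tag e (i2 A) = 1 := fun A => by rw [hi2]; simp [tag]
  have t3 : ∀ A, tag e (i3 A) = 2 := fun A => by rw [hi3]; simp [tag]
  have hcov : ∀ C, (∃ A, i1 A = C) ∨ (∃ A, i2 A = C) ∨ ∃ A, i3 A = C := by
    intro C
    rcases h : e.symm C with (A | A) | A
    · exact Or.inl ⟨A, by rw [hi1, ← h, Equiv.apply_symm_apply]⟩
    · exact Or.inr (Or.inl ⟨A, by rw [hi2, ← h, Equiv.apply_symm_apply]⟩)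
    · exact Or.inr (Or.inr ⟨A, by rw [hi3, ← h, Equiv.apply_symm_apply]⟩)
  -- the vectors of the first copy
  have hE1 : ∀ u : F, (∀ A α, tag e A ≠ 0 → S.amF A α u = 0) → ∃ X, (trS S i1 j1).rep X ζ = u := by
    intro u hu
    refine tr_ex S hfd hirr hne i1 j1 (fun B : Fin (d1 + d3) => Sum.elim i2 i3 (finSumFinEquiv.symm B)) ?_ ?_ ?_ h0 hζ ?_
    · refine Function.Injective.comp ?_ finSumFinEquiv.symm.injective
      exact Function.Injective.sumElim j2 j3 n23
    · intro A B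
      rcases finSumFinEquiv.symm B with B | B
      · exact n12 A B
      · exact n13 A B
    · intro C
      rcases hcov C with h | ⟨A, h⟩ | ⟨A, h⟩
      · exact Or.inl h
      · exact Or.inr ⟨finSumFinEquiv (Sum.inl A), by
          rw [Equiv.symm_apply_apply]
          exact h⟩
      · exact Or.inr ⟨finSumFinEquiv (Sum.inr A), by
          rw [Equiv.symm_apply_apply]
          exact h⟩
    · intro B α
      refine hu _ α ?_
      rcases finSumFinEquiv.symm B with B | B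
      · change tag e (i2 B) ≠ 0
        rw [t2]; decide
      · change tag e (i3 B) ≠ 0
        rw [t3]; decide
  have hE3 : ∀ k : F, (∀ A α, tag e A ≠ 2 → S.amF A α k = 0) → ∃ X, (trS S i3 j3).rep X ζ = k := by
    intro k hk
    refine tr_ex S hfd hirr hne i3 j3 (fun B : Fin (d1 + d1) => Sum.elim i1 i2 (finSumFinEquiv.symm B)) ?_ ?_ ?_ h0 hζ ?_
    · refine Function.Injective.comp ?_ finSumFinEquiv.symm.injective
      exact Function.Injective.sumElim j1 j2 n12
    · intro A B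
      rcases finSumFinEquiv.symm B with B | B
      · exact (n13 B A).symm
      · exact (n23 B A).symm
    · intro C
      rcases hcov C with ⟨A, h⟩ | ⟨A, h⟩ | h
      · exact Or.inr ⟨finSumFinEquiv (Sum.inl A), by
          rw [Equiv.symm_apply_apply]
          exact h⟩
      · exact Or.inr ⟨finSumFinEquiv (Sum.inr A), by
          rw [Equiv.symm_apply_apply]
          exact h⟩
      · exact Or.inl h
    · intro B α
      refine hk _ α ?_
      rcases finSumFinEquiv.symm B with B | B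
      · change tag e (i1 B) ≠ 2
        rw [t1]; decide
      · change tag e (i2 B) ≠ 2
        rw [t2]; decide
  obtain ⟨s, hs1, hs2⟩ := tr_sec (trS S i1 j1) (ζ := ζ) P (fun α A => tr_impP hP α (i1 A)) hPζ
  -- universality of the vacuum
  have w11 : ∀ (X : FreeAlgebra ℂ (Fin 16 × Fin d1)) (v : F), (∀ A α, S.amF (i1 A) α v = 0) →
      ‖(trS S i1 j1).rep X v‖ = ‖(trS S i1 j1).rep X ζ‖ * ‖v‖ := by
    intro X v hv
    have h := (hWick d1 F F (trS S i1 j1) (trS S i1 j1) rfl ζ v (fun A α => hζ _ α) (fun A α => hv A α)).2 X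
    rw [hn, mul_one] at h
    exact h.symm
  have w12 : ∀ (X : FreeAlgebra ℂ (Fin 16 × Fin d1)) (v : F), (∀ A α, S.amF (i2 A) α v = 0) →
      ‖(trS S i2 j2).rep X v‖ = ‖(trS S i1 j1).rep X ζ‖ * ‖v‖ := by
    intro X v hv
    have h := (hWick d1 F F (trS S i1 j1) (trS S i2 j2) rfl ζ v (fun A α => hζ _ α) (fun A α => hv A α)).2 X
    rw [hn, mul_one] at h
    exact h.symm
  have z11 : ∀ (X Y : FreeAlgebra ℂ (Fin 16 × Fin d1)) (v : F), (∀ A α, S.amF (i1 A) α v = 0) →
      (trS S i1 j1).rep X ζ = (trS S i1 j1).rep Y ζ → (trS S i1 j1).rep X v = (trS S i1 j1).rep Y v := by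
    intro X Y v hv h
    have h1 := w11 (X - Y) v hv
    have h2 : (trS S i1 j1).rep (X - Y) ζ = 0 := by
      rw [map_sub, _root_.sub_apply, h, sub_self]
    rw [h2, norm_zero, zero_mul, norm_eq_zero, map_sub, _root_.sub_apply, sub_eq_zero] at h1
    exact h1
  have z12 : ∀ (X Y : FreeAlgebra ℂ (Fin 16 × Fin d1)) (v : F), (∀ A α, S.amF (i2 A) α v = 0) →
      (trS S i1 j1).rep X ζ = (trS S i1 j1).rep Y ζ → (trS S i2 j2).rep X v = (trS S i2 j2).rep Y v := by
    intro X Y v hv h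
    have h1 := w12 (X - Y) v hv
    have h2 : (trS S i1 j1).rep (X - Y) ζ = 0 := by
      rw [map_sub, _root_.sub_apply, h, sub_self]
    rw [h2, norm_zero, zero_mul, norm_eq_zero, map_sub, _root_.sub_apply, sub_eq_zero] at h1
    exact h1
  -- words of the second copy preserve the vacuum condition of the first copy
  have hk1 : ∀ (X : FreeAlgebra ℂ (Fin 16 × Fin d1)) (k : F), (∀ A α, tag e A ≠ 2 → S.amF A α k = 0) →
      ∀ A α, S.amF (i1 A) α ((trS S i2 j2).rep X k) = 0 := by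
    intro X k hk A α
    rw [tr_anti S i2 j2 (S.amF (i1 A) α) (fun β B => tr_am_anti S (n12 A B) α β) X k,
      hk _ α (by rw [t1]; decide), map_zero]
  have hk2 : ∀ (k : F), (∀ A α, tag e A ≠ 2 → S.amF A α k = 0) → ∀ A α, S.amF (i2 A) α k = 0 := by
    intro k hk A α
    exact hk _ α (by rw [t2]; decide)
  have hsu : ∀ u : F, (∀ A α, tag e A ≠ 0 → S.amF A α u = 0) → (trS S i1 j1).rep (s u) ζ = u := by
    intro u hu
    obtain ⟨X, rfl⟩ := hE1 u hu
    exact hs1 X
  -- fermions of the first copy preserve the first space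
  have hth1 : ∀ u : F, (∀ A α, tag e A ≠ 0 → S.amF A α u = 0) → ∀ β B, ∀ A α, tag e A ≠ 0 →
      S.amF A α (S.th β (i1 B) u) = 0 := by
    intro u hu β B A α hA
    have hne' : A ≠ i1 B := fun h => hA (by rw [h, t1])
    have h := congrArg (fun T : F →L[ℂ] F => T u) (tr_am_anti S hne' α β)
    have h' : S.amF A α (S.th β (i1 B) u) = -(S.th β (i1 B) (S.amF A α u)) := h
    rw [h', hu A α hA, map_zero, neg_zero]
  have hthr : ∀ (u : F), (∀ A α, tag e A ≠ 0 → S.amF A α u = 0) → ∀ β B,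
      (trS S i1 j1).rep (FreeAlgebra.ι ℂ (β, B) * s u) ζ = (trS S i1 j1).rep (s (S.th β (i1 B) u)) ζ := by
    intro u hu β B
    rw [hsu _ (hth1 u hu β B), map_mul, tr_rep_ι]
    change S.th β (i1 B) ((trS S i1 j1).rep (s u) ζ) = _
    rw [hsu u hu]
  -- the trilinear map
  obtain ⟨τ, hτ⟩ : ∃ τ : F →ₗ[ℂ] F →ₗ[ℂ] F →ₗ[ℂ] F, ∀ u u' k,
      τ u u' k = (trS S i1 j1).rep (s u) ((trS S i2 j2).rep (s u') k) := by
    refine ⟨LinearMap.mk₂ ℂ (fun u u' => (((trS S i1 j1).rep (s u) * (trS S i2 j2).rep (s u') : F →L[ℂ] F) : F →ₗ[ℂ] F))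
      ?_ ?_ ?_ ?_, fun u u' k => rfl⟩
    · intro u v w
      rw [map_add, map_add, add_mul]
      rfl
    · intro c u w
      rw [map_smul, map_smul, smul_mul_assoc]
      rfl
    · intro u v w
      rw [map_add, map_add, mul_add]
      rfl
    · intro c u w
      rw [map_smul, map_smul, mul_smul_comm]
      rfl
  refine ⟨τ, ⟨?_, ?_, ?_, ?_, ?_⟩⟩
  · intro u u' k hu hu' hk
    rw [hτ, w11 _ _ (hk1 _ k hk), w12 _ _ (hk2 k hk), hsu u hu, hsu u' hu', mul_assoc]
  · intro u u' k α A hu hu' hk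
    rw [hτ, hτ, ← hi1]
    have h := z11 _ _ _ (hk1 (s u') k hk) (hthr u hu α A)
    rw [← h, map_mul, tr_rep_ι]
    rfl
  · intro u u' k α A hPu hu hu' hk
    rw [hτ, hτ, ← hi1, ← hi2,
      tr_anti S i1 j1 (S.th α (i2 A)) (fun β B => tr_th_anti S (n12 B A).symm α β), hs2 u hPu]
    congr 1
    have h := z12 _ _ _ (hk2 k hk) (hthr u' hu' α A)
    rw [← h, map_mul, tr_rep_ι]
    rfl
  · intro u u' k α A hPu hPu' hu hu' hk
    rw [hτ, hτ, ← hi3,
      tr_anti S i1 j1 (S.th α (i3 A)) (fun β B => tr_th_anti S (n13 B A).symm α β), hs2 u hPu,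
      tr_anti S i2 j2 (S.th α (i3 A)) (fun β B => tr_th_anti S (n23 B A).symm α β), hs2 u' hPu']
  · intro u u' k hPu hPu' hu hu' hk
    have hW1 : ∀ X v, W ((trS S i1 j1).rep X v) = (trS S i2 j2).rep X (W v) := by
      intro X v
      refine tr_int_apply _ _ W (fun p => ?_) X v
      rw [tr_rep_ι, tr_rep_ι]
      change W * S.th p.1 (i1 p.2) = S.th p.1 (i2 p.2) * W
      rw [tr_impW hW, hi1, hi2, Equiv.symm_apply_apply]
      rfl
    have hW2 : ∀ X v, W ((trS S i2 j2).rep X v) = (trS S i1 j1).rep X (W v) := by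
      intro X v
      refine tr_int_apply _ _ W (fun p => ?_) X v
      rw [tr_rep_ι, tr_rep_ι]
      change W * S.th p.1 (i2 p.2) = S.th p.1 (i1 p.2) * W
      rw [tr_impW hW, hi1, hi2, Equiv.symm_apply_apply]
      rfl
    have hW3 : ∀ X v, W ((trS S i3 j3).rep X v) = (trS S i3 j3).rep X (W v) := by
      intro X v
      refine tr_int_apply _ _ W (fun p => ?_) X v
      rw [tr_rep_ι]
      change W * S.th p.1 (i3 p.2) = S.th p.1 (i3 p.2) * W
      rw [tr_impW hW, hi3, Equiv.symm_apply_apply]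
      rfl
    have hWk : W k = k := by
      obtain ⟨X, rfl⟩ := hE3 k hk
      rw [hW3, hWζ]
    rw [hτ, hτ, hW1, hW2, hWk]
    -- even words commute with the words of the other copy
    have hc := tr_int_apply ((trS S i2 j2).rep) ((trS S i2 j2).rep) ((trS S i1 j1).rep (s u')) (fun p => by
      rw [tr_rep_ι]
      ext v
      have h := tr_anti S i1 j1 (S.th p.1 (i2 p.2)) (fun β B => tr_th_anti S (n12 B p.2).symm p.1 β) (s u') v
      rw [hs2 u' hPu'] at h
      exact h.symm) (s u) k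
    exact hc.symm

end Vale.Agent.P353.Z.AS
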