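import Vale.Agent.P353.AN.SGN.Stmt

/-! # P353, all `N`, block SGN: two point function on the vacuum space of a complex structure (helper393) -/

open MeasureTheory Filter Topology Matrix
open scoped ContDiff

namespace Vale.Agent.P353.Z.AS

variable {d : ℕ} {F : Type*} [NormedAddCommGroup F] [InnerProductSpace ℂ F]

private lemma sgnTwo_anti (S : Setup d F) (p q : Fin 16 × Fin d) (w : F) :
    S.th p.1 p.2 (S.th q.1 q.2 w) + S.th q.1 q.2 (S.th p.1 p.2 w) = (if p = q then (1 : ℂ) else 0) • w := by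
  have h := congrArg (fun T : F →L[ℂ] F => T w) (S.th_anti p.1 p.2 q.1 q.2)
  have hiff : (p.1 = q.1 ∧ p.2 = q.2) ↔ p = q := Prod.ext_iff.symm
  by_cases hpq : p = q
  · rw [if_pos hpq, one_smul]
    rw [if_pos (hiff.2 hpq)] at h
    exact h
  · rw [if_neg hpq, zero_smul]
    rw [if_neg (fun h' => hpq (hiff.1 h'))] at h
    exact h

private lemma sgnTwo_ker (S : Setup d F) (J : Matrix (Fin 16 × Fin d) (Fin 16 × Fin d) ℂ) (v : F)
    (hv : v ∈ JV S J) (p : Fin 16 × Fin d) :
    S.th p.1 p.2 v = Complex.I • ∑ q : Fin 16 × Fin d, J p q • S.th q.1 q.2 v := by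
  have h : ∑ q : Fin 16 × Fin d, ((1 : Matrix (Fin 16 × Fin d) (Fin 16 × Fin d) ℂ) - Complex.I • J) p q •
      S.th q.1 q.2 v = 0 := hv p
  have h1 : ∑ q : Fin 16 × Fin d, ((1 : Matrix (Fin 16 × Fin d) (Fin 16 × Fin d) ℂ) - Complex.I • J) p q •
      S.th q.1 q.2 v = S.th p.1 p.2 v - Complex.I • ∑ q : Fin 16 × Fin d, J p q • S.th q.1 q.2 v := by
    rw [Finset.smul_sum]
    have h2 : ∀ q : Fin 16 × Fin d, ((1 : Matrix (Fin 16 × Fin d) (Fin 16 × Fin d) ℂ) - Complex.I • J) p q •
        S.th q.1 q.2 v = (1 : Matrix (Fin 16 × Fin d) (Fin 16 × Fin d) ℂ) p q • S.th q.1 q.2 v -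
          Complex.I • (J p q • S.th q.1 q.2 v) := by
      intro q
      rw [Matrix.sub_apply, Matrix.smul_apply, sub_smul, smul_eq_mul, mul_smul]
    simp only [h2, Finset.sum_sub_distrib]
    congr 1
    simp only [Matrix.one_apply, ite_smul, one_smul, zero_smul, Finset.sum_ite_eq, Finset.mem_univ, if_true]
  rw [h1] at h
  exact sub_eq_zero.1 h

/-- the two point function -/
private lemma sgnTwo_two (S : Setup d F) (J : Matrix (Fin 16 × Fin d) (Fin 16 × Fin d) ℂ) (hJ : CStr J) (v : F)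
    (hv : v ∈ JV S J) (p q : Fin 16 × Fin d) :
    inner ℂ v (S.th p.1 p.2 (S.th q.1 q.2 v)) =
      (1 / 2 : ℂ) * ((if p = q then 1 else 0) - Complex.I * J p q) * inner ℂ v v := by
  have hreal : ∀ p q, (starRingEnd ℂ) (J p q) = J p q := by
    intro p q
    rw [Complex.conj_eq_iff_im]
    exact hJ.toRA.real p q
  set G : (Fin 16 × Fin d) → (Fin 16 × Fin d) → ℂ :=
    fun p q => inner ℂ v (S.th p.1 p.2 (S.th q.1 q.2 v)) with hG
  have hA : ∀ p q, G p q = Complex.I * ∑ r, J q r * G p r := by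
    intro p q
    simp only [hG]
    rw [sgnTwo_ker S J v hv q, map_smul, inner_smul_right, map_sum, inner_sum]
    congr 1
    refine Finset.sum_congr rfl fun r _ => ?_
    rw [map_smul, inner_smul_right]
  have hB : ∀ p q, G p q = -Complex.I * ∑ r, J p r * G r q := by
    intro p q
    simp only [hG]
    rw [← S.th_sa, sgnTwo_ker S J v hv p, inner_smul_left, sum_inner, Complex.conj_I]
    congr 1
    refine Finset.sum_congr rfl fun r _ => ?_
    rw [inner_smul_left, hreal, S.th_sa]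
  have hC : ∀ p q, G p q + G q p = (if p = q then (1 : ℂ) else 0) * inner ℂ v v := by
    intro p q
    simp only [hG]
    rw [← inner_add_right, sgnTwo_anti, inner_smul_right]
  have h1 : G p q = -Complex.I * (J p q * inner ℂ v v - ∑ r, J p r * G q r) := by
    rw [hB p q]
    congr 1
    have h2 : ∀ r, J p r * G r q = J p r * ((if r = q then (1 : ℂ) else 0) * inner ℂ v v) - J p r * G q r := by
      intro r
      rw [← hC r q]
      ring
    simp only [h2, Finset.sum_sub_distrib]
    congr 1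
    simp only [ite_mul, one_mul, zero_mul, mul_ite, mul_zero, Finset.sum_ite_eq', Finset.mem_univ, if_true]
  have h2 := hA q p
  have h3 := hC p q
  have h4 : G p q - G q p = -Complex.I * (J p q * inner ℂ v v) := by
    rw [h1, h2]
    ring
  change G p q = _
  linear_combination (1 / 2 : ℂ) * h3 + (1 / 2 : ℂ) * h4

/-- **S2 Two** -/
theorem two_stmt (S : Setup d F) : TwoStmt S := by
  intro J hJ v hv
  refine ⟨sgnTwo_two S J hJ v hv, ?_⟩
  intro k l _
  have hd : ∀ α, S.g2 k l α α = 0 := by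
    intro α
    have h := congrFun (congrFun (S.g2_transpose k l) α) α
    rw [Matrix.transpose_apply, Matrix.neg_apply] at h
    linear_combination (1 / 2 : ℂ) * h
  have h1 : S.Skl k l v = (-Complex.I / 4) • ∑ A, ∑ α, ∑ β, S.g2 k l α β • S.th α A (S.th β A v) := by
    simp only [Setup.Skl, CS.tot, CS.bil, CS.vec, _root_.smul_apply, _root_.sum_apply, mul_apply_eq_comp,
      map_sum, map_smul]
  rw [h1]
  simp only [inner_smul_right, inner_sum]
  have h2 : ∀ (A : Fin d) (α β : Fin 16), S.g2 k l α β * inner ℂ v (S.th α A (S.th β A v)) =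
      -(Complex.I / 2) * (S.g2 k l α β * J (α, A) (β, A)) * inner ℂ v v := by
    intro A α β
    have h3 := sgnTwo_two S J hJ v hv (α, A) (β, A)
    simp only at h3
    rw [h3]
    by_cases h4 : α = β
    · subst h4
      rw [hd]
      ring
    · have h5 : ¬ ((α, A) = (β, A)) := fun h => h4 (Prod.ext_iff.1 h).1
      rw [if_neg h5]
      ring
  have h6 : ∑ A, ∑ α, ∑ β, S.g2 k l α β * J (α, A) (β, A) = ∑ α, ∑ β, ∑ A, S.g2 k l α β * J (α, A) (β, A) := by
    rw [Finset.sum_comm]
    refine Finset.sum_congr rfl fun α _ => ?_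
    rw [Finset.sum_comm]
  have h7 : ∑ A, ∑ α, ∑ β, S.g2 k l α β * inner ℂ v (S.th α A (S.th β A v)) =
      -(Complex.I / 2) * (∑ A, ∑ α, ∑ β, S.g2 k l α β * J (α, A) (β, A)) * inner ℂ v v := by
    simp only [h2, Finset.sum_mul, Finset.mul_sum]
  rw [h7, h6]
  generalize ∑ α, ∑ β, ∑ A, S.g2 k l α β * J (α, A) (β, A) = X
  linear_combination ((1 / 8 : ℂ) * X * inner ℂ v v) * Complex.I_sq

end Vale.Agent.P353.Z.AS
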