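import Vale.Agent.P353.AN.X2.All
import Vale.Agent.P353.AN.NF.All
import Vale.Agent.P353.AN.X.Conn
import Vale.Agent.P353.AN.SGN.Line
import Vale.Agent.P353.AN.SGN.Two
import Vale.Agent.P353.AN.SGN.ImpT
import Vale.Agent.P353.AN.SGN.Eig
import Vale.Agent.P353.AN.SGN.JF
import Vale.Agent.P353.AN.SGN.Cov
import Vale.Agent.P353.AN.SGN.VacR
import Vale.Agent.P353.AN.SGN.Eta
import Vale.Agent.P353.AN.SGN.RPar
import Vale.Agent.P353.AN.SGN.FerAt
import Vale.Agent.P353.AN.SGN.ExtB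
import Vale.Agent.P353.AN.SGN.Coll
import Vale.Agent.P353.AN.SGN.Sex
import Vale.Agent.P353.AN.SGN.Even
import Vale.Agent.P353.AN.SGN.Tri
import Vale.Agent.P353.AN.SGN.SwpA
import Vale.Agent.P353.AN.SGN.Swp
import Vale.Agent.P353.AN.SGN.Comb
import Vale.Agent.P353.AN.SGN.AdSym
import Vale.Agent.P353.AN.SGN.EtaStar
import Vale.Agent.P353.AN.SGN.ExF
import Vale.Agent.P353.AN.SGN.OneFam
import Vale.Agent.P353.AN.SGN.SwF

/-! # P353, all `N`, block SGN: assembly, leaves without hypotheses -/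

open Matrix

namespace Vale.Agent.P353.Z.AS

universe u

variable {d dh dm ds dz : ℕ} {F : Type*} [NormedAddCommGroup F] [InnerProductSpace ℂ F]

theorem eigAll (S : Setup d F) : EigStmt S := eig_stmt S (line_stmt S) (impT_stmt S)

theorem etaAll (S : Setup d F) (φ : Spl dh dm d) (ψ : Spl ds dz dh) : EtaStmt S φ ψ :=
  eta_stmt S φ ψ (line_stmt S) (jF_stmt S φ)

theorem rParAll (S : Setup d F) (φ : Spl dh dm d) (ψ : Spl ds dz dh) : RParStmt S φ ψ :=
  rPar_stmt S φ ψ (line_stmt S) (two_stmt S) (impT_stmt S) (jF_stmt S φ) (cov_stmt S φ ψ) (vacR_stmt S φ) (etaAll S φ ψ)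

theorem ferAtAll (S : Setup d F) (φ : Spl dh dm d) (ψ : Spl ds dz dh) : FerAtStmt S φ ψ :=
  ferAt_stmt S φ ψ (eigAll S) (impT_stmt S) (jF_stmt S φ) (cov_stmt S φ ψ) (vacR_stmt S φ) (etaAll S φ ψ) (rParAll S φ ψ)

theorem extAll (S : Setup d F) (φ : Spl dh dm d) (ψ : Spl ds dz dh) : ExtStmt S φ ψ :=
  ext_stmt' S φ ψ (impT_stmt S) (cov_stmt S φ ψ) (etaAll S φ ψ)

theorem sexAll : SexStmt.{u} := sex_stmt fun _ _ _ _ S => AX2.secAll S

theorem evenAll {d : ℕ} {F : Type u} [NormedAddCommGroup F] [InnerProductSpace ℂ F] (S : Setup d F) : EvenStmt S :=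
  even_stmt S (AX2.secAll S)

theorem triAll : TriStmt.{u} := tri_stmt AX2.wick_stmt

theorem swpAAll : SwpAStmt.{u} := swpA_stmt triAll (fun _ _ _ _ S => evenAll S) fun _ _ _ _ S => AX2.secAll S

theorem swpAll : SwpStmt.{u} := swp_stmt swpAAll

theorem combAll : CombStmt.{u} := comb_stmt fun S => AX2.rst_stmt S

end Vale.Agent.P353.Z.AS
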