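import Vale.Agent.P353.AN.SGN.Sgn
import Vale.Agent.P353.AN.SGN.AllA
import Vale.Agent.P353.AN.X2.All

/-! # P353, all `N`, block SGN: unconditional output (helper620) -/

namespace Vale.Agent.P353.Z.AS

universe u

/-- **S24**, unconditional: covariance of the ground state sections under the normaliser -/
theorem sgnAll : SgnStmt.{u} := sgn_stmt swpAAll AX2.prodAll AX2.impMAll

end Vale.Agent.P353.Z.AS
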