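import Vale.Agent.P353.AN.NF.Defs
import Vale.Agent.P353.AN.X.Bri
import Vale.Agent.P353.AN.GL.Stmt
import Vale.Agent.P353.Z.RotC

/-! # P353, all `N`, block SGN: covariance of the ground state sections under the normaliser — statements (architect helper679)

OUTPUT `SgnStmt`: for `V ∈ SU(N)` respecting the splitting and an internal zero mode `Ψ` (vacuum vector of the module of zero modes):
`M.S V (U(η) Ψ(x)) = U(O_z η) Ψ(O_s x)` for a.e. `x`. -/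

open MeasureTheory Filter Topology Matrix
open scoped ContDiff

namespace Vale.Agent.P353.Z.AS

universe u

variable {d dh dm ds dz : ℕ} {F : Type*} [NormedAddCommGroup F] [InnerProductSpace ℂ F]

/-! ## Part 1: the fermionic vacua -/

/-- vacuum space of the complex structure `J` on all fermions -/
noncomputable def JV (S : Setup d F) (J : Matrix (Fin 16 × Fin d) (Fin 16 × Fin d) ℂ) : Submodule ℂ F where
  carrier := {v | ∀ p, ∑ q : Fin 16 × Fin d,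
    ((1 : Matrix (Fin 16 × Fin d) (Fin 16 × Fin d) ℂ) - Complex.I • J) p q • S.th q.1 q.2 v = 0}
  add_mem' := by
    intro a b ha hb p
    simp only [map_add, smul_add, Finset.sum_add_distrib]
    rw [ha p, hb p, add_zero]
  zero_mem' := by
    intro p
    simp
  smul_mem' := by
    intro c a ha p
    simp only [map_smul, smul_comm _ c]
    rw [← Finset.smul_sum, ha p, smul_zero]

/-- `M` implements the matrix `T` on the one particle space -/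
def ImT (S : Setup d F) (T : Matrix (Fin 16 × Fin d) (Fin 16 × Fin d) ℂ) (M : F →L[ℂ] F) : Prop :=
  ∀ q, M * S.th q.1 q.2 = ∑ p : Fin 16 × Fin d, T p q • (S.th p.1 p.2 * M)

/-- complex structure: `Γ` on the `h` colours, `c κ γ^i ⊗ Ω⁻¹D_i + s Γ` on the `m` colours -/
noncomputable def JF (S : Setup d F) (φ : Spl dh dm d) (D : Fin 9 → Matrix (Fin dm) (Fin dm) ℝ)
    (Om : Matrix (Fin dm) (Fin dm) ℝ) (c s : ℝ) : Matrix (Fin 16 × Fin d) (Fin 16 × Fin d) ℂ :=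
  Matrix.of fun p q => Sum.elim
    (fun A => Sum.elim (fun B => if A = B then S.Gam p.1 q.1 else 0) (fun _ => 0) (φ.symm q.2))
    (fun A => Sum.elim (fun _ => 0) (fun B => (c : ℂ) * ((S.κ : ℂ) * ∑ i, S.g i p.1 q.1 * (((Om⁻¹ * D i) A B : ℝ) : ℂ)) +
      (s : ℂ) * (if A = B then S.Gam p.1 q.1 else 0)) (φ.symm q.2)) (φ.symm p.2)

/-- colour matrix on the one particle space -/
noncomputable def cT (O : Matrix (Fin d) (Fin d) ℝ) : Matrix (Fin 16 × Fin d) (Fin 16 × Fin d) ℂ :=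
  Matrix.of fun p q => if p.1 = q.1 then ((O p.2 q.2 : ℝ) : ℂ) else 0

/-- spinor matrix on the one particle space -/
noncomputable def sT (g : Matrix (Fin 16) (Fin 16) ℂ) : Matrix (Fin 16 × Fin d) (Fin 16 × Fin d) ℂ :=
  Matrix.of fun p q => if p.2 = q.2 then g p.1 q.1 else 0

/-- `exp(i t S_{kl})` (definitionally `S.st k l t`) -/
noncomputable def spr (S : Setup d F) (k l : Fin 9) (t : ℝ) : F →L[ℂ] F :=
  NormedSpace.exp ((t : ℂ) • (Complex.I • S.Skl k l))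

/-- spinor rotation matrix (definitionally `S.gt k l t`) -/
noncomputable def gtt (S : Setup d F) (k l : Fin 9) (t : ℝ) : Matrix (Fin 16) (Fin 16) ℂ :=
  (Real.cos (t / 2) : ℂ) • 1 + (Real.sin (t / 2) : ℂ) • S.g2 k l

/-- `O` is orthogonal and preserves the structure constants -/
structure Sym (S : Setup d F) (O : Matrix (Fin d) (Fin d) ℝ) : Prop where
  orth : O * Oᵀ = 1
  inv : ∀ A B C, ∑ A', ∑ B', ∑ C', O A' A * O B' B * O C' C * S.f A' B' C' = S.f A B C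

/-- **S1 Line** PROOF: `U.Vac_exists`, `U.Vac_unique` for the isotropic space spanned by the rows of `1 - iJ` (`(1-iJ)(1-iJ)ᵀ = 1 + J² = 0`; `z = ½(1-iJ)ᵀ…`: every `z` is
`a + conj b`: `z = ½(1-iJ)z + ½(1+iJ)z`), as in `AN/F/Vac.lean`, `AN/X/Irr.lean`. -/
def LineStmt (S : Setup d F) : Prop := S.Irr → (∃ v : F, v ≠ 0) → ∀ J, CStr J →
  ∃ ζ ∈ JV S J, ‖ζ‖ = 1 ∧ ∀ v ∈ JV S J, ∃ c : ℂ, v = c • ζ

/-- **S2 Two** two point function. PROOF as `AX.TwoStmt` (`AN/X/TwoCov.lean`). `Skl k l = -(i/4)∑_{pq}(γ^{kl} ⊗ 1)_{pq}θ_pθ_q`. -/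
def TwoStmt (S : Setup d F) : Prop := ∀ J, CStr J → ∀ v ∈ JV S J,
  (∀ p q : Fin 16 × Fin d, inner ℂ v (S.th p.1 p.2 (S.th q.1 q.2 v)) =
    (1 / 2 : ℂ) * ((if p = q then 1 else 0) - Complex.I * J p q) * inner ℂ v v) ∧
  ∀ k l : Fin 9, k ≠ l → inner ℂ v (S.Skl k l v) =
    -(1 / 8 : ℂ) * (∑ α, ∑ β, ∑ A, S.g2 k l α β * J (α, A) (β, A)) * inner ℂ v v

/-- **S3 ImpT** PROOF. `0 = M∑_q(1-iJ)_{pq}θ_qv = ∑_r((1-iJ)Tᵀ)_{pr}θ_rMv`, multiply by `T` from the left, `TTᵀ = 1`. -/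
def ImpTStmt (S : Setup d F) : Prop := ∀ (T J : Matrix (Fin 16 × Fin d) (Fin 16 × Fin d) ℂ) (M : F →L[ℂ] F),
  T * Tᵀ = 1 → ImT S T M → ∀ v ∈ JV S J, M v ∈ JV S (T * J * Tᵀ)

/-- **S4 Eig** constancy of the eigenvalue. PROOF. S1: `JV(J_s) = ℂζ_s`; `M` maps it into itself (S3, `TJ_sTᵀ = J_s`): `Mζ_s = λ(s)ζ_s`. `λ` is continuous: `s_n → s`, a subsequence of
`ζ_{s_n}` converges to a unit vector `ζ'`, in `JV(J_s)` (`J` continuous), so `ζ' = cζ_s`, `λ(s_n) = ⟨ζ_{s_n},Mζ_{s_n}⟩ → ⟨ζ',Mζ'⟩ = λ(s)`. The eigenvalues of `M` form a finite set, so the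
continuous function `λ` on `[0,1]` is constant, `λ(1) = 1`. -/
def EigStmt (S : Setup d F) : Prop := FiniteDimensional ℂ F → S.Irr → (∃ v : F, v ≠ 0) →
  ∀ (J : ℝ → Matrix (Fin 16 × Fin d) (Fin 16 × Fin d) ℂ) (T : Matrix (Fin 16 × Fin d) (Fin 16 × Fin d) ℂ) (M : F →L[ℂ] F),
  Continuous J → (∀ s, CStr (J s)) → T * Tᵀ = 1 → (∀ s, T * J s = J s * T) → ImT S T M → (∀ v, ‖M v‖ = ‖v‖) →
  (∀ v ∈ JV S (J 1), M v = v) → ∀ v ∈ JV S (J 0), M v = v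

/-- **S5 JF** PROOF. `Λ = ½Ω(1 - iΩ⁻¹P)`, `Ω` invertible, commuting with `D_i`; `Γ` real antisymmetric, `Γ² = -1` (`GamLem`). `(Ω⁻¹P)² = κ²Ω⁻²∑D_i² = -1` (`γ^iγ^j + γ^jγ^i = 2δ_{ij}`, `D`
commute); `Ω⁻¹D_i` is antisymmetric. If `D_0 = D_1 = D_2 = 0` then `Ω⁻¹P` anticommutes with `Γ ⊗ 1` (`γ^iΓ = -Γγ^i` for `i ≥ 3`), so the square of the combination is `-(c² + s²)`. -/
def JFStmt (S : Setup d F) (φ : Spl dh dm d) : Prop := ∀ (D : Fin 9 → Matrix (Fin dm) (Fin dm) ℝ) (Om : Matrix (Fin dm) (Fin dm) ℝ),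
  (∀ i, (D i)ᵀ = -D i) → (∀ i j, D i * D j = D j * D i) → IsOm S.κ D Om →
  CStr (JF S φ D Om 1 0) ∧
  (D 0 = 0 → D 1 = 0 → D 2 = 0 → ∀ c s : ℝ, c ^ 2 + s ^ 2 = 1 → CStr (JF S φ D Om c s)) ∧
  (∀ v, v ∈ JV S (JF S φ D Om 1 0) ↔ v ∈ S.F0 φ D Om ∧ ∀ A α, S.amF (φ (Sum.inl A)) α v = 0) ∧
  (∀ v, v ∈ JV S (JF S φ D Om 0 1) ↔ ∀ A α, S.amF A α v = 0)

/-- **S6 Cov** covariance of the complex structures. PROOF. (1) Colour: invariance of `f` gives `D(O_zη) = O_mD(η)O_mᵀ`, `Ω` by uniqueness (`AX.omU`); `Γ ⊗ 1` commutes with `1 ⊗ O`.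
(2) Spinor: `g_tX(y) = X(R_ty)g_t` (`XB_RR`), `∑D_i(R_tη)² = ∑D_i(η)²`, and `g_t` commutes with `Γ` if `Same k l`. -/
def CovStmt (S : Setup d F) (φ : Spl dh dm d) (ψ : Spl ds dz dh) : Prop :=
  (∀ O : Matrix (Fin d) (Fin d) ℝ, Sym S O → Blk φ ψ O → ∀ (η : Cfg dz) (Om Om' : Matrix (Fin dm) (Fin dm) ℝ),
    IsOm S.κ (AD.Dz S φ ψ η) Om → IsOm S.κ (AD.Dz S φ ψ (ro (zO φ ψ O) η)) Om' → ∀ c s : ℝ,
      cT O * JF S φ (AD.Dz S φ ψ η) Om c s = JF S φ (AD.Dz S φ ψ (ro (zO φ ψ O) η)) Om' c s * cT O) ∧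
  ∀ k l : Fin 9, Same k l → ∀ (t : ℝ) (η : Cfg dz) (Om : Matrix (Fin dm) (Fin dm) ℝ), IsOm S.κ (AD.Dz S φ ψ η) Om →
    IsOm S.κ (AD.Dz S φ ψ (RR k l t η)) Om ∧ ∀ c s : ℝ,
      sT (gtt S k l t) * JF S φ (AD.Dz S φ ψ η) Om c s = JF S φ (AD.Dz S φ ψ (RR k l t η)) Om c s * sT (gtt S k l t)

/-- **S7 VacR** rotations and colour maps on the one particle space. PROOF. `Setup.vec_mul_st`, `st_norm`; `S_{kl}` kills the `Γ`-vacuum for `Same k l`: `S_{kl}v` is again a vacuum vector (`γ^{kl}`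
commutes with `Γ`); direct: S2 with `J = Γ ⊗ 1`: `∑γ^{kl}_{αβ}Γ_{αβ} = -tr(γ^{kl}Γ) = 0` and `S_{kl}v` is a multiple of `v` (on the vacuum `θ_p = iΓθ_p`-type relations give `4 S_{kl}v = const v`,
as in `AN/D/VacSpin.lean`). Last part: `tr(γ^{kl}γ^i)`, `tr(γ^{kl}Γ)` vanish (`Same k l`), or `tr(Ω⁻¹D_i) = 0`. -/
def VacRStmt (S : Setup d F) (φ : Spl dh dm d) : Prop := FiniteDimensional ℂ F → ∀ k l : Fin 9, Same k l →
  (∀ t, ImT S (sT (gtt S k l t)) (spr S k l t) ∧ (∀ v, ‖spr S k l t v‖ = ‖v‖) ∧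
    (sT (gtt S k l t) : Matrix (Fin 16 × Fin d) (Fin 16 × Fin d) ℂ) * (sT (gtt S k l t))ᵀ = 1) ∧
  (∀ v, (∀ A α, S.amF A α v = 0) → S.Skl k l v = 0 ∧ ∀ t, spr S k l t v = v) ∧
  ∀ (D : Fin 9 → Matrix (Fin dm) (Fin dm) ℝ) (Om : Matrix (Fin dm) (Fin dm) ℝ), (∀ i, (D i)ᵀ = -D i) →
    (∀ i j, D i * D j = D j * D i) → IsOm S.κ D Om →
    ∑ α, ∑ β, ∑ A, S.g2 k l α β * JF S φ D Om 1 0 (α, A) (β, A) = 0

/-- `ζ` is a typical ground vector: in `K`, vacuum for the `h` colours -/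
def Gv (S : Setup d F) (φ : Spl dh dm d) (K : Submodule ℂ F) (ζ : F) : Prop :=
  ζ ∈ K ∧ ∀ A α, S.amF (φ (Sum.inl A)) α ζ = 0

/-- **S8 EtaL** the vacuum line at `η`. PROOF. `Bun.U_mem`, `Bun.om`, `DM_Mz`, `U_comm` (`U η` commutes with the `h` fermions), S5, S1. Last part: `Mv` again in `JV` (S3, S6), so `Mv = cζ'`. -/
def EtaStmt (S : Setup d F) (φ : Spl dh dm d) (ψ : Spl ds dz dh) : Prop := FiniteDimensional ℂ F → S.Irr →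
  ∀ (L : Finset (Fin dz → ℝ)) (Om : Cfg dz → Matrix (Fin dm) (Fin dm) ℝ) (K : Submodule ℂ F) (U : Cfg dz → F →L[ℂ] F),
  AX.Bun S φ (AX.Mz S φ ψ) L Om K U →
  (∀ η ∉ Coll L, ∀ ζ, Gv S φ K ζ ↔ U η ζ ∈ JV S (JF S φ (AD.Dz S φ ψ η) (Om η) 1 0)) ∧
  (∀ ζ, Gv S φ K ζ → ζ ≠ 0 → ∀ η ∉ Coll L, ∀ v ∈ JV S (JF S φ (AD.Dz S φ ψ η) (Om η) 1 0), ∃ c : ℂ, v = c • U η ζ)

/-- **S9 RPar** rotated vacuum = parallel transported vacuum. PROOF. `V_t = spr S k l t`. `V_tU(η)ζ ∈ JV(R_tη)` (S3, S6, S7, S8), so `V_tU(η)ζ = c(t)U(R_tη)ζ`, `c(t) = ⟨U(R_tη)ζ,V_tU(η)ζ⟩` (`‖ζ‖ = 1`), `|c| = 1`,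
`c(0) = 1`. `c' = ⟨(d/dt U(R_tη))ζ,V_tU(η)ζ⟩ + ⟨U(R_tη)ζ, iS_{kl}V_tU(η)ζ⟩ = c·conj⟨Uζ,U'ζ⟩ + i c⟨Uζ,S_{kl}Uζ⟩ = 0` (`U_par`, S2 and S7). -/
def RParStmt (S : Setup d F) (φ : Spl dh dm d) (ψ : Spl ds dz dh) : Prop := FiniteDimensional ℂ F → S.Irr →
  ∀ (L : Finset (Fin dz → ℝ)) (Om : Cfg dz → Matrix (Fin dm) (Fin dm) ℝ) (K : Submodule ℂ F) (U : Cfg dz → F →L[ℂ] F),
  AX.Bun S φ (AX.Mz S φ ψ) L Om K U → ∀ ζ, Gv S φ K ζ → ∀ k l : Fin 9, Same k l → ∀ η : Cfg dz, (∀ t, RR k l t η ∉ Coll L) →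
    ∀ t, spr S k l t (U η ζ) = U (RR k l t η) ζ

/-- **S10 FerAt** PROOF. `J(s) = JF(D(η), Ω, cos(πs/2), sin(πs/2))` (S5; `D_0 = D_1 = D_2 = 0`), `J(1) = Γ ⊗ 1`. (A) `M = G`, `T = cT O` commutes with `J(s)` (S6, `O_zη = η`), `G` fixes the `Γ`-vacuum (`Imp.vac`); S4 gives
`Gv = v` on `JV(J(0)) ∋ U(η)ζ`. (B) `M = spr S 3 4 (-π) * G`, `T = sT(g_{-π})cT O` commutes with `J(s)` (`R_{-π}O_zη = η`), fixes the `Γ`-vacuum (S7); S4: `G U(η)ζ = spr S 3 4 π (U(η)ζ) = U(R_πη)ζ` (S9). -/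
def FerAtStmt (S : Setup d F) (φ : Spl dh dm d) (ψ : Spl ds dz dh) : Prop := FiniteDimensional ℂ F → S.Irr →
  ∀ (L : Finset (Fin dz → ℝ)) (Om : Cfg dz → Matrix (Fin dm) (Fin dm) ℝ) (K : Submodule ℂ F) (U : Cfg dz → F →L[ℂ] F),
  AX.Bun S φ (AX.Mz S φ ψ) L Om K U → ∀ (O : Matrix (Fin d) (Fin d) ℝ) (G : F →L[ℂ] F), Sym S O → Blk φ ψ O → Imp S O G →
  ∀ η : Cfg dz, η ∉ Coll L → (∀ i : Fin 9, i.val < 3 → ∀ a, η (i, a) = 0) →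
  (ro (zO φ ψ O) η = η ∨ (ro (zO φ ψ O) η = RR 3 4 Real.pi η ∧ ∀ t, RR 3 4 t η ∉ Coll L)) →
  ∀ ζ, Gv S φ K ζ → G (U η ζ) = U (ro (zO φ ψ O) η) ζ

/-- **S11 Ext** extension from one point by parallel transport. PROOF. `c(η) = ⟨U(O_zη)ζ,G U(η)ζ⟩` on the open set `(Coll L)ᶜ` (`‖ζ‖ = 1`); `G U(η)ζ = c(η)U(O_zη)ζ` (S3, S6, S8), derivative `0` by `U_par` (at `O_zη` and at `η`;
`⟨U(O_zη)ζ, G dU(η)ζ⟩ = ⟨G⁻¹U(O_zη)ζ, dU(η)ζ⟩`, `G⁻¹U(O_zη)ζ = c⁻¹U(η)ζ`); `(Coll L)ᶜ` is preconnected (`AX.ConnStmt`), so `c = c(η₀) = 1`. -/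
def ExtStmt (S : Setup d F) (φ : Spl dh dm d) (ψ : Spl ds dz dh) : Prop := FiniteDimensional ℂ F → S.Irr → AX.ConnStmt →
  ∀ (L : Finset (Fin dz → ℝ)) (Om : Cfg dz → Matrix (Fin dm) (Fin dm) ℝ) (K : Submodule ℂ F) (U : Cfg dz → F →L[ℂ] F),
  AX.Bun S φ (AX.Mz S φ ψ) L Om K U → ∀ (O : Matrix (Fin d) (Fin d) ℝ) (G : F →L[ℂ] F), Sym S O → Blk φ ψ O → Imp S O G →
  (∀ η, η ∉ Coll L → ro (zO φ ψ O) η ∉ Coll L) → ∀ ζ, Gv S φ K ζ →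
  ∀ η₀ ∉ Coll L, G (U η₀ ζ) = U (ro (zO φ ψ O) η₀) ζ → ∀ η ∉ Coll L, G (U η ζ) = U (ro (zO φ ψ O) η) ζ

/-- **S12 CollC** the collision set in terms of `D`. PROOF as `AX.OmPStmt`: `D_i = sp(z_{k,i})Kc`, `∑_{i<8}D_i² = -sp(∑_{i<8}z_{k,i}²)`, its determinant is `±∏_k nz8(z_k)²`. -/
def CollStmt : Prop := ∀ (r dm : ℕ) (M : Fin r → Matrix (Fin dm) (Fin dm) ℝ) (t : Fin r → ℝ) (Kc E : Matrix (Fin dm) (Fin dm) ℝ)
  (l : Fin dm → Fin r → ℝ), RD M t Kc E l → ∀ η : Cfg r,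
    η ∉ Coll (Finset.univ.image l) ↔ (∑ i ∈ Finset.univ.erase (8 : Fin 9), DM M η i * DM M η i).det ≠ 0

/-! ## Part 2: the internal zero modes -/

/-- zero modes are fixed by the implementers of `O` that fix the `Γ`-vacuum, in all irreducible modules -/
def SSig.{v} (κ : ℝ) (f : Fin d → Fin d → Fin d → ℝ) (O : Matrix (Fin d) (Fin d) ℝ) : Prop :=
  ∀ (E : Type v) [NormedAddCommGroup E] [InnerProductSpace ℂ E] (_ : FiniteDimensional ℂ E) (S : Setup d E),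
    S.f = f → S.κ = κ → S.Irr → (∃ v : E, v ≠ 0) → ∀ W, Imp S O W → ∀ Ψ : Lp E 2 (volume : Measure (Cfg d)),
      S.IsZM Ψ → ∀ᵐ x ∂(volume : Measure (Cfg d)), W (Ψ x) = Ψ (ro O x)

/-- `ad a` in terms of `f` -/
noncomputable def adf (f : Fin d → Fin d → Fin d → ℝ) (a : Fin d → ℝ) : Matrix (Fin d) (Fin d) ℝ :=
  Matrix.of fun A C => ∑ B, f A B C * a B

/-- **S13 Sex** gauge invariance. PROOF. `W₀ = spn S a = exp(-i a·𝒮)` implements `exp(ad a)` (linear ODE, `[𝒮_C,θ^A]`), fixes the `Γ`-vacuum (`AX2.CsVStmt`), isometric: `Imp S (exp(ad a)) W₀`, so `W = W₀`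
(`AX2.SecStmt`, uniqueness). The approximants satisfy `u(exp(ad a)x) = spn S a (u x)` (`AN.EqvStmt`, proved in `AN/GL/Eqv.lean`); pass to the `L²` limit. -/
def SexStmt : Prop := ∀ (κ : ℝ) (d : ℕ) (f : Fin d → Fin d → Fin d → ℝ) (a : Fin d → ℝ), SSig.{u} κ f (NormedSpace.exp (adf f a))

/-- **S14 Even** zero modes are even. PROOF. `V_t = spr S 3 4 t`; `V_{2π}` implements `-1` (`g_{2π} = -1`), fixes the `Γ`-vacuum (S7), so `V_{2π} = P` (uniqueness in `AX2.SecStmt`). Weak `J_{34}` invariance (`U.zj`) gives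
`⟨U_tw,Ψ⟩ = ⟨w,Ψ⟩` for `w ∈ Tst`, `U_tw(x) = V_tw(R_{-t}x)` (`hasDerivAt_integral_Ut` in `Z/RotD.lean`, cf. `rot_diff_bound`, `weak_J`); `t = 2π`: `⟨V_{2π}w,Ψ⟩ = ⟨w,Ψ⟩` for all `w`. -/
def EvenStmt (S : Setup d F) : Prop := FiniteDimensional ℂ F → S.Irr → (∃ v : F, v ≠ 0) → ∀ P, Imp S (-1) P →
  ∀ Ψ : Lp F 2 (volume : Measure (Cfg d)), S.IsZM Ψ → ∀ᵐ x ∂(volume : Measure (Cfg d)), P (Ψ x) = Ψ x

/-- position of a colour: first copy, second copy, rest -/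
def tag {d1 d3 : ℕ} (e : (Fin d1 ⊕ Fin d1) ⊕ Fin d3 ≃ Fin d) (A : Fin d) : Fin 3 :=
  Sum.elim (Sum.elim (fun _ => 0) (fun _ => 1)) (fun _ => 2) (e.symm A)

/-- `f = f1 + f1 + f3` -/
structure Dbl {d1 d3 : ℕ} (e : (Fin d1 ⊕ Fin d1) ⊕ Fin d3 ≃ Fin d) (f : Fin d → Fin d → Fin d → ℝ)
    (f1 : Fin d1 → Fin d1 → Fin d1 → ℝ) (f3 : Fin d3 → Fin d3 → Fin d3 → ℝ) : Prop where
  a1 : ∀ A B C, f (e (Sum.inl (Sum.inl A))) (e (Sum.inl (Sum.inl B))) (e (Sum.inl (Sum.inl C))) = f1 A B C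
  a2 : ∀ A B C, f (e (Sum.inl (Sum.inr A))) (e (Sum.inl (Sum.inr B))) (e (Sum.inl (Sum.inr C))) = f1 A B C
  a3 : ∀ A B C, f (e (Sum.inr A)) (e (Sum.inr B)) (e (Sum.inr C)) = f3 A B C
  mix : ∀ A B C, ¬ (tag e A = tag e B ∧ tag e B = tag e C) → f A B C = 0

/-- the exchange of the two copies -/
noncomputable def swO {d1 d3 : ℕ} (e : (Fin d1 ⊕ Fin d1) ⊕ Fin d3 ≃ Fin d) : Matrix (Fin d) (Fin d) ℝ :=
  Matrix.of fun A B => if A = e (Sum.map Sum.swap id (e.symm B)) then 1 else 0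

/-- data of the product construction on an irreducible module `E` (`ζ` unit `Γ`-vacuum, `W` exchange, `P` parity of the whole module):
`𝒯(aζ, a'ζ, k) = a σ(a') k` -/
structure Tri {d1 d3 : ℕ} (e : (Fin d1 ⊕ Fin d1) ⊕ Fin d3 ≃ Fin d) (S : Setup d F) (W P : F →L[ℂ] F)
    (τ : F →ₗ[ℂ] F →ₗ[ℂ] F →ₗ[ℂ] F) : Prop where
  /-- norm; `u, u'` killed by the annihilators of the second copy and the rest, `k` by those of both copies -/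
  norm : ∀ u u' k, (∀ A α, tag e A ≠ 0 → S.amF A α u = 0) → (∀ A α, tag e A ≠ 0 → S.amF A α u' = 0) →
    (∀ A α, tag e A ≠ 2 → S.amF A α k = 0) → ‖τ u u' k‖ = ‖u‖ * ‖u'‖ * ‖k‖
  t1 : ∀ u u' k α A, (∀ A α, tag e A ≠ 0 → S.amF A α u = 0) → (∀ A α, tag e A ≠ 0 → S.amF A α u' = 0) →
    (∀ A α, tag e A ≠ 2 → S.amF A α k = 0) →
    S.th α (e (Sum.inl (Sum.inl A))) (τ u u' k) = τ (S.th α (e (Sum.inl (Sum.inl A))) u) u' k
  t2 : ∀ u u' k α A, P u = u → (∀ A α, tag e A ≠ 0 → S.amF A α u = 0) → (∀ A α, tag e A ≠ 0 → S.amF A α u' = 0) →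
    (∀ A α, tag e A ≠ 2 → S.amF A α k = 0) →
    S.th α (e (Sum.inl (Sum.inr A))) (τ u u' k) = τ u (S.th α (e (Sum.inl (Sum.inl A))) u') k
  t3 : ∀ u u' k α A, P u = u → P u' = u' → (∀ A α, tag e A ≠ 0 → S.amF A α u = 0) →
    (∀ A α, tag e A ≠ 0 → S.amF A α u' = 0) → (∀ A α, tag e A ≠ 2 → S.amF A α k = 0) →
    S.th α (e (Sum.inr A)) (τ u u' k) = τ u u' (S.th α (e (Sum.inr A)) k)
  sw : ∀ u u' k, P u = u → P u' = u' → (∀ A α, tag e A ≠ 0 → S.amF A α u = 0) →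
    (∀ A α, tag e A ≠ 0 → S.amF A α u' = 0) → (∀ A α, tag e A ≠ 2 → S.amF A α k = 0) →
    W (τ u u' k) = τ u' u k

/-- **S15 Tri** PROOF. `E₁` = vectors killed by the annihilators of tag `1, 2`; `E₁ = 𝔸₁ζ`, `𝔸₁` = algebra generated by the fermions of the first copy (irreducible, `AX2.VcaIrrStmt`). (‡) If `a ∈ 𝔸₁`, `aζ = 0` then
`ae = 0` for every `e` killed by the annihilators of the first copy (`AX2.WickStmt`: `‖ae‖ = ‖aζ‖‖e‖`). Linear section `s : E → 𝔸₁`, `s(v)ζ = v` for `v ∈ E₁` (`E` finite dimensional; `s(v)` even for even `v`: average with `PaP⁻¹`),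
`τ u u' k = s(u)(W s(u') W⁻¹)k`. (t1): `θs(u) - s(θu)` kills `ζ`. (t2): even elements commute with the other fermions, `θ^{(2)} = Wθ^{(1)}W⁻¹`. (sw): `W k = k` for `k` of tag type `{2}` (`k = bζ`, `b` in the algebra of
the rest, which commutes with `W`), `W² = 1`, even elements commute. (norm): Wick twice: `‖s(u)e‖ = ‖u‖‖e‖`, `e = σ(s(u'))k` is killed by the annihilators of the first copy. -/
def TriStmt : Prop := ∀ (d d1 d3 : ℕ) (e : (Fin d1 ⊕ Fin d1) ⊕ Fin d3 ≃ Fin d) (F : Type u) [NormedAddCommGroup F]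
  [InnerProductSpace ℂ F] (_ : FiniteDimensional ℂ F) (S : Setup d F), S.Irr → (∃ v : F, v ≠ 0) →
  ∀ W P, Imp S (swO e) W → Imp S (-1) P → ∃ τ, Tri e S W P τ

/-- **S16 SwpA** a symmetric zero mode. PROOF. `S1`, `S3` = setups of the first copy and of the rest (`S.th` on those colours, `f1`, `f3`). `φ` = zero mode of `S1.rst E₁`, `φ_n` its approximants, made even (`(1+P)/2`; S14 for the irreducible
module `E₁`; `Q` is odd, `G` even). `k_n` approximants of the zero mode of `S3.rst V_{12}`. `u_n(x) = τ(φ_n(x_1), φ_n(x_2), k_n(x_3))`: `Tst`, `G_Cu_n = 0`, `Q_βu_n = τ(Q^{(1)}_βφ_n,φ_n,k_n) + τ(φ_n,Q^{(1)}_βφ_n,k_n) + τ(φ_n,φ_n,Q^{(3)}_βk_n)`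
(`Dbl.mix`; (t1), (t2), (t3)), so `∫‖Q_βu_n‖² → 0` (norm, Fubini); Cauchy in `L²` (trilinearity and norm), limit `Ψ`, `‖Ψ‖ = ‖φ‖²‖k‖ ≠ 0`; `W u_n(x) = u_n(swO e x)` (sw), so the same for `Ψ`. -/
def SwpAStmt : Prop := ∀ (κ : ℝ) (d d1 d3 : ℕ) (e : (Fin d1 ⊕ Fin d1) ⊕ Fin d3 ≃ Fin d) (f : Fin d → Fin d → Fin d → ℝ)
  (f1 : Fin d1 → Fin d1 → Fin d1 → ℝ) (f3 : Fin d3 → Fin d3 → Fin d3 → ℝ), Dbl e f f1 f3 → OneA.{u} κ f1 → OneA.{u} κ f3 →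
  ∀ (E : Type u) [NormedAddCommGroup E] [InnerProductSpace ℂ E] (_ : FiniteDimensional ℂ E) (S : Setup d E),
    S.f = f → S.κ = κ → S.Irr → (∃ v : E, v ≠ 0) → ∀ W, Imp S (swO e) W → ∃ Ψ : Lp E 2 (volume : Measure (Cfg d)),
      S.IsZM Ψ ∧ Ψ ≠ 0 ∧ ∀ᵐ x ∂(volume : Measure (Cfg d)), W (Ψ x) = Ψ (ro (swO e) x)

/-- **S17 Swp** PROOF: S16 and uniqueness of the zero mode. -/
def SwpStmt : Prop := ∀ (κ : ℝ) (d d1 d3 : ℕ) (e : (Fin d1 ⊕ Fin d1) ⊕ Fin d3 ≃ Fin d) (f : Fin d → Fin d → Fin d → ℝ)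
  (f1 : Fin d1 → Fin d1 → Fin d1 → ℝ) (f3 : Fin d3 → Fin d3 → Fin d3 → ℝ), Dbl e f f1 f3 → OneA.{u} κ f1 → OneA.{u} κ f3 →
  OneA.{u} κ f → SSig.{u} κ f (swO e)

/-! ## Part 3: assembly -/

/-- **S18 Comb** PROOF. `V₀ = vca (AX2.czs h) K`, irreducible for the `s` fermions, with vacuum line `ℂζ` (`AX2.VcaIrrStmt`), `Gv S φ K ζ`. `W = U(O_zη)⁻¹ G U(η)` on `V₀`: implements `O_s` on the `s` fermions (`U` commutes with them), `Wζ = ζ`, so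
`W(aζ) = α(a)ζ ∈ V₀` for `a` in the algebra of the `s` fermions: `Imp ((h.ss).rst V₀) (sO φ ψ O) W`. `Ψ ∈ zms V₀` corresponds to a zero mode of `h.ss.rst V₀` (`AX2.RstStmt`); `SSig` gives `WΨ(x) = Ψ(O_sx)`. -/
def CombStmt : Prop := ∀ (d dh dm ds dz : ℕ) (F : Type u) [NormedAddCommGroup F] [InnerProductSpace ℂ F] (_ : FiniteDimensional ℂ F)
  (S : Setup d F) (φ : Spl dh dm d) (ψ : Spl ds dz dh) (z₀ : Cfg dz) (h : AD.Std2 S φ ψ z₀), S.Irr → (∃ v : F, v ≠ 0) →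
  ∀ (L : Finset (Fin dz → ℝ)) (Om : Cfg dz → Matrix (Fin dm) (Fin dm) ℝ) (K : Submodule ℂ F) (U : Cfg dz → F →L[ℂ] F),
  AX.Bun S φ (AX.Mz S φ ψ) L Om K U → ∀ (O : Matrix (Fin d) (Fin d) ℝ) (G : F →L[ℂ] F), Sym S O → Blk φ ψ O → Imp S O G →
  SSig.{u} S.κ h.ss.f (sO φ ψ O) →
  ∀ η : Cfg dz, (∀ ζ, Gv S φ K ζ → G (U η ζ) = U (ro (zO φ ψ O) η) ζ) →
  ∀ Ψ ∈ h.ss.zms (vca (AX2.czs h) K), ∀ᵐ x ∂(volume : Measure (Cfg ds)),
    G (U η (Ψ x)) = U (ro (zO φ ψ O) η) (Ψ (ro (sO φ ψ O) x))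

variable {N k : ℕ} {n : Fin k → ℕ} {T : Fin d → Matrix (Fin N) (Fin N) ℂ} {φ : Spl dh dm d} {ψ : Spl ds dz dh}

/-- **S19 AdSym** adjoint matrices are symmetries. PROOF: `U.AdStmt`-type algebra: `T` is an orthonormal basis, `X ↦ VXV^*` preserves trace form and commutators. -/
def AdSymStmt : Prop := ∀ (N d : ℕ) (F : Type u) [NormedAddCommGroup F] [InnerProductSpace ℂ F] (T : Fin d → Matrix (Fin N) (Fin N) ℂ)
  (S : Setup d F), Bas N d T S.f → (∀ V : BFSS.SU N, Sym S (adO T V)) ∧ ∀ V W : BFSS.SU N, adO T (V * W) = adO T V * adO T W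

/-- **S20 EtaStar** good points. PROOF. `RegStmt` (with `I = erase 8`), `CollStmt`, `DM_Mz`, `ValStmt`. First part: invariance of the collision set under `O_z` (`∑_{i<8}D_i(O_zη)² = O_m(∑_{i<8}D_i(η)²)O_mᵀ`). (A) values `v_3(a)` pairwise different with
`∑n_av_3(a) = 0`, other directions `0`. (B) `v_3(a) = 1`, `v_3(b) = -1`, `v_5(c) > 0` pairwise different for `c ≠ a,b`, `v_5(a) = v_5(b) = -(∑_{c≠a,b}n_cv_5(c))/(n_a + n_b)`; `R_t` rotates the `(3,4)` components; `R_π` exchanges `a` and `b` (`n_a = n_b`). -/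
def EtaStarStmt {F : Type u} [NormedAddCommGroup F] [InnerProductSpace ℂ F] (S : Setup d F) (fr : NFr n T φ ψ) : Prop :=
  Bas N d T S.f → ANF.ValStmt S.f fr → ANF.RegStmt S fr → CollStmt →
  ∀ (t : Fin dz → ℝ) (Kc E : Matrix (Fin dm) (Fin dm) ℝ) (l : Fin dm → Fin dz → ℝ), RD (AX.Mz S φ ψ) t Kc E l →
  (∀ O, Sym S O → Blk φ ψ O → ∀ η, η ∉ Coll (Finset.univ.image l) → ro (zO φ ψ O) η ∉ Coll (Finset.univ.image l)) ∧
  (∃ η : Cfg dz, η ∉ Coll (Finset.univ.image l) ∧ ∀ i : Fin 9, i.val < 3 → ∀ a, η (i, a) = 0) ∧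
  ∀ a b : Fin k, a ≠ b → n a = n b → ∃ η : Cfg dz, (∀ i : Fin 9, i.val < 3 → ∀ e, η (i, e) = 0) ∧
    (∀ t, RR 3 4 t η ∉ Coll (Finset.univ.image l)) ∧
    ∀ i e, fr.val (RR 3 4 Real.pi η) i e = fr.val η i (Equiv.swap a b e)

/-- **S21 ExF** the `s` part of a normaliser element with trivial `z` part is inner. PROOF. `V` commutes with the block projections, so it is block diagonal; `V = exp(iH)` with `H` block diagonal hermitian (logarithm in each block), corrected by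
a block scalar to be traceless (or: conjugation only depends on `V` up to block scalars); `H_s = ∑a_iT_i` (traceless part in each block), conjugation with `exp(iH)` on `s` is `exp(-ad a)`. -/
def ExFStmt (f : Fin d → Fin d → Fin d → ℝ) (fr : NFr n T φ ψ) : Prop := Bas N d T f →
  ∀ V : BFSS.SU N, Blk φ ψ (adO T V) → zO φ ψ (adO T V) = 1 → ∃ a : Fin ds → ℝ, sO φ ψ (adO T V) =
    NormedSpace.exp (adf (fun A B C => f (φ (Sum.inl (ψ (Sum.inl A)))) (φ (Sum.inl (ψ (Sum.inl B)))) (φ (Sum.inl (ψ (Sum.inl C))))) a)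

/-- **S22 OneFam** direct sums of finite families. PROOF: induction on `k` with `AX2.ProdStmt`, `AX2.ZeroStmt`. -/
def OneFamStmt : Prop := AX2.ProdStmt.{u} → AX2.ZeroStmt.{u} → ∀ (κ : ℝ) (k : ℕ) (dd : Fin k → ℕ)
  (ff : ∀ a, Fin (dd a) → Fin (dd a) → Fin (dd a) → ℝ) (D : ℕ) (e : (Σ a, Fin (dd a)) ≃ Fin D) (f : Fin D → Fin D → Fin D → ℝ),
  (∀ (a : Fin k) (i j l : Fin (dd a)), f (e ⟨a, i⟩) (e ⟨a, j⟩) (e ⟨a, l⟩) = ff a i j l) →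
  (∀ s t v : Σ a, Fin (dd a), ¬ (s.1 = t.1 ∧ t.1 = v.1) → f (e s) (e t) (e v) = 0) →
  (∀ a, OneA.{u} κ (ff a)) → OneA.{u} κ f

/-- **S23 SwF** the `s` part of an exchange. PROOF. `ANF.SwStmt`: `sO` is the permutation matrix exchanging the blocks `a`, `b` of `fr.es`; build `e : (Fin d1 ⊕ Fin d1) ⊕ Fin d3 ≃ Fin ds` with `d1 = n_a² - 1` (blocks `a`, `b`, the rest), `Dbl` by `ANF.SfStmt`,
`OneA` of the rest by S22; S17. -/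
def SwFStmt {F : Type u} [NormedAddCommGroup F] [InnerProductSpace ℂ F] (S : Setup d F) (fr : NFr n T φ ψ) : Prop :=
  Bas N d T S.f → ANF.SwStmt S.f fr → ANF.SfStmt S fr → OneFamStmt.{u} → AX2.ProdStmt.{u} → AX2.ZeroStmt.{u} →
  SwpStmt.{u} → (∀ a, OneA.{u} 1 (fr.fb (n a))) →
  ∀ (a b : Fin k) (_ : a ≠ b) (hab : n a = n b) (V : BFSS.SU N) (c : ℂ), ‖c‖ = 1 →
    (∀ s t, V.val (fr.E s) (fr.E t) = if s = ANF.swP a b hab t then c else 0) →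
    SSig.{u} 1 (fun A B C => S.f (φ (Sum.inl (ψ (Sum.inl A)))) (φ (Sum.inl (ψ (Sum.inl B)))) (φ (Sum.inl (ψ (Sum.inl C)))))
      (sO φ ψ (adO T V))

/-- **S24 Sgn** OUTPUT. PROOF. The set of `V` for which the conclusion holds (for all `η`, `Ψ`) is closed under products (`M.S` and `adO` are multiplicative, `ro (sO …)` preserves null sets; `O_zη ∉ Coll L`). `ANF.NrmStmt`: generators with `zO = 1`
(S10 (A) at the point of S20 (A), S11, S21, S13, S18) and exchanges (S10 (B) at the point of S20 (B): `O_zη = R_πη` by `ANF.SwStmt`, `ValStmt`; S11, S23, S18). `Imp S (adO T V) (M.S V)`: `AX2.ImpMStmt`. -/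
def SgnStmt : Prop := ∀ (N d dh dm ds dz k : ℕ) (n : Fin k → ℕ) (F : Type u) [NormedAddCommGroup F] [InnerProductSpace ℂ F]
  (_ : FiniteDimensional ℂ F) (M : BFSS.Model N d F) (S : Setup d F) (φ : Spl dh dm d) (ψ : Spl ds dz dh) (fr : NFr n M.T φ ψ)
  (z₀ : Cfg dz) (h : AD.Std2 S φ ψ z₀), U.Rep M S → (∀ a, OneA.{u} 1 (fr.fb (n a))) →
  ∀ (t : Fin dz → ℝ) (Kc E : Matrix (Fin dm) (Fin dm) ℝ) (l : Fin dm → Fin dz → ℝ), RD (AX.Mz S φ ψ) t Kc E l →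
  ∀ V : BFSS.SU N, Blk φ ψ (adO M.T V) →
  ∀ η ∉ Coll (Finset.univ.image l), ro (zO φ ψ (adO M.T V)) η ∉ Coll (Finset.univ.image l) ∧
  ∀ Ψ ∈ h.ss.zms (vca (AX2.czs h) (S.Kr φ (1 - Complex.I • S.J0 Kc))), ∀ᵐ x ∂(volume : Measure (Cfg ds)),
    M.S V (S.UU φ E l η (Ψ x)) = S.UU φ E l (ro (zO φ ψ (adO M.T V)) η) (Ψ (ro (sO φ ψ (adO M.T V)) x))

end Vale.Agent.P353.Z.AS
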