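import Vale.Agent.P353.AN.SGN.Stmt

/-! # P353, all `N`, block SGN: S11 Ext, extension by parallel transport (helper993, second prover) -/

open MeasureTheory Filter Topology Matrix
open scoped ContDiff

namespace Vale.Agent.P353.Z.AS

variable {d dh dm ds dz : ℕ} {F : Type*} [NormedAddCommGroup F] [InnerProductSpace ℂ F]

/-- `ro O` as a linear map -/
noncomputable def extRo (O : Matrix (Fin dz) (Fin dz) ℝ) : Cfg dz →ₗ[ℝ] Cfg dz where
  toFun := ro O
  map_add' x y := by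
    ext p
    simp [ro, mul_add, Finset.sum_add_distrib]
  map_smul' c x := by
    ext p
    simp only [ro, PiLp.smul_apply, smul_eq_mul, RingHom.id_apply, Finset.mul_sum]
    exact Finset.sum_congr rfl fun B _ => by ring

lemma extB_orth {O : Matrix (Fin d) (Fin d) ℝ} (h : O * Oᵀ = 1) :
    (cT O : Matrix (Fin 16 × Fin d) (Fin 16 × Fin d) ℂ) * (cT O)ᵀ = 1 := by
  ext p q
  rw [Matrix.mul_apply, Fintype.sum_prod_type]
  simp only [cT, Matrix.transpose_apply, Matrix.of_apply]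
  have h1 : (O * Oᵀ) p.2 q.2 = (1 : Matrix (Fin d) (Fin d) ℝ) p.2 q.2 := by rw [h]
  rw [Matrix.mul_apply, Matrix.one_apply] at h1
  simp only [Matrix.transpose_apply] at h1
  rw [Finset.sum_eq_single p.1]
  · simp only [if_true]
    by_cases hpq : q.1 = p.1
    · simp only [if_pos hpq]
      rw [Matrix.one_apply]
      have h2 : (((∑ j, O p.2 j * O q.2 j : ℝ)) : ℂ) = ((if p.2 = q.2 then 1 else 0 : ℝ) : ℂ) := by rw [h1]
      push_cast at h2
      rw [h2]
      by_cases h3 : p.2 = q.2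
      · rw [if_pos h3, if_pos (Prod.ext hpq.symm h3), Complex.ofReal_one]
      · rw [if_neg h3, if_neg (fun h4 => h3 (by rw [h4])), Complex.ofReal_zero]
    · simp only [if_neg hpq, mul_zero, Finset.sum_const_zero]
      rw [Matrix.one_apply, if_neg (fun h4 => hpq (by rw [h4]))]
  · intro b _ hb
    simp only [if_neg hb.symm, zero_mul, Finset.sum_const_zero]
  · intro h; exact absurd (Finset.mem_univ _) h

lemma extB_imT (S : Setup d F) {O : Matrix (Fin d) (Fin d) ℝ} {G : F →L[ℂ] F} (h : Imp S O G) : ImT S (cT O) G := by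
  intro q
  rw [h.imp, Fintype.sum_prod_type, Finset.sum_eq_single q.1]
  · simp [cT]
  · intro b _ hb
    simp [cT, hb]
  · intro h; exact absurd (Finset.mem_univ _) h

/-- **S11 Ext** -/
theorem ext_stmt' (S : Setup d F) (φ : Spl dh dm d) (ψ : Spl ds dz dh) : ImpTStmt S → CovStmt S φ ψ →
    EtaStmt S φ ψ → ExtStmt S φ ψ := by
  intro hImp hCov hEta hfin hirr hconn L Om K U hB O G hS hBlk hG hinv ζ hζ η₀ hη₀ hG₀ η hη
  have : CompleteSpace F := FiniteDimensional.complete ℂ F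
  by_cases hz : ζ = 0
  · subst hz; simp
  obtain ⟨hE1, hE2⟩ := hEta hfin hirr L Om K U hB
  set Z : Matrix (Fin dz) (Fin dz) ℝ := zO φ ψ O with hZ
  have hOm : ∀ η ∉ Coll L, IsOm S.κ (AD.Dz S φ ψ η) (Om η) := by
    intro η hη
    have := hB.om η (hB.det _ hη)
    rwa [AX.DM_Mz] at this
  have hlin : ∀ η ∉ Coll L, ∃ c : ℂ, G (U η ζ) = c • U (ro Z η) ζ := by
    intro η hη
    refine hE2 ζ hζ hz _ (hinv η hη) _ ?_
    have h1 := hImp _ _ _ (extB_orth hS.orth) (extB_imT S hG) _ ((hE1 η hη ζ).1 hζ)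
    have h2 := hCov.1 O hS hBlk η (Om η) (Om (ro Z η)) (hOm η hη) (hOm _ (hinv η hη)) 1 0
    rw [h2, Matrix.mul_assoc, extB_orth hS.orth, Matrix.mul_one] at h1
    exact h1
  have hUn : ∀ η', inner ℂ (U η' ζ) (U η' ζ) = inner ℂ ζ ζ := fun η' => hB.U_inner _ _ _
  have hζζ : inner ℂ ζ ζ ≠ 0 := inner_self_ne_zero.2 hz
  have hGi : ∀ v w, inner ℂ (G v) (G w) = inner ℂ v w := by
    intro v w
    let Gi : F →ₗᵢ[ℂ] F := ⟨G.toLinearMap, hG.norm⟩
    exact Gi.inner_map_map v w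
  have hopen : IsOpen (Coll L)ᶜ := hB.closed.isOpen_compl
  have hUd : ∀ η' ∉ Coll L, HasFDerivAt U (fderiv ℝ U η') η' := by
    intro η' h'
    exact ((hB.U_smooth.contDiffAt (hopen.mem_nhds h')).differentiableAt (by simp)).hasFDerivAt
  set R : Cfg dz →L[ℝ] Cfg dz := LinearMap.toContinuousLinearMap (extRo Z) with hR
  have hRa : ∀ x, R x = ro Z x := fun x => rfl
  -- derivative
  set g : Cfg dz → ℂ := fun η => inner ℂ (U (R η) ζ) (G (U η ζ)) with hg
  have hder : ∀ η ∈ (Coll L)ᶜ, HasFDerivAt g (0 : Cfg dz →L[ℝ] ℂ) η := by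
    intro η hη
    have d0 : HasFDerivAt (fun η => U (R η)) ((fderiv ℝ U (R η)).comp R) η :=
      (hUd (R η) (hinv η hη)).comp η R.hasFDerivAt
    have d1 := ((ContinuousLinearMap.apply ℂ F ζ).restrictScalars ℝ).hasFDerivAt.comp η d0
    have d2 := ((ContinuousLinearMap.apply ℂ F ζ).restrictScalars ℝ).hasFDerivAt.comp η (hUd η hη)
    have d3 := (G.restrictScalars ℝ).hasFDerivAt.comp η d2
    have d4 := d1.inner ℂ d3
    refine d4.congr_fderiv ?_
    ext ξ
    obtain ⟨c, hc⟩ := hlin η hη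
    have hc0 : c ≠ 0 := by
      intro h0
      rw [h0, zero_smul] at hc
      have h1 := hGi (U η ζ) (U η ζ)
      rw [hc, inner_zero_left, hUn] at h1
      exact hζζ h1.symm
    have e1 : inner ℂ ((fderiv ℝ U (ro Z η) (ro Z ξ)) ζ) (G (U η ζ)) = 0 := by
      rw [hc, inner_smul_right, ← inner_conj_symm, hB.U_par _ (hinv η hη) ζ hζ.1 ζ hζ.1, map_zero, mul_zero]
    have e2 : inner ℂ (U (ro Z η) ζ) (G ((fderiv ℝ U η ξ) ζ)) = 0 := by
      have h1 : U (ro Z η) ζ = c⁻¹ • G (U η ζ) := by rw [hc, smul_smul, inv_mul_cancel₀ hc0, one_smul]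
      rw [h1, inner_smul_left, hGi, hB.U_par _ hη ζ hζ.1 ζ hζ.1, mul_zero]
    have e3 : inner ℂ (U (ro Z η) ζ) (G ((fderiv ℝ U η ξ) ζ)) +
      inner ℂ ((fderiv ℝ U (ro Z η) (ro Z ξ)) ζ) (G (U η ζ)) = 0 := by rw [e1, e2, add_zero]
    exact e3
  have hconst := hopen.is_const_of_fderiv_eq_zero (hconn dz L hB.L_ne)
    (fun x hx => (hder x hx).differentiableAt.differentiableWithinAt) (fun x hx => (hder x hx).fderiv) hη hη₀
  simp only [hg, hRa] at hconst
  rw [hG₀, hUn] at hconst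
  obtain ⟨c, hc⟩ := hlin η hη
  rw [hc, inner_smul_right, hUn] at hconst
  have hc1 : c = 1 := mul_right_cancel₀ hζζ (by rw [hconst, one_mul])
  rw [hc, hc1, one_smul]

end Vale.Agent.P353.Z.AS
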