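import Vale.Agent.P353.AN.SGN.SgnP
import Vale.Agent.P353.AN.SGN.Line
import Vale.Agent.P353.AN.SGN.Two
import Vale.Agent.P353.AN.SGN.ImpT
import Vale.Agent.P353.AN.SGN.Eig
import Vale.Agent.P353.AN.SGN.JF
import Vale.Agent.P353.AN.SGN.Cov
import Vale.Agent.P353.AN.SGN.VacR
import Vale.Agent.P353.AN.SGN.Eta
import Vale.Agent.P353.AN.SGN.RPar
import Vale.Agent.P353.AN.SGN.FerAt
import Vale.Agent.P353.AN.SGN.ExtB
import Vale.Agent.P353.AN.SGN.Coll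
import Vale.Agent.P353.AN.SGN.Sex
import Vale.Agent.P353.AN.SGN.EtaStar
import Vale.Agent.P353.AN.SGN.ExF
import Vale.Agent.P353.AN.SGN.OneFam
import Vale.Agent.P353.AN.SGN.SwF
import Vale.Agent.P353.AN.X.Conn
import Vale.Agent.P353.AN.NF.Nrm
import Vale.Agent.P353.AN.NF.Val
import Vale.Agent.P353.AN.NF.Sw
import Vale.Agent.P353.AN.NF.Sf
import Vale.Agent.P353.AN.X2.Sec
import Vale.Agent.P353.AN.X2.Wick
import Vale.Agent.P353.AN.X2.Rst
import Vale.Agent.P353.AN.X2.Zero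

/-! # P353, all `N`, block SGN: S24, assembly (helper620) -/

open MeasureTheory Filter Topology Matrix
open scoped ContDiff

namespace Vale.Agent.P353.Z.AS

universe u

section
variable {d dh dm ds dz : ℕ} {F : Type u} [NormedAddCommGroup F] [InnerProductSpace ℂ F]

theorem s620_eta (S : Setup d F) (φ : Spl dh dm d) (ψ : Spl ds dz dh) : EtaStmt S φ ψ :=
  eta_stmt S φ ψ (line_stmt S) (jF_stmt S φ)

theorem s620_rPar (S : Setup d F) (φ : Spl dh dm d) (ψ : Spl ds dz dh) : RParStmt S φ ψ :=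
  rPar_stmt S φ ψ (line_stmt S) (two_stmt S) (impT_stmt S) (jF_stmt S φ) (cov_stmt S φ ψ) (vacR_stmt S φ) (s620_eta S φ ψ)

theorem s620_ferAt (S : Setup d F) (φ : Spl dh dm d) (ψ : Spl ds dz dh) : FerAtStmt S φ ψ :=
  ferAt_stmt S φ ψ (eig_stmt S (line_stmt S) (impT_stmt S)) (impT_stmt S) (jF_stmt S φ) (cov_stmt S φ ψ) (vacR_stmt S φ)
    (s620_eta S φ ψ) (s620_rPar S φ ψ)

theorem s620_ext (S : Setup d F) (φ : Spl dh dm d) (ψ : Spl ds dz dh) : ExtStmt S φ ψ :=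
  ext_stmt' S φ ψ (impT_stmt S) (cov_stmt S φ ψ) (s620_eta S φ ψ)

theorem s620_sex : SexStmt.{u} := sex_stmt fun _ _ _ _ S => AX2.sec_of AX2.wick_stmt S

theorem s620_comb : CombStmt.{u} := comb_stmt fun S => AX2.rst_stmt S

end

/-- **S24 Sgn** -/
theorem sgn_stmt : SwpAStmt.{u} → AX2.ProdStmt.{u} → AX2.ImpMStmt.{u} → SgnStmt.{u} := by
  intro hSwpA hProd hImpM N d dh dm ds dz k n F _ _ hfd M S φ ψ fr z₀ h hRep hOne t Kc E l hRD V hV
  have hI : S.Irr := by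
    intro W hW
    exact M.θ_irreducible W (by rw [← hRep.hth]; exact hW)
  have hne : ∃ v : F, v ≠ 0 := M.nontrivial
  have hBas : Bas N d M.T S.f := by
    rw [hRep.hf]
    exact ANF.basM_stmt N d F M
  obtain ⟨hSym, hmul⟩ := adSym_stmt N d F M.T S hBas
  have hImp : ∀ V, Imp S (adO M.T V) (M.S V) := fun V => hImpM N d F hfd M S hRep V
  have hVal : ANF.ValStmt S.f fr := ANF.val_stmt S.f fr
  obtain ⟨hC, hA, hBx⟩ := etaStar_stmt S fr hBas hVal (ANF.reg_stmt S fr) coll_stmt t Kc E l hRD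
  have hssf : h.ss.f = fun A B C => S.f (φ (Sum.inl (ψ (Sum.inl A)))) (φ (Sum.inl (ψ (Sum.inl B))))
      (φ (Sum.inl (ψ (Sum.inl C)))) := rfl
  have key := ANF.nrm_stmt S.f fr hVal hBas (fun V => Blk φ ψ (adO M.T V) ∧ SgC M S φ ψ h Kc E l V) ?_ ?_ ?_ V hV
  · exact key.2
  · rintro V W ⟨hV1, hV2⟩ ⟨hW1, hW2⟩
    refine ⟨?_, sgC_mul (hmul V W) (hSym W).orth hV1 hW1 hV2 hW2⟩
    rw [hmul]
    exact s620_blk hV1 hW1
  · intro V hV hz
    refine ⟨hV, ?_⟩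
    obtain ⟨η₀, h1, h2⟩ := hA
    obtain ⟨a, ha⟩ := exF_stmt S.f fr hBas V hV hz
    refine sgC_of hfd hI hne h hRD (s620_ferAt S φ ψ) (s620_ext S φ ψ) AX.conn s620_comb (hSym V) hV (hImp V) ?_
      (hC _ (hSym V) hV) η₀ h1 h2 (Or.inl ?_)
    · rw [ha, hssf]
      exact s620_sex S.κ ds _ a
    · rw [hz, U.foot_ro_one]
  · intro a b hab hn V c hc hVc
    obtain ⟨hV, hval, -⟩ := ANF.sw_stmt S.f fr hVal hBas a b hab hn V c hc hVc
    refine ⟨hV, ?_⟩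
    obtain ⟨η₀, h1, h2, h3⟩ := hBx a b hab hn
    have h0 : η₀ ∉ Coll (Finset.univ.image l) := by
      have h4 := h2 0
      rwa [RR_zero] at h4
    refine sgC_of hfd hI hne h hRD (s620_ferAt S φ ψ) (s620_ext S φ ψ) AX.conn s620_comb (hSym V) hV (hImp V) ?_
      (hC _ (hSym V) hV) η₀ h0 h1 (Or.inr ⟨?_, h2⟩)
    · rw [hRep.hκ, hssf]
      exact swF_stmt S fr hBas (ANF.sw_stmt S.f fr hVal) (ANF.sf_stmt S fr) oneFam_stmt hProd AX2.zero_stmt (swp_stmt hSwpA)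
        hOne a b hab hn V c hc hVc
    · refine (hVal hBas).2.2.1 _ _ fun i e => ?_
      rw [hval, h3]

end Vale.Agent.P353.Z.AS
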