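import Vale.Agent.P353.AN.SGN.Comb
import Vale.Agent.P353.AN.SGN.AdSym
import Vale.Agent.P353.AN.SGN.Swp
import Vale.Agent.P353.AN.NF.RotM
import Vale.Agent.P353.AN.X.All
import Vale.Agent.P353.Z.U.Foot

/-! # P353, all `N`, block SGN: preliminaries of S24 (helper620)

`SgC` = the conclusion of `SgnStmt` for one fixed `V`; it is closed under products; the common part of both kinds of generators. -/

open MeasureTheory Filter Topology Matrix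
open scoped ContDiff

namespace Vale.Agent.P353.Z.AS

universe u

section
variable {d dh dm ds dz : ℕ}

/-- a sum over all colours of terms supported on the `z` colours -/
lemma s620_sumz {M : Type*} [AddCommMonoid M] (φ : Spl dh dm d) (ψ : Spl ds dz dh) (g : Fin d → M)
    (h1 : ∀ B, g (φ (Sum.inr B)) = 0) (h2 : ∀ B, g (φ (Sum.inl (ψ (Sum.inl B)))) = 0) :
    ∑ B, g B = ∑ A : Fin dz, g (φ (Sum.inl (ψ (Sum.inr A)))) := by
  rw [← φ.sum_comp, Fintype.sum_sum_type]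
  simp only [h1, Finset.sum_const_zero, add_zero]
  rw [← ψ.sum_comp, Fintype.sum_sum_type]
  simp only [h2, Finset.sum_const_zero, zero_add]

lemma s620_blk {φ : Spl dh dm d} {ψ : Spl ds dz dh} {O O' : Matrix (Fin d) (Fin d) ℝ} (hO : Blk φ ψ O) (hO' : Blk φ ψ O') :
    Blk φ ψ (O * O') := by
  refine ⟨fun A B => ?_, fun A B => ?_, fun A B => ?_, fun A B => ?_⟩
  · rw [Matrix.mul_apply, ← φ.sum_comp, Fintype.sum_sum_type]
    simp [hO.hm, hO'.hm]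
  · rw [Matrix.mul_apply, ← φ.sum_comp, Fintype.sum_sum_type]
    simp [hO.mh, hO'.mh]
  · rw [Matrix.mul_apply, s249_sum φ ψ _ (fun C => by simp [hO.hm]) (fun C => by simp [hO.sz])]
    exact Finset.sum_eq_zero fun C _ => by rw [hO'.sz, mul_zero]
  · rw [Matrix.mul_apply, s620_sumz φ ψ _ (fun C => by simp [hO.hm]) (fun C => by simp [hO.zs])]
    exact Finset.sum_eq_zero fun C _ => by rw [hO'.zs, mul_zero]

lemma s620_smul {φ : Spl dh dm d} {ψ : Spl ds dz dh} {O O' : Matrix (Fin d) (Fin d) ℝ} (hO : Blk φ ψ O) :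
    sO φ ψ (O * O') = sO φ ψ O * sO φ ψ O' := by
  ext A B
  rw [Matrix.mul_apply]
  change (O * O') _ _ = _
  rw [Matrix.mul_apply, s249_sum φ ψ _ (fun C => by simp [hO.hm]) (fun C => by simp [hO.sz])]
  rfl

lemma s620_zmul {φ : Spl dh dm d} {ψ : Spl ds dz dh} {O O' : Matrix (Fin d) (Fin d) ℝ} (hO : Blk φ ψ O) :
    zO φ ψ (O * O') = zO φ ψ O * zO φ ψ O' := by
  ext A B
  rw [Matrix.mul_apply]
  change (O * O') _ _ = _
  rw [Matrix.mul_apply, s620_sumz φ ψ _ (fun C => by simp [hO.hm]) (fun C => by simp [hO.zs])]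
  rfl

end

section
variable {N d dh dm ds dz : ℕ} {F : Type u} [NormedAddCommGroup F] [InnerProductSpace ℂ F]

/-- conclusion of S24 for one fixed `V` -/
def SgC (M : BFSS.Model N d F) (S : Setup d F) (φ : Spl dh dm d) (ψ : Spl ds dz dh) {z₀ : Cfg dz}
    (h : AD.Std2 S φ ψ z₀) (Kc E : Matrix (Fin dm) (Fin dm) ℝ) (l : Fin dm → Fin dz → ℝ) (V : BFSS.SU N) : Prop :=
  ∀ η ∉ Coll (Finset.univ.image l), ro (zO φ ψ (adO M.T V)) η ∉ Coll (Finset.univ.image l) ∧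
  ∀ Ψ ∈ h.ss.zms (vca (AX2.czs h) (S.Kr φ (1 - Complex.I • S.J0 Kc))), ∀ᵐ x ∂(volume : Measure (Cfg ds)),
    M.S V (S.UU φ E l η (Ψ x)) = S.UU φ E l (ro (zO φ ψ (adO M.T V)) η) (Ψ (ro (sO φ ψ (adO M.T V)) x))

/-- the conclusion is closed under products -/
theorem sgC_mul {M : BFSS.Model N d F} {S : Setup d F} {φ : Spl dh dm d} {ψ : Spl ds dz dh} {z₀ : Cfg dz}
    {h : AD.Std2 S φ ψ z₀} {Kc E : Matrix (Fin dm) (Fin dm) ℝ} {l : Fin dm → Fin dz → ℝ} {V W : BFSS.SU N}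
    (hmul : adO M.T (V * W) = adO M.T V * adO M.T W) (hW1 : adO M.T W * (adO M.T W)ᵀ = 1)
    (hVb : Blk φ ψ (adO M.T V)) (hWb : Blk φ ψ (adO M.T W))
    (hV : SgC M S φ ψ h Kc E l V) (hW : SgC M S φ ψ h Kc E l W) : SgC M S φ ψ h Kc E l (V * W) := by
  intro η hη
  obtain ⟨h1, h2⟩ := hW η hη
  obtain ⟨h3, h4⟩ := hV _ h1
  rw [hmul, s620_zmul hVb, U.foot_ro_mul]
  refine ⟨h3, fun Ψ hΨ => ?_⟩
  filter_upwards [h2 Ψ hΨ, (swp379_qmp (s249_orth φ ψ hW1 hWb)).ae (h4 Ψ hΨ)] with x e1 e2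
  rw [M.S_mul, e1, e2, s620_smul hVb, U.foot_ro_mul]

/-- common part of both kinds of generators -/
theorem sgC_of {M : BFSS.Model N d F} {S : Setup d F} {φ : Spl dh dm d} {ψ : Spl ds dz dh} {z₀ : Cfg dz}
    (hfd : FiniteDimensional ℂ F) (hI : S.Irr) (hne : ∃ v : F, v ≠ 0)
    (h : AD.Std2 S φ ψ z₀) {t : Fin dz → ℝ} {Kc E : Matrix (Fin dm) (Fin dm) ℝ} {l : Fin dm → Fin dz → ℝ}
    (hRD : RD (AX.Mz S φ ψ) t Kc E l) (hFer : FerAtStmt S φ ψ) (hExt : ExtStmt S φ ψ) (hConn : AX.ConnStmt)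
    (hComb : CombStmt.{u}) {V : BFSS.SU N} (hSym : Sym S (adO M.T V)) (hBlk : Blk φ ψ (adO M.T V))
    (hImp : Imp S (adO M.T V) (M.S V)) (hSS : SSig.{u} S.κ h.ss.f (sO φ ψ (adO M.T V)))
    (hC : ∀ η, η ∉ Coll (Finset.univ.image l) → ro (zO φ ψ (adO M.T V)) η ∉ Coll (Finset.univ.image l))
    (η₀ : Cfg dz) (hη₀ : η₀ ∉ Coll (Finset.univ.image l)) (h3 : ∀ i : Fin 9, i.val < 3 → ∀ a, η₀ (i, a) = 0)
    (hex : ro (zO φ ψ (adO M.T V)) η₀ = η₀ ∨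
      (ro (zO φ ψ (adO M.T V)) η₀ = RR 3 4 Real.pi η₀ ∧ ∀ t, RR 3 4 t η₀ ∉ Coll (Finset.univ.image l))) :
    SgC M S φ ψ h Kc E l V := by
  have hB := AX.bunAll S φ hfd dz (AX.Mz S φ ψ) t Kc E l hRD
  intro η hη
  refine ⟨hC η hη, ?_⟩
  refine hComb d dh dm ds dz F hfd S φ ψ z₀ h hI hne _ _ _ _ hB (adO M.T V) (M.S V) hSym hBlk hImp hSS η ?_
  intro ζ hζ
  refine hExt hfd hI hConn _ _ _ _ hB (adO M.T V) (M.S V) hSym hBlk hImp hC ζ hζ η₀ hη₀ ?_ η hη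
  exact hFer hfd hI _ _ _ _ hB (adO M.T V) (M.S V) hSym hBlk hImp η₀ hη₀ h3 hex ζ hζ

end

end Vale.Agent.P353.Z.AS
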