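import Vale.Agent.P353.AN.SGN.SwpM

/-! # P353, all `N`, block SGN: the product zero mode of two equal summands and the rest -/

open MeasureTheory Filter Topology Matrix
open scoped ContDiff

namespace Vale.Agent.P353.Z.AS

universe u

section Core

variable {d d1 d3 : ℕ} {E : Type*} [NormedAddCommGroup E] [InnerProductSpace ℂ E] [FiniteDimensional ℂ E]
  {e : (Fin d1 ⊕ Fin d1) ⊕ Fin d3 ≃ Fin d} {S : Setup d E} {S1 S2 : Setup d1 E} {S3 : Setup d3 E}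
  {V1 V3 : Submodule ℂ E} {W P : E →L[ℂ] E} {τ : E →ₗ[ℂ] E →ₗ[ℂ] E →ₗ[ℂ] E}

/-- first slot -/
noncomputable def sl1 (τ : E →ₗ[ℂ] E →ₗ[ℂ] E →ₗ[ℂ] E) (V1 : Submodule ℂ E) (b c : E) : V1 →L[ℂ] E :=
  LinearMap.toContinuousLinearMap (((τ.flip b).flip c) ∘ₗ V1.subtype)

/-- second slot -/
noncomputable def sl2 (τ : E →ₗ[ℂ] E →ₗ[ℂ] E →ₗ[ℂ] E) (V1 : Submodule ℂ E) (a c : E) : V1 →L[ℂ] E :=
  LinearMap.toContinuousLinearMap (((τ a).flip c) ∘ₗ V1.subtype)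

/-- third slot -/
noncomputable def sl3 (τ : E →ₗ[ℂ] E →ₗ[ℂ] E →ₗ[ℂ] E) (V3 : Submodule ℂ E) (a b : E) : V3 →L[ℂ] E :=
  LinearMap.toContinuousLinearMap ((τ a b) ∘ₗ V3.subtype)

theorem sl1_apply (b c : E) (v : V1) : sl1 τ V1 b c v = τ v b c := rfl

theorem sl2_apply (a c : E) (v : V1) : sl2 τ V1 a c v = τ a v c := rfl

theorem sl3_apply (a b : E) (v : V3) : sl3 τ V3 a b v = τ a b v := rfl


theorem sac_Q1 (h : SaC e S S1 S2 S3 V1 V3 W P τ) {a b : Cfg d1 → V1} {c : Cfg d3 → V3} (ha : Setup.Tst a) (β : Fin 16) (x : Cfg d) :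
    AX2.fuQ S1 (sa1 e) β (trf e τ a b c) x = trf e τ ((S1.rst V1 h.i1).Q β a) b c x := by
  unfold AX2.fuQ
  simp only [trf_s1]
  exact AX2.fube_Q (S1.rst V1 h.i1) S1 rfl rfl rfl (sl1 τ V1 (b (AD.sp (sa1 (saE e)) x)) (c (AD.sp (sa3 e) x)))
    (sl1 τ V1 (b (AD.sp (sa1 (saE e)) x)) (c (AD.sp (sa3 e) x))) (fun α A v => h.t1 _ _ _ _ _) β a _
    (ha.1.differentiable (by simp) _)

theorem sac_Q2 (h : SaC e S S1 S2 S3 V1 V3 W P τ) {a b : Cfg d1 → V1} {c : Cfg d3 → V3} (hb : Setup.Tst b) (pa : ∀ y, P (a y) = a y) (β : Fin 16)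
    (x : Cfg d) :
    AX2.fuQ S2 (sa1 (saE e)) β (trf e τ a b c) x = trf e τ a ((S1.rst V1 h.i1).Q β b) c x := by
  unfold AX2.fuQ
  simp only [trf_s2]
  exact AX2.fube_Q (S1.rst V1 h.i1) S2 (h.F2.g.trans h.F1.g.symm) h.f2 (h.F2.κ.trans h.F1.κ.symm)
    (sl2 τ V1 (a (AD.sp (sa1 e) x)) (c (AD.sp (sa3 e) x)))
    (sl2 τ V1 (a (AD.sp (sa1 e) x)) (c (AD.sp (sa3 e) x))) (fun α A v => h.t2 _ _ _ _ _ (pa _)) β b _
    (hb.1.differentiable (by simp) _)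

theorem sac_Q3 (h : SaC e S S1 S2 S3 V1 V3 W P τ) {a b : Cfg d1 → V1} {c : Cfg d3 → V3} (hc : Setup.Tst c) (pa : ∀ y, P (a y) = a y)
    (pb : ∀ y, P (b y) = b y) (β : Fin 16) (x : Cfg d) :
    AX2.fuQ S3 (sa3 e) β (trf e τ a b c) x = trf e τ a b ((S3.rst V3 h.i3).Q β c) x := by
  unfold AX2.fuQ
  simp only [trf_s3]
  exact AX2.fube_Q (S3.rst V3 h.i3) S3 rfl rfl rfl
    (sl3 τ V3 (a (AD.sp (sa1 e) x)) (b (AD.sp (sa1 (saE e)) x)))
    (sl3 τ V3 (a (AD.sp (sa1 e) x)) (b (AD.sp (sa1 (saE e)) x))) (fun α A v => h.t3 _ _ _ _ _ (pa _) (pb _)) β c _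
    (hc.1.differentiable (by simp) _)

theorem sac_Q (h : SaC e S S1 S2 S3 V1 V3 W P τ) {a b : Cfg d1 → V1} {c : Cfg d3 → V3} (ha : Setup.Tst a) (hb : Setup.Tst b) (hc : Setup.Tst c)
    (pa : ∀ y, P (a y) = a y) (pb : ∀ y, P (b y) = b y) (β : Fin 16) (x : Cfg d) :
    S.Q β (trf e τ a b c) x = trf e τ ((S1.rst V1 h.i1).Q β a) b c x + trf e τ a ((S1.rst V1 h.i1).Q β b) c x +
      trf e τ a b ((S3.rst V3 h.i3).Q β c) x := by
  rw [sa_Q h.F1 h.F2 h.F3 β (trf_tst ha hb hc).1, sac_Q1 h ha, sac_Q2 h hb pa, sac_Q3 h hc pa pb]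

theorem sac_G (h : SaC e S S1 S2 S3 V1 V3 W P τ) {a b : Cfg d1 → V1} {c : Cfg d3 → V3} (ha : Setup.Tst a) (hb : Setup.Tst b) (hc : Setup.Tst c)
    (pa : ∀ y, P (a y) = a y) (pb : ∀ y, P (b y) = b y) (ga : ∀ A y, (S1.rst V1 h.i1).G A a y = 0)
    (gb : ∀ A y, (S1.rst V1 h.i1).G A b y = 0) (gc : ∀ A y, (S3.rst V3 h.i3).G A c y = 0) (C : Fin d) (x : Cfg d) :
    S.G C (trf e τ a b c) x = 0 := by
  have hu := (trf_tst (e := e) (τ := τ) ha hb hc).1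
  obtain ⟨p, rfl⟩ := e.surjective C
  rcases p with (A | A) | A
  · have h1 := AX2.fu_G h.F1 A hu (AD.sp (sa1 e) x) (AD.zp (sa1 e) x)
    rw [AD.sq873_cmb] at h1
    rw [sa1_inl] at h1
    rw [h1]
    simp only [trf_s1]
    refine (AX2.fube_G (S1.rst V1 h.i1) S1 rfl (sl1 τ V1 (b (AD.sp (sa1 (saE e)) x)) (c (AD.sp (sa3 e) x)))
      (sl1 τ V1 (b (AD.sp (sa1 (saE e)) x)) (c (AD.sp (sa3 e) x))) (fun α A v => h.t1 _ _ _ _ _)
      (fun α A v => h.t1 _ _ _ _ _) A a _ (ha.1.differentiable (by simp) _)).trans ?_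
    rw [ga, map_zero]
  · have h1 := AX2.fu_G h.F2 A hu (AD.sp (sa1 (saE e)) x) (AD.zp (sa1 (saE e)) x)
    rw [AD.sq873_cmb] at h1
    rw [sa2_inl] at h1
    rw [h1]
    simp only [trf_s2]
    refine (AX2.fube_G (S1.rst V1 h.i1) S2 h.f2 (sl2 τ V1 (a (AD.sp (sa1 e) x)) (c (AD.sp (sa3 e) x)))
      (sl2 τ V1 (a (AD.sp (sa1 e) x)) (c (AD.sp (sa3 e) x))) (fun α A v => h.t2 _ _ _ _ _ (pa _))
      (fun α A v => h.t2 _ _ _ _ _ (pa _)) A b _ (hb.1.differentiable (by simp) _)).trans ?_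
    rw [gb, map_zero]
  · have h1 := AX2.fu_G h.F3 A hu (AD.sp (sa3 e) x) (AD.zp (sa3 e) x)
    rw [AD.sq873_cmb] at h1
    rw [sa3_inl] at h1
    rw [h1]
    simp only [trf_s3]
    refine (AX2.fube_G (S3.rst V3 h.i3) S3 rfl (sl3 τ V3 (a (AD.sp (sa1 e) x)) (b (AD.sp (sa1 (saE e)) x)))
      (sl3 τ V3 (a (AD.sp (sa1 e) x)) (b (AD.sp (sa1 (saE e)) x))) (fun α A v => h.t3 _ _ _ _ _ (pa _) (pb _))
      (fun α A v => h.t3 _ _ _ _ _ (pa _) (pb _)) A c _ (hc.1.differentiable (by simp) _)).trans ?_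
    rw [gc, map_zero]

omit [FiniteDimensional ℂ E] in
theorem trf_d1 (a a' b : Cfg d1 → V1) (c : Cfg d3 → V3) (x : Cfg d) :
    trf e τ (fun y => a y - a' y) b c x = trf e τ a b c x - trf e τ a' b c x := by
  unfold trf
  rw [Submodule.coe_sub, map_sub, LinearMap.sub_apply, LinearMap.sub_apply]

omit [FiniteDimensional ℂ E] in
theorem trf_d2 (a b b' : Cfg d1 → V1) (c : Cfg d3 → V3) (x : Cfg d) :
    trf e τ a (fun y => b y - b' y) c x = trf e τ a b c x - trf e τ a b' c x := by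
  unfold trf
  rw [Submodule.coe_sub, map_sub, LinearMap.sub_apply]

omit [FiniteDimensional ℂ E] in
theorem trf_d3 (a b : Cfg d1 → V1) (c c' : Cfg d3 → V3) (x : Cfg d) :
    trf e τ a b (fun y => c y - c' y) x = trf e τ a b c x - trf e τ a b c' x := by
  unfold trf
  rw [Submodule.coe_sub, map_sub]

omit [FiniteDimensional ℂ E] in
theorem sa_add3 {m : ℕ} {f g k : Cfg m → ℝ} (hf : Integrable f) (hg : Integrable g) (hk : Integrable k) :
    ∫ x, 3 * (f x + g x + k x) = 3 * ((∫ x, f x) + (∫ x, g x) + ∫ x, k x) := by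
  have h1 : Integrable fun x => f x + g x := hf.add hg
  rw [integral_const_mul, integral_add h1 hk, integral_add hf hg]

theorem sac_core (h : SaC e S S1 S2 S3 V1 V3 W P τ) {a : ℕ → Cfg d1 → V1} {c : ℕ → Cfg d3 → V3}
    {Φ : Lp V1 2 (volume : Measure (Cfg d1))} {K : Lp V3 2 (volume : Measure (Cfg d3))}
    (ha : (S1.rst V1 h.i1).Apx Φ a) (hc : (S3.rst V3 h.i3).Apx K c) (hΦ : Φ ≠ 0) (hK : K ≠ 0)
    (pa : ∀ n y, P (a n y) = a n y) (pΦ : ∀ᵐ y ∂(volume : Measure (Cfg d1)), P (Φ y) = Φ y) :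
    ∃ Ψ : Lp E 2 (volume : Measure (Cfg d)), S.IsZM Ψ ∧ Ψ ≠ 0 ∧
      ∀ᵐ x ∂(volume : Measure (Cfg d)), W (Ψ x) = Ψ (ro (swO e) x) := by
  obtain ⟨aT, aG, aL, aQ⟩ := ha
  obtain ⟨cT, cG, cL, cQ⟩ := hc
  have iΦ : Integrable fun y => ‖Φ y‖ ^ 2 := sa_i2 Φ
  have iK : Integrable fun y => ‖K y‖ ^ 2 := sa_i2 K
  have ia : ∀ n, Integrable fun y => ‖a n y‖ ^ 2 := fun n => (aT n).norm_sq_int
  have ic : ∀ n, Integrable fun y => ‖c n y‖ ^ 2 := fun n => (cT n).norm_sq_int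
  have iaΦ : ∀ n, Integrable fun y => ‖a n y - Φ y‖ ^ 2 := fun n => sa_i1 (aT n) Φ
  have icK : ∀ n, Integrable fun y => ‖c n y - K y‖ ^ 2 := fun n => sa_i1 (cT n) K
  obtain ⟨A0, hA0, hA⟩ := sa_bdd aT Φ aL
  obtain ⟨C0, hC0, hC⟩ := sa_bdd cT K cL
  have hsm : StronglyMeasurable (trf e τ (fun y => Φ y) (fun y => Φ y) (fun y => K y)) :=
    trf_sm (Lp.stronglyMeasurable Φ) (Lp.stronglyMeasurable Φ) (Lp.stronglyMeasurable K)
  have hint : Integrable fun x : Cfg d => ‖trf e τ (fun y => Φ y) (fun y => Φ y) (fun y => K y) x‖ ^ 2 :=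
    trf_intg h.nrm iΦ iΦ iK
  have hm : MemLp (trf e τ (fun y => Φ y) (fun y => Φ y) (fun y => K y)) 2 (volume : Measure (Cfg d)) :=
    (memLp_two_iff_integrable_sq_norm hsm.aestronglyMeasurable).2 hint
  have hT : ∀ n, Setup.Tst (trf e τ (a n) (a n) (c n)) := fun n => trf_tst (aT n) (aT n) (cT n)
  have nn : ∀ {m : ℕ} {X : Type _} [NormedAddCommGroup X] (w : Cfg m → X), 0 ≤ ∫ y, ‖w y‖ ^ 2 :=
    fun w => integral_nonneg fun _ => by positivity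
  refine ⟨hm.toLp _, ⟨fun n => trf e τ (a n) (a n) (c n), hT, fun n C x => ?_, ?_, fun β => ?_⟩, ?_, ?_⟩
  · exact sac_G h (aT n) (aT n) (cT n) (pa n) (pa n) (aG n) (aG n) (cG n) C x
  · have e1 : ∀ n, ∫ x, ‖trf e τ (a n) (a n) (c n) x - (hm.toLp _ : Lp E 2 (volume : Measure (Cfg d))) x‖ ^ 2 =
        ∫ x, ‖trf e τ (a n) (a n) (c n) x - trf e τ (fun y => Φ y) (fun y => Φ y) (fun y => K y) x‖ ^ 2 := by
      intro n
      refine integral_congr_ae ?_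
      filter_upwards [hm.coeFn_toLp] with x hx
      rw [hx]
    simp only [e1]
    refine squeeze_zero (fun n => nn _) (fun n => ?_) (g := fun n =>
      3 * ((∫ y, ‖a n y - Φ y‖ ^ 2) * ((∫ y, ‖a n y‖ ^ 2) * ∫ y, ‖c n y‖ ^ 2) +
        (∫ y, ‖a n y - Φ y‖ ^ 2) * ((∫ y, ‖Φ y‖ ^ 2) * ∫ y, ‖c n y‖ ^ 2) +
        (∫ y, ‖c n y - K y‖ ^ 2) * ((∫ y, ‖Φ y‖ ^ 2) * ∫ y, ‖Φ y‖ ^ 2))) ?_
    · have i1 := trf_intg (e := e) h.nrm (iaΦ n) (ia n) (ic n)
      have i2 := trf_intg (e := e) h.nrm iΦ (iaΦ n) (ic n)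
      have i3 := trf_intg (e := e) h.nrm iΦ iΦ (icK n)
      calc ∫ x, ‖trf e τ (a n) (a n) (c n) x - trf e τ (fun y => Φ y) (fun y => Φ y) (fun y => K y) x‖ ^ 2
          ≤ ∫ x, 3 * (‖trf e τ (fun y => a n y - Φ y) (a n) (c n) x‖ ^ 2 +
              ‖trf e τ (fun y => Φ y) (fun y => a n y - Φ y) (c n) x‖ ^ 2 +
              ‖trf e τ (fun y => Φ y) (fun y => Φ y) (fun y => c n y - K y) x‖ ^ 2) := by
            refine integral_mono_of_nonneg (Eventually.of_forall fun _ => by positivity) (((i1.add i2).add i3).const_mul 3)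
              (Eventually.of_forall fun x => ?_)
            have h1 : trf e τ (a n) (a n) (c n) x - trf e τ (fun y => Φ y) (fun y => Φ y) (fun y => K y) x =
                trf e τ (fun y => a n y - Φ y) (a n) (c n) x + trf e τ (fun y => Φ y) (fun y => a n y - Φ y) (c n) x +
                trf e τ (fun y => Φ y) (fun y => Φ y) (fun y => c n y - K y) x := by
              rw [trf_d1, trf_d2, trf_d3]
              abel
            simp only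
            rw [h1]
            exact sa_n3 _ _ _
        _ = 3 * ((∫ x, ‖trf e τ (fun y => a n y - Φ y) (a n) (c n) x‖ ^ 2) +
              (∫ x, ‖trf e τ (fun y => Φ y) (fun y => a n y - Φ y) (c n) x‖ ^ 2) +
              ∫ x, ‖trf e τ (fun y => Φ y) (fun y => Φ y) (fun y => c n y - K y) x‖ ^ 2) := by
            exact sa_add3 i1 i2 i3
        _ ≤ _ := by
            rw [trf_int h.nrm, trf_int h.nrm, trf_int h.nrm]
            refine le_of_eq ?_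
            ring
    · have l1 := sa_l3 aL (fun n => nn _) (fun n => nn (a n)) (fun n => nn (c n)) hA hC
      have l2 := sa_l3 aL (fun n => nn _) (fun n => nn (fun y => Φ y)) (fun n => nn (c n)) (fun n => le_rfl) hC
      have l3 := sa_l3 cL (fun n => nn _) (fun n => nn (fun y => Φ y)) (fun n => nn (fun y => Φ y)) (fun n => le_rfl)
        (fun n => le_rfl)
      simpa using ((l1.add l2).add l3).const_mul 3
  · refine squeeze_zero (fun n => nn _) (fun n => ?_) (g := fun n =>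
      3 * ((∫ y, ‖(S1.rst V1 h.i1).Q β (a n) y‖ ^ 2) * ((∫ y, ‖a n y‖ ^ 2) * ∫ y, ‖c n y‖ ^ 2) +
        (∫ y, ‖(S1.rst V1 h.i1).Q β (a n) y‖ ^ 2) * ((∫ y, ‖a n y‖ ^ 2) * ∫ y, ‖c n y‖ ^ 2) +
        (∫ y, ‖(S3.rst V3 h.i3).Q β (c n) y‖ ^ 2) * ((∫ y, ‖a n y‖ ^ 2) * ∫ y, ‖a n y‖ ^ 2))) ?_
    · have qa := ((aT n).Q (S1.rst V1 h.i1) β).norm_sq_int
      have qc := ((cT n).Q (S3.rst V3 h.i3) β).norm_sq_int
      have i1 := trf_intg (e := e) h.nrm qa (ia n) (ic n)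
      have i2 := trf_intg (e := e) h.nrm (ia n) qa (ic n)
      have i3 := trf_intg (e := e) h.nrm (ia n) (ia n) qc
      calc ∫ x, ‖S.Q β (trf e τ (a n) (a n) (c n)) x‖ ^ 2
          ≤ ∫ x, 3 * (‖trf e τ ((S1.rst V1 h.i1).Q β (a n)) (a n) (c n) x‖ ^ 2 +
              ‖trf e τ (a n) ((S1.rst V1 h.i1).Q β (a n)) (c n) x‖ ^ 2 +
              ‖trf e τ (a n) (a n) ((S3.rst V3 h.i3).Q β (c n)) x‖ ^ 2) := by
            refine integral_mono_of_nonneg (Eventually.of_forall fun _ => by positivity) (((i1.add i2).add i3).const_mul 3)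
              (Eventually.of_forall fun x => ?_)
            simp only
            rw [sac_Q h (aT n) (aT n) (cT n) (pa n) (pa n)]
            exact sa_n3 _ _ _
        _ = 3 * ((∫ x, ‖trf e τ ((S1.rst V1 h.i1).Q β (a n)) (a n) (c n) x‖ ^ 2) +
              (∫ x, ‖trf e τ (a n) ((S1.rst V1 h.i1).Q β (a n)) (c n) x‖ ^ 2) +
              ∫ x, ‖trf e τ (a n) (a n) ((S3.rst V3 h.i3).Q β (c n)) x‖ ^ 2) := by
            exact sa_add3 i1 i2 i3
        _ ≤ _ := by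
            rw [trf_int h.nrm, trf_int h.nrm, trf_int h.nrm]
            refine le_of_eq ?_
            ring
    · have l1 := sa_l3 (aQ β) (fun n => nn _) (fun n => nn (a n)) (fun n => nn (c n)) hA hC
      have l3 := sa_l3 (cQ β) (fun n => nn _) (fun n => nn (a n)) (fun n => nn (a n)) hA hA
      simpa using ((l1.add l1).add l3).const_mul 3
  · intro h0
    have hz : ∫ x : Cfg d, ‖trf e τ (fun y => Φ y) (fun y => Φ y) (fun y => K y) x‖ ^ 2 = 0 := by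
      rw [integral_eq_zero_of_ae]
      have h1 : (trf e τ (fun y => Φ y) (fun y => Φ y) (fun y => K y)) =ᵐ[(volume : Measure (Cfg d))] 0 := by
        have h2 := hm.coeFn_toLp
        rw [h0] at h2
        exact h2.symm.trans (Lp.coeFn_zero _ _ _)
      filter_upwards [h1] with x hx
      rw [hx]
      simp
    rw [trf_int h.nrm] at hz
    have p1 : (∫ y, ‖Φ y‖ ^ 2) ≠ 0 := fun hh => hΦ (AX2.fube_lpz Φ hh)
    have p3 : (∫ y, ‖K y‖ ^ 2) ≠ 0 := fun hh => hK (AX2.fube_lpz K hh)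
    exact (mul_ne_zero p1 (mul_ne_zero p1 p3)) hz
  · have h1 := sa_ro_mp (e := e)
    filter_upwards [hm.coeFn_toLp, h1.quasiMeasurePreserving.ae hm.coeFn_toLp, sa_ae1 e pΦ, sa_ae2 e pΦ] with x hx hx' k1 k2
    rw [hx, hx']
    unfold trf
    rw [sa_ro1, sa_ro2, sa_ro3]
    exact h.sw _ _ _ k1 k2

end Core

end Vale.Agent.P353.Z.AS
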