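import Vale.Agent.P353.AN.SGN.Stmt
import Vale.Agent.P353.AN.X2.FubE

/-! # P353, all `N`, block SGN: analytic core of S16 (product of three profiles, helper314) -/

open MeasureTheory Filter Topology Matrix
open scoped ContDiff

namespace Vale.Agent.P353.Z.AS

open AX2

section Core

variable {d d1 d3 : ℕ}

/-- coordinates of an index family -/
noncomputable def swpr {m : ℕ} (j : Fin m → Fin d) (x : Cfg d) : Cfg m := WithLp.toLp 2 fun p => x (p.1, j p.2)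

/-- first copy -/
def sj1 (e : (Fin d1 ⊕ Fin d1) ⊕ Fin d3 ≃ Fin d) (A : Fin d1) : Fin d := e (Sum.inl (Sum.inl A))

/-- second copy -/
def sj2 (e : (Fin d1 ⊕ Fin d1) ⊕ Fin d3 ≃ Fin d) (A : Fin d1) : Fin d := e (Sum.inl (Sum.inr A))

/-- rest -/
def sj3 (e : (Fin d1 ⊕ Fin d1) ⊕ Fin d3 ≃ Fin d) (A : Fin d3) : Fin d := e (Sum.inr A)

/-- projection as a linear map -/
noncomputable def swprL {m : ℕ} (j : Fin m → Fin d) : Cfg d →L[ℝ] Cfg m :=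
  LinearMap.toContinuousLinearMap
    { toFun := swpr j
      map_add' := fun _ _ => rfl
      map_smul' := fun _ _ => rfl }

theorem swprL_same {m : ℕ} (j : Fin m → Fin d) (hj : Function.Injective j) (i : Fin 9) (A : Fin m) :
    swprL j (EuclideanSpace.single (i, j A) 1) = EuclideanSpace.single (i, A) 1 := by
  ext p
  change (EuclideanSpace.single (i, j A) (1 : ℝ) : Cfg d) (p.1, j p.2) = _
  simp [Prod.ext_iff, hj.eq_iff]

theorem swprL_diff {m : ℕ} (j : Fin m → Fin d) (i : Fin 9) (B : Fin d) (h : ∀ A, j A ≠ B) :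
    swprL j (EuclideanSpace.single (i, B) 1) = 0 := by
  ext p
  change (EuclideanSpace.single (i, B) (1 : ℝ) : Cfg d) (p.1, j p.2) = _
  simp [Prod.ext_iff, h]

/-- splitting in two steps -/
def sp1 (e : (Fin d1 ⊕ Fin d1) ⊕ Fin d3 ≃ Fin d) : Spl (d1 + d1) d3 d :=
  (Equiv.sumCongr (finSumFinEquiv (m := d1) (n := d1)).symm (Equiv.refl (Fin d3))).trans e

/-- splitting in two steps -/
def sp2 (d1 : ℕ) : Spl d1 d1 (d1 + d1) := finSumFinEquiv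

theorem swpr1 (e : (Fin d1 ⊕ Fin d1) ⊕ Fin d3 ≃ Fin d) (x : Cfg d) :
    swpr (sj1 e) x = zpt (sp2 d1) (zpt (sp1 e) x) := by
  ext p
  simp [swpr, zpt, sj1, sp1, sp2]

theorem swpr2 (e : (Fin d1 ⊕ Fin d1) ⊕ Fin d3 ≃ Fin d) (x : Cfg d) :
    swpr (sj2 e) x = spt (sp2 d1) (zpt (sp1 e) x) := by
  ext p
  change x (p.1, e (Sum.inl (Sum.inr p.2))) =
    x (p.1, e (Sum.map (finSumFinEquiv (m := d1) (n := d1)).symm (Equiv.refl (Fin d3)) (Sum.inl (finSumFinEquiv (Sum.inr p.2)))))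
  rw [Sum.map_inl, Equiv.symm_apply_apply]

theorem swpr3 (e : (Fin d1 ⊕ Fin d1) ⊕ Fin d3 ≃ Fin d) (x : Cfg d) :
    swpr (sj3 e) x = spt (sp1 e) x := by
  ext p
  simp [swpr, spt, sj3, sp1]

theorem swp_int (e : (Fin d1 ⊕ Fin d1) ⊕ Fin d3 ≃ Fin d) (a b : Cfg d1 → ℝ) (c : Cfg d3 → ℝ) :
    ∫ x : Cfg d, a (swpr (sj1 e) x) * b (swpr (sj2 e) x) * c (swpr (sj3 e) x) = (∫ y, a y) * (∫ y, b y) * ∫ z, c z := by
  simp only [swpr1, swpr2, swpr3]
  rw [fube_int (sp1 e) (fun y => a (zpt (sp2 d1) y) * b (spt (sp2 d1) y)) c, fube_int (sp2 d1) a b]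

theorem swp_itg (e : (Fin d1 ⊕ Fin d1) ⊕ Fin d3 ≃ Fin d) (a b : Cfg d1 → ℝ) (c : Cfg d3 → ℝ) (ha : Integrable a)
    (hb : Integrable b) (hc : Integrable c) :
    Integrable (fun x : Cfg d => a (swpr (sj1 e) x) * b (swpr (sj2 e) x) * c (swpr (sj3 e) x)) := by
  simp only [swpr1, swpr2, swpr3]
  exact fube_itg (sp1 e) (fun y => a (zpt (sp2 d1) y) * b (spt (sp2 d1) y)) c (fube_itg (sp2 d1) a b ha hb) hc

theorem swp_q1 (e : (Fin d1 ⊕ Fin d1) ⊕ Fin d3 ≃ Fin d) :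
    Measure.QuasiMeasurePreserving (fun x : Cfg d => swpr (sj1 e) x) volume (volume : Measure (Cfg d1)) := by
  have q1 : Measure.QuasiMeasurePreserving (fun x : Cfg d => zpt (sp1 e) x) volume (volume : Measure (Cfg (d1 + d1))) :=
    (Measure.quasiMeasurePreserving_fst (μ := (volume : Measure (Cfg (d1 + d1))))
      (ν := (volume : Measure (Cfg d3)))).comp (AE.trf_mp (sp1 e)).quasiMeasurePreserving
  have q2 : Measure.QuasiMeasurePreserving (fun x : Cfg (d1 + d1) => zpt (sp2 d1) x) volume (volume : Measure (Cfg d1)) :=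
    (Measure.quasiMeasurePreserving_fst (μ := (volume : Measure (Cfg d1)))
      (ν := (volume : Measure (Cfg d1)))).comp (AE.trf_mp (sp2 d1)).quasiMeasurePreserving
  simp only [swpr1]
  exact q2.comp q1

theorem swp_q2 (e : (Fin d1 ⊕ Fin d1) ⊕ Fin d3 ≃ Fin d) :
    Measure.QuasiMeasurePreserving (fun x : Cfg d => swpr (sj2 e) x) volume (volume : Measure (Cfg d1)) := by
  have q1 : Measure.QuasiMeasurePreserving (fun x : Cfg d => zpt (sp1 e) x) volume (volume : Measure (Cfg (d1 + d1))) :=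
    (Measure.quasiMeasurePreserving_fst (μ := (volume : Measure (Cfg (d1 + d1))))
      (ν := (volume : Measure (Cfg d3)))).comp (AE.trf_mp (sp1 e)).quasiMeasurePreserving
  have q2 : Measure.QuasiMeasurePreserving (fun x : Cfg (d1 + d1) => spt (sp2 d1) x) volume (volume : Measure (Cfg d1)) :=
    (Measure.quasiMeasurePreserving_snd (μ := (volume : Measure (Cfg d1)))
      (ν := (volume : Measure (Cfg d1)))).comp (AE.trf_mp (sp2 d1)).quasiMeasurePreserving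
  simp only [swpr2]
  exact q2.comp q1

theorem swp_q3 (e : (Fin d1 ⊕ Fin d1) ⊕ Fin d3 ≃ Fin d) :
    Measure.QuasiMeasurePreserving (fun x : Cfg d => swpr (sj3 e) x) volume (volume : Measure (Cfg d3)) := by
  have q1 : Measure.QuasiMeasurePreserving (fun x : Cfg d => spt (sp1 e) x) volume (volume : Measure (Cfg d3)) :=
    (Measure.quasiMeasurePreserving_snd (μ := (volume : Measure (Cfg (d1 + d1))))
      (ν := (volume : Measure (Cfg d3)))).comp (AE.trf_mp (sp1 e)).quasiMeasurePreserving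
  simp only [swpr3]
  exact q1

theorem swp_norm (e : (Fin d1 ⊕ Fin d1) ⊕ Fin d3 ≃ Fin d) (x : Cfg d) :
    ‖x‖ ^ 2 = ‖swpr (sj1 e) x‖ ^ 2 + ‖swpr (sj2 e) x‖ ^ 2 + ‖swpr (sj3 e) x‖ ^ 2 := by
  rw [swpr1, swpr2, swpr3, AE.trf_norm (sp1 e) x, AE.trf_norm (sp2 d1)]

theorem sj_inj1 (e : (Fin d1 ⊕ Fin d1) ⊕ Fin d3 ≃ Fin d) : Function.Injective (sj1 e) := by
  intro A B h
  simpa [sj1] using h

theorem sj_inj2 (e : (Fin d1 ⊕ Fin d1) ⊕ Fin d3 ≃ Fin d) : Function.Injective (sj2 e) := by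
  intro A B h
  simpa [sj2] using h

theorem sj_inj3 (e : (Fin d1 ⊕ Fin d1) ⊕ Fin d3 ≃ Fin d) : Function.Injective (sj3 e) := by
  intro A B h
  simpa [sj3] using h

theorem sj12 (e : (Fin d1 ⊕ Fin d1) ⊕ Fin d3 ≃ Fin d) (A B) : sj1 e A ≠ sj2 e B := by
  simp [sj1, sj2]

theorem sj13 (e : (Fin d1 ⊕ Fin d1) ⊕ Fin d3 ≃ Fin d) (A B) : sj1 e A ≠ sj3 e B := by
  simp [sj1, sj3]

theorem sj23 (e : (Fin d1 ⊕ Fin d1) ⊕ Fin d3 ≃ Fin d) (A B) : sj2 e A ≠ sj3 e B := by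
  simp [sj2, sj3]

/-- swapping the copies -/
theorem swp_ro (e : (Fin d1 ⊕ Fin d1) ⊕ Fin d3 ≃ Fin d) (x : Cfg d) :
    swpr (sj1 e) (ro (swO e) x) = swpr (sj2 e) x ∧ swpr (sj2 e) (ro (swO e) x) = swpr (sj1 e) x ∧
      swpr (sj3 e) (ro (swO e) x) = swpr (sj3 e) x := by
  have h : ∀ (i : Fin 9) (s : (Fin d1 ⊕ Fin d1) ⊕ Fin d3),
      ro (swO e) x (i, e s) = x (i, e (Sum.map Sum.swap id s)) := by
    intro i s
    change ∑ B, swO e (e s) B * x (i, B) = _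
    rw [← e.sum_comp]
    rw [Finset.sum_eq_single (Sum.map Sum.swap id s)]
    · simp [swO]
    · intro b _ hb
      have h1 : ¬ (s = Sum.map Sum.swap id b) := by
        intro h2
        apply hb
        rw [h2]
        rcases b with (b | b) | b <;> simp
      simp [swO, h1]
    · intro h
      exact absurd (Finset.mem_univ _) h
  refine ⟨?_, ?_, ?_⟩
  · ext ⟨i, A⟩
    exact h i (Sum.inl (Sum.inl A))
  · ext ⟨i, A⟩
    exact h i (Sum.inl (Sum.inr A))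
  · ext ⟨i, A⟩
    exact h i (Sum.inr A)

end Core

section Split

variable {d d1 d3 : ℕ} {F : Type*} [NormedAddCommGroup F] [InnerProductSpace ℂ F]

/-- the splitting data -/
structure SwD (e : (Fin d1 ⊕ Fin d1) ⊕ Fin d3 ≃ Fin d) (S : Setup d F) (Sa Sb : Setup d1 F) (Sc : Setup d3 F) : Prop where
  ds : Dbl e S.f Sa.f Sc.f
  fb : Sb.f = Sa.f
  ka : Sa.κ = S.κ
  kb : Sb.κ = S.κ
  kc : Sc.κ = S.κ
  ga : Sa.g = S.g
  gb : Sb.g = S.g
  gc : Sc.g = S.g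
  ta : ∀ α A, Sa.th α A = S.th α (sj1 e A)
  tb : ∀ α A, Sb.th α A = S.th α (sj2 e A)
  tc : ∀ α A, Sc.th α A = S.th α (sj3 e A)

variable {e : (Fin d1 ⊕ Fin d1) ⊕ Fin d3 ≃ Fin d} {S : Setup d F} {Sa Sb : Setup d1 F} {Sc : Setup d3 F}

theorem tag1 (e : (Fin d1 ⊕ Fin d1) ⊕ Fin d3 ≃ Fin d) (A) : tag e (sj1 e A) = 0 := by simp [tag, sj1]
theorem tag2 (e : (Fin d1 ⊕ Fin d1) ⊕ Fin d3 ≃ Fin d) (A) : tag e (sj2 e A) = 1 := by simp [tag, sj2]
theorem tag3 (e : (Fin d1 ⊕ Fin d1) ⊕ Fin d3 ≃ Fin d) (A) : tag e (sj3 e A) = 2 := by simp [tag, sj3]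

theorem SwD.mix (h : SwD e S Sa Sb Sc) (A B C : Fin d) (hn : tag e A ≠ tag e B ∨ tag e B ≠ tag e C) :
    S.f A B C = 0 := h.ds.mix A B C (by tauto)

theorem swp_sum {M : Type*} [AddCommMonoid M] (e : (Fin d1 ⊕ Fin d1) ⊕ Fin d3 ≃ Fin d) (a : Fin d → M) :
    ∑ A, a A = (∑ A, a (sj1 e A)) + (∑ A, a (sj2 e A)) + ∑ A, a (sj3 e A) := by
  rw [← e.sum_comp, Fintype.sum_sum_type, Fintype.sum_sum_type]
  rfl

theorem SwD.e1 (h : SwD e S Sa Sb Sc) (A B C) : S.f (sj1 e A) (sj1 e B) (sj1 e C) = Sa.f A B C := h.ds.a1 A B C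
theorem SwD.e2 (h : SwD e S Sa Sb Sc) (A B C) : S.f (sj2 e A) (sj2 e B) (sj2 e C) = Sb.f A B C := by
  rw [h.fb]
  exact h.ds.a2 A B C
theorem SwD.e3 (h : SwD e S Sa Sb Sc) (A B C) : S.f (sj3 e A) (sj3 e B) (sj3 e C) = Sc.f A B C := h.ds.a3 A B C

theorem SwD.vec1 (h : SwD e S Sa Sb Sc) (N : Matrix (Fin 16) (Fin 16) ℂ) (A β) :
    S.vec N (sj1 e A) β = Sa.vec N A β := by simp only [CS.vec, h.ta]
theorem SwD.vec2 (h : SwD e S Sa Sb Sc) (N : Matrix (Fin 16) (Fin 16) ℂ) (A β) :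
    S.vec N (sj2 e A) β = Sb.vec N A β := by simp only [CS.vec, h.tb]
theorem SwD.vec3 (h : SwD e S Sa Sb Sc) (N : Matrix (Fin 16) (Fin 16) ℂ) (A β) :
    S.vec N (sj3 e A) β = Sc.vec N A β := by simp only [CS.vec, h.tc]
theorem SwD.bil1 (h : SwD e S Sa Sb Sc) (N : Matrix (Fin 16) (Fin 16) ℂ) (A B) :
    S.bil N (sj1 e A) (sj1 e B) = Sa.bil N A B := by simp only [CS.bil, h.ta, h.vec1]
theorem SwD.bil2 (h : SwD e S Sa Sb Sc) (N : Matrix (Fin 16) (Fin 16) ℂ) (A B) :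
    S.bil N (sj2 e A) (sj2 e B) = Sb.bil N A B := by simp only [CS.bil, h.tb, h.vec2]
theorem SwD.bil3 (h : SwD e S Sa Sb Sc) (N : Matrix (Fin 16) (Fin 16) ℂ) (A B) :
    S.bil N (sj3 e A) (sj3 e B) = Sc.bil N A B := by simp only [CS.bil, h.tc, h.vec3]

theorem SwD.f1 (h : SwD e S Sa Sb Sc) {M : Type*} [AddCommMonoid M] (A : Fin d1) (X : ℝ → Fin d → Fin d → M)
    (hX : ∀ B C, X 0 B C = 0) :
    ∑ B, ∑ C, X (S.f (sj1 e A) B C) B C = ∑ B, ∑ C, X (Sa.f A B C) (sj1 e B) (sj1 e C) := by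
  rw [swp_sum e]
  have z2 : ∀ B : Fin d1, ∑ C, X (S.f (sj1 e A) (sj2 e B) C) (sj2 e B) C = 0 := fun B =>
    Finset.sum_eq_zero fun C _ => by rw [h.mix _ _ _ (Or.inl (by rw [tag1, tag2]; decide)), hX]
  have z3 : ∀ B : Fin d3, ∑ C, X (S.f (sj1 e A) (sj3 e B) C) (sj3 e B) C = 0 := fun B =>
    Finset.sum_eq_zero fun C _ => by rw [h.mix _ _ _ (Or.inl (by rw [tag1, tag3]; decide)), hX]
  simp only [z2, z3, Finset.sum_const_zero, add_zero]
  refine Finset.sum_congr rfl fun B _ => ?_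
  rw [swp_sum e]
  have y2 : ∀ C : Fin d1, S.f (sj1 e A) (sj1 e B) (sj2 e C) = 0 := fun C =>
    h.mix _ _ _ (Or.inr (by rw [tag1, tag2]; decide))
  have y3 : ∀ C : Fin d3, S.f (sj1 e A) (sj1 e B) (sj3 e C) = 0 := fun C =>
    h.mix _ _ _ (Or.inr (by rw [tag1, tag3]; decide))
  simp only [y2, y3, hX, Finset.sum_const_zero, add_zero, h.e1]

theorem SwD.f2 (h : SwD e S Sa Sb Sc) {M : Type*} [AddCommMonoid M] (A : Fin d1) (X : ℝ → Fin d → Fin d → M)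
    (hX : ∀ B C, X 0 B C = 0) :
    ∑ B, ∑ C, X (S.f (sj2 e A) B C) B C = ∑ B, ∑ C, X (Sb.f A B C) (sj2 e B) (sj2 e C) := by
  rw [swp_sum e]
  have z2 : ∀ B : Fin d1, ∑ C, X (S.f (sj2 e A) (sj1 e B) C) (sj1 e B) C = 0 := fun B =>
    Finset.sum_eq_zero fun C _ => by rw [h.mix _ _ _ (Or.inl (by rw [tag1, tag2]; decide)), hX]
  have z3 : ∀ B : Fin d3, ∑ C, X (S.f (sj2 e A) (sj3 e B) C) (sj3 e B) C = 0 := fun B =>
    Finset.sum_eq_zero fun C _ => by rw [h.mix _ _ _ (Or.inl (by rw [tag2, tag3]; decide)), hX]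
  simp only [z2, z3, Finset.sum_const_zero, add_zero, zero_add]
  refine Finset.sum_congr rfl fun B _ => ?_
  rw [swp_sum e]
  have y2 : ∀ C : Fin d1, S.f (sj2 e A) (sj2 e B) (sj1 e C) = 0 := fun C =>
    h.mix _ _ _ (Or.inr (by rw [tag1, tag2]; decide))
  have y3 : ∀ C : Fin d3, S.f (sj2 e A) (sj2 e B) (sj3 e C) = 0 := fun C =>
    h.mix _ _ _ (Or.inr (by rw [tag2, tag3]; decide))
  simp only [y2, y3, hX, Finset.sum_const_zero, add_zero, zero_add, h.e2]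

theorem SwD.f3 (h : SwD e S Sa Sb Sc) {M : Type*} [AddCommMonoid M] (A : Fin d3) (X : ℝ → Fin d → Fin d → M)
    (hX : ∀ B C, X 0 B C = 0) :
    ∑ B, ∑ C, X (S.f (sj3 e A) B C) B C = ∑ B, ∑ C, X (Sc.f A B C) (sj3 e B) (sj3 e C) := by
  rw [swp_sum e]
  have z2 : ∀ B : Fin d1, ∑ C, X (S.f (sj3 e A) (sj1 e B) C) (sj1 e B) C = 0 := fun B =>
    Finset.sum_eq_zero fun C _ => by rw [h.mix _ _ _ (Or.inl (by rw [tag1, tag3]; decide)), hX]
  have z3 : ∀ B : Fin d1, ∑ C, X (S.f (sj3 e A) (sj2 e B) C) (sj2 e B) C = 0 := fun B =>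
    Finset.sum_eq_zero fun C _ => by rw [h.mix _ _ _ (Or.inl (by rw [tag2, tag3]; decide)), hX]
  simp only [z2, z3, Finset.sum_const_zero, add_zero, zero_add]
  refine Finset.sum_congr rfl fun B _ => ?_
  rw [swp_sum e]
  have y2 : ∀ C : Fin d1, S.f (sj3 e A) (sj3 e B) (sj1 e C) = 0 := fun C =>
    h.mix _ _ _ (Or.inr (by rw [tag1, tag3]; decide))
  have y3 : ∀ C : Fin d1, S.f (sj3 e A) (sj3 e B) (sj2 e C) = 0 := fun C =>
    h.mix _ _ _ (Or.inr (by rw [tag2, tag3]; decide))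
  simp only [y2, y3, hX, Finset.sum_const_zero, add_zero, zero_add, h.e3]

theorem SwD.FF1 (h : SwD e S Sa Sb Sc) (A i j) (x : Cfg d) :
    S.FF (sj1 e A) i j x = Sa.FF A i j (swpr (sj1 e) x) := by
  unfold Setup.FF
  rw [h.ka, h.f1 A (fun r B C => r * x (i, B) * x (j, C)) (fun B C => by ring)]
  rfl

theorem SwD.cS1 (h : SwD e S Sa Sb Sc) (C) : S.cS (sj1 e C) = Sa.cS C := by
  unfold Setup.cS
  rw [h.f1 C (fun r B C => (r : ℂ) • S.bil 1 B C) (fun B C => by simp)]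
  simp only [h.bil1]

theorem SwD.G1 (h : SwD e S Sa Sb Sc) (C) (U : Cfg d → F) (x : Cfg d) :
    S.G (sj1 e C) U x = (-Complex.I) • ∑ i, ∑ A, ∑ B, ((Sa.f C A B : ℂ) * (swpr (sj1 e) x (i, A) : ℂ)) •
      pd i (sj1 e B) U x + Sa.cS C (U x) := by
  unfold Setup.G
  rw [h.cS1]
  congr 2
  refine Finset.sum_congr rfl fun i _ => ?_
  rw [h.f1 C (fun r A B => ((r : ℂ) * (x (i, A) : ℂ)) • pd i B U x) (fun B C => by simp)]
  rfl

theorem SwD.FF2 (h : SwD e S Sa Sb Sc) (A i j) (x : Cfg d) :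
    S.FF (sj2 e A) i j x = Sb.FF A i j (swpr (sj2 e) x) := by
  unfold Setup.FF
  rw [h.kb, h.f2 A (fun r B C => r * x (i, B) * x (j, C)) (fun B C => by ring)]
  rfl

theorem SwD.cS2 (h : SwD e S Sa Sb Sc) (C) : S.cS (sj2 e C) = Sb.cS C := by
  unfold Setup.cS
  rw [h.f2 C (fun r B C => (r : ℂ) • S.bil 1 B C) (fun B C => by simp)]
  simp only [h.bil2]

theorem SwD.G2 (h : SwD e S Sa Sb Sc) (C) (U : Cfg d → F) (x : Cfg d) :
    S.G (sj2 e C) U x = (-Complex.I) • ∑ i, ∑ A, ∑ B, ((Sb.f C A B : ℂ) * (swpr (sj2 e) x (i, A) : ℂ)) •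
      pd i (sj2 e B) U x + Sb.cS C (U x) := by
  unfold Setup.G
  rw [h.cS2]
  congr 2
  refine Finset.sum_congr rfl fun i _ => ?_
  rw [h.f2 C (fun r A B => ((r : ℂ) * (x (i, A) : ℂ)) • pd i B U x) (fun B C => by simp)]
  rfl

theorem SwD.FF3 (h : SwD e S Sa Sb Sc) (A i j) (x : Cfg d) :
    S.FF (sj3 e A) i j x = Sc.FF A i j (swpr (sj3 e) x) := by
  unfold Setup.FF
  rw [h.kc, h.f3 A (fun r B C => r * x (i, B) * x (j, C)) (fun B C => by ring)]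
  rfl

theorem SwD.cS3 (h : SwD e S Sa Sb Sc) (C) : S.cS (sj3 e C) = Sc.cS C := by
  unfold Setup.cS
  rw [h.f3 C (fun r B C => (r : ℂ) • S.bil 1 B C) (fun B C => by simp)]
  simp only [h.bil3]

theorem SwD.G3 (h : SwD e S Sa Sb Sc) (C) (U : Cfg d → F) (x : Cfg d) :
    S.G (sj3 e C) U x = (-Complex.I) • ∑ i, ∑ A, ∑ B, ((Sc.f C A B : ℂ) * (swpr (sj3 e) x (i, A) : ℂ)) •
      pd i (sj3 e B) U x + Sc.cS C (U x) := by
  unfold Setup.G
  rw [h.cS3]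
  congr 2
  refine Finset.sum_congr rfl fun i _ => ?_
  rw [h.f3 C (fun r A B => ((r : ℂ) * (x (i, A) : ℂ)) • pd i B U x) (fun B C => by simp)]
  rfl

theorem SwD.W (h : SwD e S Sa Sb Sc) (β) (x : Cfg d) :
    S.W β x = Sa.W β (swpr (sj1 e) x) + Sb.W β (swpr (sj2 e) x) + Sc.W β (swpr (sj3 e) x) := by
  have hga : ∀ i j, Sa.g2 i j = S.g2 i j := by
    intro i j
    unfold CS.g2
    rw [h.ga]
  have hgb : ∀ i j, Sb.g2 i j = S.g2 i j := by
    intro i j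
    unfold CS.g2
    rw [h.gb]
  have hgc : ∀ i j, Sc.g2 i j = S.g2 i j := by
    intro i j
    unfold CS.g2
    rw [h.gc]
  unfold Setup.W
  rw [swp_sum e, smul_add, smul_add]
  simp only [h.FF1, h.FF2, h.FF3, h.vec1, h.vec2, h.vec3, hga, hgb, hgc]

theorem SwD.Q (h : SwD e S Sa Sb Sc) (β) (U : Cfg d → F) (x : Cfg d) :
    S.Q β U x =
      ((-Complex.I) • ∑ i, ∑ A, Sa.vec (Sa.g i) A β (pd i (sj1 e A) U x) + Sa.W β (swpr (sj1 e) x) (U x)) +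
      ((-Complex.I) • ∑ i, ∑ A, Sb.vec (Sb.g i) A β (pd i (sj2 e A) U x) + Sb.W β (swpr (sj2 e) x) (U x)) +
      ((-Complex.I) • ∑ i, ∑ A, Sc.vec (Sc.g i) A β (pd i (sj3 e A) U x) + Sc.W β (swpr (sj3 e) x) (U x)) := by
  unfold Setup.Q
  rw [h.W]
  simp only [swp_sum e (fun A => S.vec (S.g _) A β (pd _ A U x)), Finset.sum_add_distrib, smul_add, h.vec1, h.vec2,
    h.vec3, h.ga, h.gb, h.gc, _root_.add_apply]
  abel

end Split

section Prod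

variable {d d1 d3 : ℕ} {F E1 E3 : Type*} [NormedAddCommGroup F] [InnerProductSpace ℂ F] [NormedAddCommGroup E1]
  [InnerProductSpace ℂ E1] [NormedAddCommGroup E3] [InnerProductSpace ℂ E3]

/-- data of the product -/
structure SwT (Sa Sb : Setup d1 F) (Sc : Setup d3 F) (S1 : Setup d1 E1) (S3 : Setup d3 E3) (Ev : Submodule ℂ E1)
    (W : F →L[ℂ] F) (T : E1 →L[ℂ] E1 →L[ℂ] E3 →L[ℂ] F) : Prop where
  g1 : Sa.g = S1.g
  f1 : Sa.f = S1.f
  κ1 : Sa.κ = S1.κ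
  g3 : Sc.g = S3.g
  f3 : Sc.f = S3.f
  κ3 : Sc.κ = S3.κ
  n : ∀ u v k, ‖T u v k‖ = ‖u‖ * ‖v‖ * ‖k‖
  t1 : ∀ u v k α A, Sa.th α A (T u v k) = T (S1.th α A u) v k
  t2 : ∀ u ∈ Ev, ∀ v k α A, Sb.th α A (T u v k) = T u (S1.th α A v) k
  t3 : ∀ u ∈ Ev, ∀ v ∈ Ev, ∀ k α A, Sc.th α A (T u v k) = T u v (S3.th α A k)
  sw : ∀ u ∈ Ev, ∀ v ∈ Ev, ∀ k, W (T u v k) = T v u k

/-- the product profile -/
noncomputable def swU (e : (Fin d1 ⊕ Fin d1) ⊕ Fin d3 ≃ Fin d) (T : E1 →L[ℂ] E1 →L[ℂ] E3 →L[ℂ] F) (a : Cfg d1 → E1)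
    (b : Cfg d1 → E1) (c : Cfg d3 → E3) (x : Cfg d) : F :=
  T (a (swpr (sj1 e) x)) (b (swpr (sj2 e) x)) (c (swpr (sj3 e) x))

theorem swpr_cd {m : ℕ} (j : Fin m → Fin d) : ContDiff ℝ ∞ (fun x : Cfg d => swpr j x) := (swprL j).contDiff

/-- derivative of the product profile -/
theorem swU_pd (e : (Fin d1 ⊕ Fin d1) ⊕ Fin d3 ≃ Fin d) (T : E1 →L[ℂ] E1 →L[ℂ] E3 →L[ℂ] F) (a : Cfg d1 → E1)
    (b : Cfg d1 → E1) (c : Cfg d3 → E3) (ha : Differentiable ℝ a) (hb : Differentiable ℝ b) (hc : Differentiable ℝ c)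
    (x : Cfg d) (i : Fin 9) :
    (∀ A, pd i (sj1 e A) (swU e T a b c) x =
      T (pd i A a (swpr (sj1 e) x)) (b (swpr (sj2 e) x)) (c (swpr (sj3 e) x))) ∧
    (∀ A, pd i (sj2 e A) (swU e T a b c) x =
      T (a (swpr (sj1 e) x)) (pd i A b (swpr (sj2 e) x)) (c (swpr (sj3 e) x))) ∧
    (∀ A, pd i (sj3 e A) (swU e T a b c) x =
      T (a (swpr (sj1 e) x)) (b (swpr (sj2 e) x)) (pd i A c (swpr (sj3 e) x))) := by
  have h1 : HasFDerivAt (fun x => a (swpr (sj1 e) x)) ((fderiv ℝ a (swpr (sj1 e) x)).comp (swprL (sj1 e))) x :=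
    HasFDerivAt.comp (f := fun x => swprL (sj1 e) x) x (ha _).hasFDerivAt (swprL (sj1 e)).hasFDerivAt
  have h2 : HasFDerivAt (fun x => b (swpr (sj2 e) x)) ((fderiv ℝ b (swpr (sj2 e) x)).comp (swprL (sj2 e))) x :=
    HasFDerivAt.comp (f := fun x => swprL (sj2 e) x) x (hb _).hasFDerivAt (swprL (sj2 e)).hasFDerivAt
  have h3 : HasFDerivAt (fun x => c (swpr (sj3 e) x)) ((fderiv ℝ c (swpr (sj3 e) x)).comp (swprL (sj3 e))) x :=
    HasFDerivAt.comp (f := fun x => swprL (sj3 e) x) x (hc _).hasFDerivAt (swprL (sj3 e)).hasFDerivAt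
  have h4 := (T.bilinearRestrictScalars ℝ).hasFDerivAt_of_bilinear h1 h2
  have h5 := ((ContinuousLinearMap.id ℂ (E3 →L[ℂ] F)).bilinearRestrictScalars ℝ).hasFDerivAt_of_bilinear h4 h3
  have h6 : ∀ A, pd i A (swU e T a b c) x =
      T (a (swpr (sj1 e) x)) (b (swpr (sj2 e) x))
        (fderiv ℝ c (swpr (sj3 e) x) (swprL (sj3 e) (EuclideanSpace.single (i, A) 1))) +
      (T (a (swpr (sj1 e) x)) (fderiv ℝ b (swpr (sj2 e) x) (swprL (sj2 e) (EuclideanSpace.single (i, A) 1))) +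
        T (fderiv ℝ a (swpr (sj1 e) x) (swprL (sj1 e) (EuclideanSpace.single (i, A) 1))) (b (swpr (sj2 e) x)))
        (c (swpr (sj3 e) x)) := by
    intro A
    have h7 : fderiv ℝ (swU e T a b c) x = _ := h5.fderiv
    unfold pd
    rw [h7]
    rfl
  refine ⟨fun A => ?_, fun A => ?_, fun A => ?_⟩
  · rw [h6, swprL_same _ (sj_inj1 e), swprL_diff _ _ _ (fun B => (sj12 e A B).symm),
      swprL_diff _ _ _ (fun B => (sj13 e A B).symm)]
    simp only [map_zero, zero_add]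
    rfl
  · rw [h6, swprL_same _ (sj_inj2 e), swprL_diff _ _ _ (fun B => sj12 e B A),
      swprL_diff _ _ _ (fun B => (sj23 e A B).symm)]
    simp only [map_zero, zero_add, _root_.zero_apply, add_zero]
    rfl
  · rw [h6, swprL_same _ (sj_inj3 e), swprL_diff _ _ _ (fun B => sj13 e B A),
      swprL_diff _ _ _ (fun B => sj23 e B A)]
    simp only [map_zero, _root_.zero_apply, add_zero]
    rfl

/-- products of test functions -/
theorem swU_tst (e : (Fin d1 ⊕ Fin d1) ⊕ Fin d3 ≃ Fin d) (T : E1 →L[ℂ] E1 →L[ℂ] E3 →L[ℂ] F) (a : Cfg d1 → E1)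
    (b : Cfg d1 → E1) (c : Cfg d3 → E3) (ha : Setup.Tst a) (hb : Setup.Tst b) (hc : Setup.Tst c) :
    Setup.Tst (swU e T a b c) := by
  constructor
  · have h1 : ContDiff ℝ ∞ (fun x : Cfg d => T (a (swpr (sj1 e) x)) (b (swpr (sj2 e) x))) :=
      ((T.bilinearRestrictScalars ℝ).isBoundedBilinearMap.contDiff).comp
        ((ha.1.comp (swpr_cd (sj1 e))).prodMk (hb.1.comp (swpr_cd (sj2 e))))
    exact (((ContinuousLinearMap.id ℂ (E3 →L[ℂ] F)).bilinearRestrictScalars ℝ).isBoundedBilinearMap.contDiff).comp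
      (h1.prodMk (hc.1.comp (swpr_cd (sj3 e))))
  · obtain ⟨R1, hR1, h1⟩ := ha.2.exists_pos_le_norm
    obtain ⟨R2, hR2, h2⟩ := hb.2.exists_pos_le_norm
    obtain ⟨R3, hR3, h3⟩ := hc.2.exists_pos_le_norm
    refine HasCompactSupport.intro (isCompact_closedBall (0 : Cfg d) (R1 + R2 + R3)) fun x hx => ?_
    rw [mem_closedBall_zero_iff, not_le] at hx
    unfold swU
    by_cases hz1 : R1 ≤ ‖swpr (sj1 e) x‖
    · rw [h1 _ hz1, map_zero]
      rfl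
    · by_cases hz2 : R2 ≤ ‖swpr (sj2 e) x‖
      · rw [h2 _ hz2, map_zero]
        rfl
      · by_cases hz3 : R3 ≤ ‖swpr (sj3 e) x‖
        · rw [h3 _ hz3, map_zero]
        · exfalso
          push Not at hz1 hz2 hz3
          have h4 := swp_norm e x
          have h5 : ‖x‖ ^ 2 ≤ (R1 + R2 + R3) ^ 2 := by
            have a1 : ‖swpr (sj1 e) x‖ ^ 2 ≤ R1 ^ 2 := by
              nlinarith [norm_nonneg (swpr (sj1 e) x)]
            have a2 : ‖swpr (sj2 e) x‖ ^ 2 ≤ R2 ^ 2 := by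
              nlinarith [norm_nonneg (swpr (sj2 e) x)]
            have a3 : ‖swpr (sj3 e) x‖ ^ 2 ≤ R3 ^ 2 := by
              nlinarith [norm_nonneg (swpr (sj3 e) x)]
            have a4 : 0 ≤ R1 * R2 := by positivity
            have a5 : 0 ≤ R1 * R3 := by positivity
            have a6 : 0 ≤ R2 * R3 := by positivity
            nlinarith
          have h6 : ‖x‖ ≤ R1 + R2 + R3 := abs_le_of_sq_le_sq' h5 (by positivity) |>.2
          linarith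

variable {e : (Fin d1 ⊕ Fin d1) ⊕ Fin d3 ≃ Fin d} {S : Setup d F} {Sa Sb : Setup d1 F} {Sc : Setup d3 F}
  {S1 : Setup d1 E1} {S3 : Setup d3 E3} {Ev : Submodule ℂ E1} {W : F →L[ℂ] F} {T : E1 →L[ℂ] E1 →L[ℂ] E3 →L[ℂ] F}

/-- linear map in the first argument -/
noncomputable def swL1 (T : E1 →L[ℂ] E1 →L[ℂ] E3 →L[ℂ] F) (v : E1) (k : E3) : E1 →L[ℂ] F :=
  (ContinuousLinearMap.apply ℂ F k).comp (T.flip v)

/-- linear map in the second argument -/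
noncomputable def swL2 (T : E1 →L[ℂ] E1 →L[ℂ] E3 →L[ℂ] F) (u : E1) (k : E3) : E1 →L[ℂ] F :=
  (ContinuousLinearMap.apply ℂ F k).comp (T u)

theorem swL1_apply (T : E1 →L[ℂ] E1 →L[ℂ] E3 →L[ℂ] F) (v : E1) (k : E3) (u : E1) : swL1 T v k u = T u v k := rfl
theorem swL2_apply (T : E1 →L[ℂ] E1 →L[ℂ] E3 →L[ℂ] F) (u : E1) (k : E3) (v : E1) : swL2 T u k v = T u v k := rfl

/-- supercharge of a product -/
theorem swU_Q (hD : SwD e S Sa Sb Sc) (hT : SwT Sa Sb Sc S1 S3 Ev W T) (β : Fin 16) (a b : Cfg d1 → E1) (c : Cfg d3 → E3)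
    (ha : Differentiable ℝ a) (hb : Differentiable ℝ b) (hc : Differentiable ℝ c) (ea : ∀ y, a y ∈ Ev) (eb : ∀ y, b y ∈ Ev)
    (x : Cfg d) :
    S.Q β (swU e T a b c) x = swU e T (S1.Q β a) b c x + swU e T a (S1.Q β b) c x + swU e T a b (S3.Q β c) x := by
  rw [hD.Q]
  have e1 : Sa.Q β (fun y => swL1 T (b (swpr (sj2 e) x)) (c (swpr (sj3 e) x)) (a y)) (swpr (sj1 e) x) =
      swL1 T (b (swpr (sj2 e) x)) (c (swpr (sj3 e) x)) (S1.Q β a (swpr (sj1 e) x)) :=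
    fube_Q S1 Sa hT.g1 hT.f1 hT.κ1 _ _ (fun α A v => hT.t1 _ _ _ α A) β a _ (ha _)
  have e2 : Sb.Q β (fun y => swL2 T (a (swpr (sj1 e) x)) (c (swpr (sj3 e) x)) (b y)) (swpr (sj2 e) x) =
      swL2 T (a (swpr (sj1 e) x)) (c (swpr (sj3 e) x)) (S1.Q β b (swpr (sj2 e) x)) :=
    fube_Q S1 Sb (hD.gb.trans (hD.ga.symm.trans hT.g1)) (hD.fb.trans hT.f1) (hD.kb.trans (hD.ka.symm.trans hT.κ1)) _ _
      (fun α A v => hT.t2 _ (ea _) _ _ α A) β b _ (hb _)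
  have e3 : Sc.Q β (fun y => T (a (swpr (sj1 e) x)) (b (swpr (sj2 e) x)) (c y)) (swpr (sj3 e) x) =
      T (a (swpr (sj1 e) x)) (b (swpr (sj2 e) x)) (S3.Q β c (swpr (sj3 e) x)) :=
    fube_Q S3 Sc hT.g3 hT.f3 hT.κ3 _ _ (fun α A v => hT.t3 _ (ea _) _ (eb _) _ α A) β c _ (hc _)
  rw [swL1_apply] at e1
  rw [swL2_apply] at e2
  have hp1 := fun i => (swU_pd e T a b c ha hb hc x i).1
  have hp2 := fun i => (swU_pd e T a b c ha hb hc x i).2.1
  have hp3 := fun i => (swU_pd e T a b c ha hb hc x i).2.2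
  simp only [hp1, hp2, hp3]
  have r : ∀ (a b : Cfg d1 → E1) (c : Cfg d3 → E3), swU e T a b c x =
    T (a (swpr (sj1 e) x)) (b (swpr (sj2 e) x)) (c (swpr (sj3 e) x)) := fun _ _ _ => rfl
  simp only [r]
  rw [← e1, ← e2, ← e3]
  congr 1
  · congr 1
    · unfold Setup.Q
      simp only [fube_pd (swL1 T (b (swpr (sj2 e) x)) (c (swpr (sj3 e) x))) a (swpr (sj1 e) x) (ha _)]
      simp only [swL1_apply]
    · unfold Setup.Q
      simp only [fube_pd (swL2 T (a (swpr (sj1 e) x)) (c (swpr (sj3 e) x))) b (swpr (sj2 e) x) (hb _)]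
      simp only [swL2_apply]
  · unfold Setup.Q
    simp only [fube_pd (T (a (swpr (sj1 e) x)) (b (swpr (sj2 e) x))) c (swpr (sj3 e) x) (hc _)]

/-- gauge invariance of a product -/
theorem swU_G (hD : SwD e S Sa Sb Sc) (hT : SwT Sa Sb Sc S1 S3 Ev W T) (a b : Cfg d1 → E1) (c : Cfg d3 → E3)
    (ha : Differentiable ℝ a) (hb : Differentiable ℝ b) (hc : Differentiable ℝ c) (ea : ∀ y, a y ∈ Ev) (eb : ∀ y, b y ∈ Ev)
    (ga : ∀ C y, S1.G C a y = 0) (gb : ∀ C y, S1.G C b y = 0) (gc : ∀ C y, S3.G C c y = 0) (C : Fin d)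
    (x : Cfg d) : S.G C (swU e T a b c) x = 0 := by
  have hp1 := fun i => (swU_pd e T a b c ha hb hc x i).1
  have hp2 := fun i => (swU_pd e T a b c ha hb hc x i).2.1
  have hp3 := fun i => (swU_pd e T a b c ha hb hc x i).2.2
  have r : swU e T a b c x = T (a (swpr (sj1 e) x)) (b (swpr (sj2 e) x)) (c (swpr (sj3 e) x)) := rfl
  obtain ⟨s, rfl⟩ := e.surjective C
  rcases s with (C | C) | C
  · have h1 := hD.G1 C (swU e T a b c) x
    have h0 : S.G (e (Sum.inl (Sum.inl C))) (swU e T a b c) x = S.G (sj1 e C) (swU e T a b c) x := rfl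
    rw [h0, h1]
    have e1 : Sa.G C (fun y => swL1 T (b (swpr (sj2 e) x)) (c (swpr (sj3 e) x)) (a y)) (swpr (sj1 e) x) =
        swL1 T (b (swpr (sj2 e) x)) (c (swpr (sj3 e) x)) (S1.G C a (swpr (sj1 e) x)) :=
      fube_G S1 Sa hT.f1 (swL1 T (b (swpr (sj2 e) x)) (c (swpr (sj3 e) x)))
        (swL1 T (b (swpr (sj2 e) x)) (c (swpr (sj3 e) x))) (fun α A v => hT.t1 _ _ _ α A)
        (fun α A v => hT.t1 _ _ _ α A) C a _ (ha _)
    rw [ga, map_zero] at e1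
    rw [← e1]
    simp only [hp1, r]
    unfold Setup.G
    simp only [fube_pd (swL1 T (b (swpr (sj2 e) x)) (c (swpr (sj3 e) x))) a (swpr (sj1 e) x) (ha _)]
    simp only [swL1_apply]
  · have h1 := hD.G2 C (swU e T a b c) x
    have h0 : S.G (e (Sum.inl (Sum.inr C))) (swU e T a b c) x = S.G (sj2 e C) (swU e T a b c) x := rfl
    rw [h0, h1]
    have e1 : Sb.G C (fun y => swL2 T (a (swpr (sj1 e) x)) (c (swpr (sj3 e) x)) (b y)) (swpr (sj2 e) x) =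
        swL2 T (a (swpr (sj1 e) x)) (c (swpr (sj3 e) x)) (S1.G C b (swpr (sj2 e) x)) :=
      fube_G S1 Sb (hD.fb.trans hT.f1) (swL2 T (a (swpr (sj1 e) x)) (c (swpr (sj3 e) x)))
        (swL2 T (a (swpr (sj1 e) x)) (c (swpr (sj3 e) x))) (fun α A v => hT.t2 _ (ea _) _ _ α A)
        (fun α A v => hT.t2 _ (ea _) _ _ α A) C b _ (hb _)
    rw [gb, map_zero] at e1
    rw [← e1]
    simp only [hp2, r]
    unfold Setup.G
    simp only [fube_pd (swL2 T (a (swpr (sj1 e) x)) (c (swpr (sj3 e) x))) b (swpr (sj2 e) x) (hb _)]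
    simp only [swL2_apply]
  · have h1 := hD.G3 C (swU e T a b c) x
    have h0 : S.G (e (Sum.inr C)) (swU e T a b c) x = S.G (sj3 e C) (swU e T a b c) x := rfl
    rw [h0, h1]
    have e1 : Sc.G C (fun y => T (a (swpr (sj1 e) x)) (b (swpr (sj2 e) x)) (c y)) (swpr (sj3 e) x) =
        T (a (swpr (sj1 e) x)) (b (swpr (sj2 e) x)) (S3.G C c (swpr (sj3 e) x)) :=
      fube_G S3 Sc hT.f3 _ _ (fun α A v => hT.t3 _ (ea _) _ (eb _) _ α A) (fun α A v => hT.t3 _ (ea _) _ (eb _) _ α A)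
        C c _ (hc _)
    rw [gc, map_zero] at e1
    rw [← e1]
    simp only [hp3, r]
    unfold Setup.G
    simp only [fube_pd (T (a (swpr (sj1 e) x)) (b (swpr (sj2 e) x))) c (swpr (sj3 e) x) (hc _)]

theorem swp_sq (a b c s : ℝ) (h0 : 0 ≤ s) (h : s ≤ a + b + c) : s ^ 2 ≤ 3 * (a ^ 2 + b ^ 2 + c ^ 2) := by
  nlinarith [sq_nonneg (a - b), sq_nonneg (b - c), sq_nonneg (a - c)]

theorem swp_add3 {m : ℕ} {X Y Z : Cfg m → ℝ} (hX : Integrable X) (hY : Integrable Y) (hZ : Integrable Z) :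
    (∫ x, X x) + (∫ x, Y x) + ∫ x, Z x = ∫ x, (X x + Y x + Z x) := by
  have h1 := integral_add (hX.add hY) hZ
  simp only [Pi.add_apply] at h1
  rw [h1, integral_add hX hY]

theorem swp_bdd (a f : ℕ → ℝ) (c : ℝ) (h : ∀ n, f n ≤ 2 * a n + c) (ha : Tendsto a atTop (𝓝 0)) :
    ∃ M, 0 ≤ M ∧ ∀ n, f n ≤ M := by
  obtain ⟨B, hB⟩ := ha.bddAbove_range
  refine ⟨max 0 (2 * B + c), le_max_left _ _, fun n => (h n).trans (le_trans ?_ (le_max_right _ _))⟩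
  have h1 : a n ≤ B := hB ⟨n, rfl⟩
  linarith

/-- the exchange of copies preserves the measure -/
theorem swp_mp (e : (Fin d1 ⊕ Fin d1) ⊕ Fin d3 ≃ Fin d) :
    MeasurePreserving (ro (swO e) : Cfg d → Cfg d) volume volume := by
  let L : Cfg d →ₗᵢ[ℝ] Cfg d :=
    { toFun := ro (swO e)
      map_add' := by
        intro x y
        ext p
        simp [ro, mul_add, Finset.sum_add_distrib]
      map_smul' := by
        intro c x
        ext p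
        simp [ro, Finset.mul_sum, mul_left_comm]
      norm_map' := by
        intro x
        change ‖ro (swO e) x‖ = ‖x‖
        have h1 := swp_norm e (ro (swO e) x)
        obtain ⟨r1, r2, r3⟩ := swp_ro e x
        rw [r1, r2, r3, add_comm (‖swpr (sj2 e) x‖ ^ 2), ← swp_norm] at h1
        exact (sq_eq_sq₀ (norm_nonneg _) (norm_nonneg _)).1 h1 }
  exact (L.toLinearIsometryEquiv rfl).measurePreserving

/-- square integrals of approximants -/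
theorem swp_apx {m : ℕ} {E : Type*} [NormedAddCommGroup E] [InnerProductSpace ℂ E] (Φ : Lp E 2 (volume : Measure (Cfg m)))
    (c : Cfg m → E) (hc : Setup.Tst c) : Integrable (fun y => ‖c y‖ ^ 2) ∧ Integrable (fun y => ‖c y - Φ y‖ ^ 2) ∧
      ∫ y, ‖c y‖ ^ 2 ≤ 2 * (∫ y, ‖c y - Φ y‖ ^ 2) + 2 * ∫ y, ‖Φ y‖ ^ 2 := by
  have ic : Integrable (fun y => ‖c y‖ ^ 2) := AE.trf_int volume c hc.1.continuous hc.2
  have iΦ := fube_lpi Φ
  have mc : MemLp c 2 (volume : Measure (Cfg m)) :=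
    (memLp_two_iff_integrable_sq_norm hc.1.continuous.aestronglyMeasurable).2 ic
  have icΦ : Integrable (fun y => ‖c y - Φ y‖ ^ 2) :=
    (memLp_two_iff_integrable_sq_norm (mc.sub (Lp.memLp Φ)).1).1 (mc.sub (Lp.memLp Φ))
  refine ⟨ic, icΦ, ?_⟩
  rw [← integral_const_mul, ← integral_const_mul, ← integral_add (icΦ.const_mul 2) (iΦ.const_mul 2)]
  refine integral_mono ic ((icΦ.const_mul 2).add (iΦ.const_mul 2)) fun y => ?_
  change ‖c y‖ ^ 2 ≤ 2 * ‖c y - Φ y‖ ^ 2 + 2 * ‖Φ y‖ ^ 2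
  have h1 : ‖c y‖ ≤ ‖c y - Φ y‖ + ‖Φ y‖ := by
    simpa using norm_add_le (c y - Φ y) (Φ y)
  exact fube_sq _ _ _ (norm_nonneg _) h1

/-- **core of S16**: the symmetric product of zero modes is a zero mode -/
theorem swp_core (hD : SwD e S Sa Sb Sc) (hT : SwT Sa Sb Sc S1 S3 Ev W T) (φ0 : Lp E1 2 (volume : Measure (Cfg d1)))
    (φ : ℕ → Cfg d1 → E1) (hφ : S1.Apx φ0 φ) (hφE : ∀ n y, φ n y ∈ Ev)
    (hφ0 : ∀ᵐ y ∂(volume : Measure (Cfg d1)), φ0 y ∈ Ev) (hφn : φ0 ≠ 0) (k0 : Lp E3 2 (volume : Measure (Cfg d3)))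
    (kk : ℕ → Cfg d3 → E3) (hk : S3.Apx k0 kk) (hkn : k0 ≠ 0) :
    ∃ Ψ : Lp F 2 (volume : Measure (Cfg d)), S.IsZM Ψ ∧ Ψ ≠ 0 ∧
      ∀ᵐ x ∂(volume : Measure (Cfg d)), W (Ψ x) = Ψ (ro (swO e) x) := by
  obtain ⟨hu1, hu2, hu3, hu4⟩ := hφ
  obtain ⟨hc1, hc2, hc3, hc4⟩ := hk
  have hud : ∀ n, Differentiable ℝ (φ n) := fun n => (hu1 n).1.differentiable (by simp)
  have hcd : ∀ n, Differentiable ℝ (kk n) := fun n => (hc1 n).1.differentiable (by simp)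
  have aφ := fun n => swp_apx φ0 (φ n) (hu1 n)
  have ak := fun n => swp_apx k0 (kk n) (hc1 n)
  have iφ0 := fube_lpi φ0
  have ik0 := fube_lpi k0
  have iQφ : ∀ β n, Integrable (fun y => ‖S1.Q β (φ n) y‖ ^ 2) := fun β n =>
    AE.trf_int volume _ (Setup.Tst.Q S1 (hu1 n) β).1.continuous (Setup.Tst.Q S1 (hu1 n) β).2
  have iQk : ∀ β n, Integrable (fun y => ‖S3.Q β (kk n) y‖ ^ 2) := fun β n =>
    AE.trf_int volume _ (Setup.Tst.Q S3 (hc1 n) β).1.continuous (Setup.Tst.Q S3 (hc1 n) β).2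
  have n2 : ∀ u v k, ‖T u v k‖ ^ 2 = ‖u‖ ^ 2 * ‖v‖ ^ 2 * ‖k‖ ^ 2 := by
    intro u v k
    rw [hT.n]
    ring
  -- nonnegativity
  have pφ : 0 ≤ ∫ y, ‖φ0 y‖ ^ 2 := integral_nonneg fun y => by positivity
  have pk : 0 ≤ ∫ y, ‖k0 y‖ ^ 2 := integral_nonneg fun y => by positivity
  have pφn : ∀ n, 0 ≤ ∫ y, ‖φ n y‖ ^ 2 := fun n => integral_nonneg fun y => by positivity
  have pkn : ∀ n, 0 ≤ ∫ y, ‖kk n y‖ ^ 2 := fun n => integral_nonneg fun y => by positivity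
  have pdφ : ∀ n, 0 ≤ ∫ y, ‖φ n y - φ0 y‖ ^ 2 := fun n => integral_nonneg fun y => by positivity
  have pdk : ∀ n, 0 ≤ ∫ y, ‖kk n y - k0 y‖ ^ 2 := fun n => integral_nonneg fun y => by positivity
  have pQφ : ∀ β n, 0 ≤ ∫ y, ‖S1.Q β (φ n) y‖ ^ 2 := fun β n => integral_nonneg fun y => by positivity
  have pQk : ∀ β n, 0 ≤ ∫ y, ‖S3.Q β (kk n) y‖ ^ 2 := fun β n => integral_nonneg fun y => by positivity
  -- the limit function
  let P : Cfg d → F := swU e T φ0 φ0 k0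
  have m1 : AEStronglyMeasurable (fun x : Cfg d => φ0 (swpr (sj1 e) x)) volume :=
    (Lp.aestronglyMeasurable φ0).comp_quasiMeasurePreserving (swp_q1 e)
  have m2 : AEStronglyMeasurable (fun x : Cfg d => φ0 (swpr (sj2 e) x)) volume :=
    (Lp.aestronglyMeasurable φ0).comp_quasiMeasurePreserving (swp_q2 e)
  have m3 : AEStronglyMeasurable (fun x : Cfg d => k0 (swpr (sj3 e) x)) volume :=
    (Lp.aestronglyMeasurable k0).comp_quasiMeasurePreserving (swp_q3 e)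
  have m4 : AEStronglyMeasurable P volume :=
    (ContinuousLinearMap.id ℂ (E3 →L[ℂ] F)).aestronglyMeasurable_comp₂ (T.aestronglyMeasurable_comp₂ m1 m2) m3
  have hPm : MemLp P 2 volume := by
    rw [memLp_two_iff_integrable_sq_norm m4]
    exact (swp_itg e _ _ _ iφ0 iφ0 ik0).congr (Eventually.of_forall fun x => (n2 _ _ _).symm)
  have hro : Measure.QuasiMeasurePreserving (ro (swO e) : Cfg d → Cfg d) volume volume :=
    (swp_mp e).quasiMeasurePreserving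
  obtain ⟨Mφ, hM0, hMφ⟩ := swp_bdd _ _ _ (fun n => (aφ n).2.2) hu3
  obtain ⟨Mk, hK0, hMk⟩ := swp_bdd _ _ _ (fun n => (ak n).2.2) hc3
  refine ⟨hPm.toLp P, ⟨fun n => swU e T (φ n) (φ n) (kk n), fun n => swU_tst e T _ _ _ (hu1 n) (hu1 n) (hc1 n),
    fun n C x => swU_G hD hT (φ n) (φ n) (kk n) (hud n) (hud n) (hcd n) (hφE n) (hφE n) (hu2 n) (hu2 n) (hc2 n) C x,
    ?_, ?_⟩, ?_, ?_⟩
  · have hb : ∀ n, ∫ x, ‖swU e T (φ n) (φ n) (kk n) x - (hPm.toLp P : Lp F 2 (volume : Measure (Cfg d))) x‖ ^ 2 ≤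
        3 * ((∫ y, ‖φ n y - φ0 y‖ ^ 2) * (∫ y, ‖φ n y‖ ^ 2) * (∫ y, ‖kk n y‖ ^ 2) +
          (∫ y, ‖φ0 y‖ ^ 2) * (∫ y, ‖φ n y - φ0 y‖ ^ 2) * (∫ y, ‖kk n y‖ ^ 2) +
          (∫ y, ‖φ0 y‖ ^ 2) * (∫ y, ‖φ0 y‖ ^ 2) * (∫ y, ‖kk n y - k0 y‖ ^ 2)) := by
      intro n
      have j1 := swp_itg e _ _ _ (aφ n).2.1 (aφ n).1 (ak n).1
      have j2 := swp_itg e _ _ _ iφ0 (aφ n).2.1 (ak n).1
      have j3 := swp_itg e _ _ _ iφ0 iφ0 (ak n).2.1
      rw [← swp_int e (fun y => ‖φ n y - φ0 y‖ ^ 2) (fun y => ‖φ n y‖ ^ 2) (fun y => ‖kk n y‖ ^ 2),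
        ← swp_int e (fun y => ‖φ0 y‖ ^ 2) (fun y => ‖φ n y - φ0 y‖ ^ 2) (fun y => ‖kk n y‖ ^ 2),
        ← swp_int e (fun y => ‖φ0 y‖ ^ 2) (fun y => ‖φ0 y‖ ^ 2) (fun y => ‖kk n y - k0 y‖ ^ 2),
        swp_add3 j1 j2 j3, ← integral_const_mul]
      refine integral_mono_of_nonneg (Eventually.of_forall fun x => by positivity) (((j1.add j2).add j3).const_mul 3) ?_
      filter_upwards [hPm.coeFn_toLp] with x hx
      rw [hx]
      have e1 : swU e T (φ n) (φ n) (kk n) x - P x =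
          T (φ n (swpr (sj1 e) x) - φ0 (swpr (sj1 e) x)) (φ n (swpr (sj2 e) x)) (kk n (swpr (sj3 e) x)) +
          T (φ0 (swpr (sj1 e) x)) (φ n (swpr (sj2 e) x) - φ0 (swpr (sj2 e) x)) (kk n (swpr (sj3 e) x)) +
          T (φ0 (swpr (sj1 e) x)) (φ0 (swpr (sj2 e) x)) (kk n (swpr (sj3 e) x) - k0 (swpr (sj3 e) x)) := by
        have e0 : swU e T (φ n) (φ n) (kk n) x =
          T (φ n (swpr (sj1 e) x)) (φ n (swpr (sj2 e) x)) (kk n (swpr (sj3 e) x)) := rfl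
        have e0' : P x = T (φ0 (swpr (sj1 e) x)) (φ0 (swpr (sj2 e) x)) (k0 (swpr (sj3 e) x)) := rfl
        rw [e0, e0']
        simp only [map_sub, _root_.sub_apply]
        abel
      have e2 := norm_add₃_le (a := T (φ n (swpr (sj1 e) x) - φ0 (swpr (sj1 e) x)) (φ n (swpr (sj2 e) x)) (kk n (swpr (sj3 e) x)))
        (b := T (φ0 (swpr (sj1 e) x)) (φ n (swpr (sj2 e) x) - φ0 (swpr (sj2 e) x)) (kk n (swpr (sj3 e) x)))
        (c := T (φ0 (swpr (sj1 e) x)) (φ0 (swpr (sj2 e) x)) (kk n (swpr (sj3 e) x) - k0 (swpr (sj3 e) x)))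
      rw [← e1] at e2
      have e3 := swp_sq _ _ _ _ (norm_nonneg _) e2
      rw [n2, n2, n2] at e3
      exact e3
    refine squeeze_zero (fun n => integral_nonneg fun x => by positivity) (fun n => (hb n).trans ?_) (?_ : Tendsto (fun n =>
      3 * ((∫ y, ‖φ n y - φ0 y‖ ^ 2) * Mφ * Mk + (∫ y, ‖φ0 y‖ ^ 2) * (∫ y, ‖φ n y - φ0 y‖ ^ 2) * Mk +
        (∫ y, ‖φ0 y‖ ^ 2) * (∫ y, ‖φ0 y‖ ^ 2) * (∫ y, ‖kk n y - k0 y‖ ^ 2))) atTop (𝓝 0))
    · have a1 := pdφ n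
      have a2 := hMφ n
      have a3 := hMk n
      have a4 := pφn n
      have a5 := pkn n
      gcongr
    · have h2 := ((((hu3.mul_const Mφ).mul_const Mk).add ((hu3.const_mul (∫ y, ‖φ0 y‖ ^ 2)).mul_const Mk)).add
        (hc3.const_mul ((∫ y, ‖φ0 y‖ ^ 2) * (∫ y, ‖φ0 y‖ ^ 2)))).const_mul 3
      simpa using h2
  · intro β
    have hb : ∀ n, ∫ x, ‖S.Q β (swU e T (φ n) (φ n) (kk n)) x‖ ^ 2 ≤
        3 * ((∫ y, ‖S1.Q β (φ n) y‖ ^ 2) * (∫ y, ‖φ n y‖ ^ 2) * (∫ y, ‖kk n y‖ ^ 2) +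
          (∫ y, ‖φ n y‖ ^ 2) * (∫ y, ‖S1.Q β (φ n) y‖ ^ 2) * (∫ y, ‖kk n y‖ ^ 2) +
          (∫ y, ‖φ n y‖ ^ 2) * (∫ y, ‖φ n y‖ ^ 2) * (∫ y, ‖S3.Q β (kk n) y‖ ^ 2)) := by
      intro n
      have j1 := swp_itg e _ _ _ (iQφ β n) (aφ n).1 (ak n).1
      have j2 := swp_itg e _ _ _ (aφ n).1 (iQφ β n) (ak n).1
      have j3 := swp_itg e _ _ _ (aφ n).1 (aφ n).1 (iQk β n)
      rw [← swp_int e (fun y => ‖S1.Q β (φ n) y‖ ^ 2) (fun y => ‖φ n y‖ ^ 2) (fun y => ‖kk n y‖ ^ 2),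
        ← swp_int e (fun y => ‖φ n y‖ ^ 2) (fun y => ‖S1.Q β (φ n) y‖ ^ 2) (fun y => ‖kk n y‖ ^ 2),
        ← swp_int e (fun y => ‖φ n y‖ ^ 2) (fun y => ‖φ n y‖ ^ 2) (fun y => ‖S3.Q β (kk n) y‖ ^ 2),
        swp_add3 j1 j2 j3, ← integral_const_mul]
      refine integral_mono_of_nonneg (Eventually.of_forall fun x => by positivity) (((j1.add j2).add j3).const_mul 3)
        (Eventually.of_forall fun x => ?_)
      have e1 := swU_Q hD hT β (φ n) (φ n) (kk n) (hud n) (hud n) (hcd n) (hφE n) (hφE n) x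
      have e2 := norm_add₃_le (a := swU e T (S1.Q β (φ n)) (φ n) (kk n) x) (b := swU e T (φ n) (S1.Q β (φ n)) (kk n) x)
        (c := swU e T (φ n) (φ n) (S3.Q β (kk n)) x)
      rw [← e1] at e2
      have e3 := swp_sq _ _ _ _ (norm_nonneg _) e2
      unfold swU at e3
      rw [n2, n2, n2] at e3
      exact e3
    refine squeeze_zero (fun n => integral_nonneg fun x => by positivity) (fun n => (hb n).trans ?_) (?_ : Tendsto (fun n =>
      3 * ((∫ y, ‖S1.Q β (φ n) y‖ ^ 2) * Mφ * Mk + Mφ * (∫ y, ‖S1.Q β (φ n) y‖ ^ 2) * Mk +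
        Mφ * Mφ * (∫ y, ‖S3.Q β (kk n) y‖ ^ 2))) atTop (𝓝 0))
    · have a1 := pQφ β n
      have a2 := hMφ n
      have a3 := hMk n
      have a4 := pφn n
      have a5 := pkn n
      have a6 := pQk β n
      gcongr
    · have h2 := (((((hu4 β).mul_const Mφ).mul_const Mk).add (((hu4 β).const_mul Mφ).mul_const Mk)).add
        ((hc4 β).const_mul (Mφ * Mφ))).const_mul 3
      simpa using h2
  · intro h0
    have h1 : ∀ᵐ x ∂(volume : Measure (Cfg d)),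
        ‖φ0 (swpr (sj1 e) x)‖ ^ 2 * ‖φ0 (swpr (sj2 e) x)‖ ^ 2 * ‖k0 (swpr (sj3 e) x)‖ ^ 2 = 0 := by
      have h2 : (hPm.toLp P : Lp F 2 (volume : Measure (Cfg d))) =ᵐ[volume] 0 := by
        rw [h0]
        exact Lp.coeFn_zero F 2 volume
      filter_upwards [hPm.coeFn_toLp, h2] with x e2 e3
      rw [← n2]
      change ‖P x‖ ^ 2 = 0
      rw [← e2, e3]
      simp
    have h3 : ∫ x : Cfg d, ‖φ0 (swpr (sj1 e) x)‖ ^ 2 * ‖φ0 (swpr (sj2 e) x)‖ ^ 2 * ‖k0 (swpr (sj3 e) x)‖ ^ 2 = 0 :=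
      integral_eq_zero_of_ae h1
    rw [swp_int e (fun y => ‖φ0 y‖ ^ 2) (fun y => ‖φ0 y‖ ^ 2) (fun y => ‖k0 y‖ ^ 2)] at h3
    rcases mul_eq_zero.1 h3 with h4 | h4
    · rcases mul_eq_zero.1 h4 with h5 | h5
      · exact hφn (fube_lpz φ0 h5)
      · exact hφn (fube_lpz φ0 h5)
    · exact hkn (fube_lpz k0 h4)
  · have h1 := hPm.coeFn_toLp
    have h2 : ∀ᵐ x ∂(volume : Measure (Cfg d)), (hPm.toLp P : Lp F 2 (volume : Measure (Cfg d))) (ro (swO e) x) =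
        P (ro (swO e) x) := hro.ae h1
    filter_upwards [h1, h2, (swp_q1 e).ae hφ0, (swp_q2 e).ae hφ0] with x e1 e2 e3 e4
    rw [e1, e2]
    obtain ⟨r1, r2, r3⟩ := swp_ro e x
    change W (T (φ0 (swpr (sj1 e) x)) (φ0 (swpr (sj2 e) x)) (k0 (swpr (sj3 e) x))) =
      T (φ0 (swpr (sj1 e) (ro (swO e) x))) (φ0 (swpr (sj2 e) (ro (swO e) x))) (k0 (swpr (sj3 e) (ro (swO e) x)))
    rw [r1, r2, r3, hT.sw _ e3 _ e4]

end Prod

section Mk

variable {d d1 d3 : ℕ} {F : Type*} [NormedAddCommGroup F] [InnerProductSpace ℂ F]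

/-- continuous version of a trilinear map on subspaces -/
theorem swp_ct [FiniteDimensional ℂ F] (τ : F →ₗ[ℂ] F →ₗ[ℂ] F →ₗ[ℂ] F) (E1 E3 : Submodule ℂ F) :
    ∃ T : E1 →L[ℂ] E1 →L[ℂ] E3 →L[ℂ] F, ∀ u v k, T u v k = τ u v k := by
  let T2 : E1 → (E1 →L[ℂ] E3 →L[ℂ] F) := fun u => LinearMap.toContinuousLinearMap
    { toFun := fun v => LinearMap.toContinuousLinearMap ((τ u v).domRestrict E3)
      map_add' := by
        intro a b
        ext k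
        simp
      map_smul' := by
        intro c a
        ext k
        simp }
  have h2 : ∀ u v k, T2 u v k = τ u v k := fun _ _ _ => rfl
  refine ⟨LinearMap.toContinuousLinearMap
    { toFun := T2
      map_add' := by
        intro a b
        ext v k
        simp [h2]
      map_smul' := by
        intro c a
        ext v k
        simp [h2] }, fun u v k => rfl⟩

/-- restriction of a setup to an ideal of colours -/
theorem swp_setup (S : Setup d F) {m : ℕ} (j : Fin m → Fin d) (hj : Function.Injective j) (f' : Fin m → Fin m → Fin m → ℝ)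
    (hf : ∀ A B C, S.f (j A) (j B) (j C) = f' A B C) (h0 : ∀ A B E, (∀ C, j C ≠ E) → S.f (j A) (j B) E = 0) :
    ∃ S' : Setup m F, S'.f = f' ∧ S'.κ = S.κ ∧ S'.g = S.g ∧ ∀ α A, S'.th α A = S.th α (j A) :=
  ⟨{ g := S.g
     g_symm := S.g_symm
     g_anti := S.g_anti
     th := fun α A => S.th α (j A)
     th_anti := by
       intro α A β B
       rw [S.th_anti]
       simp only [hj.eq_iff]
     κ := S.κ
     κ_pos := S.κ_pos
     f := f'
     f_swap := by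
       intro A B C
       rw [← hf, ← hf]
       exact S.f_swap _ _ _
     f_cyc := by
       intro A B C
       rw [← hf, ← hf]
       exact S.f_cyc _ _ _
     f_jac := by
       intro A B C D
       have h1 := S.f_jac (j A) (j B) (j C) (j D)
       rw [← h1]
       refine Fintype.sum_of_injective j hj _ _ (fun E hE => ?_) (fun E => ?_)
       · have hE' : ∀ C, j C ≠ E := fun C hC => hE ⟨C, hC⟩
         rw [h0 _ _ _ hE', h0 _ _ _ hE', h0 _ _ _ hE']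
         ring
       · simp only [← hf]
     g_real := S.g_real
     th_sa := fun α A v w => S.th_sa α _ v w }, rfl, rfl, rfl, fun _ _ => rfl⟩

/-- existence of the splitting data -/
theorem swp_mk (e : (Fin d1 ⊕ Fin d1) ⊕ Fin d3 ≃ Fin d) (S : Setup d F) (f1 : Fin d1 → Fin d1 → Fin d1 → ℝ)
    (f3 : Fin d3 → Fin d3 → Fin d3 → ℝ) (h : Dbl e S.f f1 f3) :
    ∃ (Sa Sb : Setup d1 F) (Sc : Setup d3 F), SwD e S Sa Sb Sc ∧ Sa.f = f1 ∧ Sb.f = f1 ∧ Sc.f = f3 := by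
  have cov : ∀ E : Fin d, (∃ A, sj1 e A = E) ∨ (∃ A, sj2 e A = E) ∨ ∃ A, sj3 e A = E := by
    intro E
    obtain ⟨s, rfl⟩ := e.surjective E
    rcases s with (A | A) | A
    · exact Or.inl ⟨A, rfl⟩
    · exact Or.inr (Or.inl ⟨A, rfl⟩)
    · exact Or.inr (Or.inr ⟨A, rfl⟩)
  obtain ⟨Sa, a1, a2, a3, a4⟩ := swp_setup S (sj1 e) (sj_inj1 e) f1 h.a1 (by
    intro A B E hE
    refine h.mix _ _ _ fun hh => ?_
    rcases cov E with ⟨C, rfl⟩ | ⟨C, rfl⟩ | ⟨C, rfl⟩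
    · exact hE C rfl
    · simp [tag1, tag2] at hh
    · simp [tag1, tag3] at hh)
  obtain ⟨Sb, b1, b2, b3, b4⟩ := swp_setup S (sj2 e) (sj_inj2 e) f1 h.a2 (by
    intro A B E hE
    refine h.mix _ _ _ fun hh => ?_
    rcases cov E with ⟨C, rfl⟩ | ⟨C, rfl⟩ | ⟨C, rfl⟩
    · simp [tag2, tag1] at hh
    · exact hE C rfl
    · simp [tag2, tag3] at hh)
  obtain ⟨Sc, c1, c2, c3, c4⟩ := swp_setup S (sj3 e) (sj_inj3 e) f3 h.a3 (by
    intro A B E hE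
    refine h.mix _ _ _ fun hh => ?_
    rcases cov E with ⟨C, rfl⟩ | ⟨C, rfl⟩ | ⟨C, rfl⟩
    · simp [tag3, tag1] at hh
    · simp [tag3, tag2] at hh
    · exact hE C rfl)
  refine ⟨Sa, Sb, Sc, ⟨?_, b1.trans a1.symm, a2, b2, c2, a3, b3, c3, a4, b4, c4⟩, a1, b1, c1⟩
  rw [a1, c1]
  exact h

end Mk

end Vale.Agent.P353.Z.AS
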