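import Vale.Agent.P353.AN.SGN.SwpT
import Vale.Agent.P353.AN.X2.VcaIrr

open MeasureTheory Filter Topology Matrix
open scoped ContDiff

namespace Vale.Agent.P353.Z.AS

universe u

section Lim

variable {m : ℕ} {V : Type*} [NormedAddCommGroup V] [InnerProductSpace ℂ V]

theorem sa_i1 {w : Cfg m → V} (hw : Setup.Tst w) (Ψ : Lp V 2 (volume : Measure (Cfg m))) :
    Integrable fun y => ‖w y - Ψ y‖ ^ 2 := by
  have m2 : MemLp (fun x => w x - Ψ x) 2 (volume : Measure (Cfg m)) := hw.memLp.sub (Lp.memLp Ψ)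
  exact m2.integrable_norm_pow (by norm_num)

theorem sa_i2 (Ψ : Lp V 2 (volume : Measure (Cfg m))) : Integrable fun y => ‖Ψ y‖ ^ 2 :=
  (Lp.memLp Ψ).integrable_norm_pow (by norm_num)

theorem sa_bdd {w : ℕ → Cfg m → V} (hw : ∀ n, Setup.Tst (w n)) (Ψ : Lp V 2 (volume : Measure (Cfg m)))
    (h : Tendsto (fun n => ∫ y, ‖w n y - Ψ y‖ ^ 2) atTop (𝓝 0)) : ∃ C : ℝ, 0 ≤ C ∧ ∀ n, ∫ y, ‖w n y‖ ^ 2 ≤ C := by
  obtain ⟨B, hB⟩ := h.bddAbove_range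
  have hB' : ∀ n, ∫ y, ‖w n y - Ψ y‖ ^ 2 ≤ B := fun n => hB ⟨n, rfl⟩
  have hb : ∀ n, ∫ y, ‖w n y‖ ^ 2 ≤ 2 * B + 2 * ∫ y, ‖Ψ y‖ ^ 2 := by
    intro n
    calc ∫ y, ‖w n y‖ ^ 2 ≤ ∫ y, (2 * ‖w n y - Ψ y‖ ^ 2 + 2 * ‖Ψ y‖ ^ 2) := by
          refine integral_mono (hw n).norm_sq_int (((sa_i1 (hw n) Ψ).const_mul 2).add ((sa_i2 Ψ).const_mul 2)) fun y => ?_
          have h1 : ‖w n y‖ ≤ ‖w n y - Ψ y‖ + ‖Ψ y‖ := by
            have := norm_add_le (w n y - Ψ y) (Ψ y)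
            rwa [sub_add_cancel] at this
          change ‖w n y‖ ^ 2 ≤ 2 * ‖w n y - Ψ y‖ ^ 2 + 2 * ‖Ψ y‖ ^ 2
          nlinarith [norm_nonneg (w n y), norm_nonneg (w n y - Ψ y), norm_nonneg (Ψ y),
            sq_nonneg (‖w n y - Ψ y‖ - ‖Ψ y‖)]
      _ = 2 * (∫ y, ‖w n y - Ψ y‖ ^ 2) + 2 * ∫ y, ‖Ψ y‖ ^ 2 := by
          rw [integral_add ((sa_i1 (hw n) Ψ).const_mul 2) ((sa_i2 Ψ).const_mul 2), integral_const_mul, integral_const_mul]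
      _ ≤ 2 * B + 2 * ∫ y, ‖Ψ y‖ ^ 2 := by
          have := hB' n
          linarith
  refine ⟨2 * B + 2 * ∫ y, ‖Ψ y‖ ^ 2, ?_, hb⟩
  exact le_trans (integral_nonneg fun _ => by positivity) (hb 0)

theorem sa_l3 {A X Y : ℕ → ℝ} {C D : ℝ} (hA : Tendsto A atTop (𝓝 0)) (hA0 : ∀ n, 0 ≤ A n) (hX0 : ∀ n, 0 ≤ X n)
    (hY0 : ∀ n, 0 ≤ Y n) (hX : ∀ n, X n ≤ C) (hY : ∀ n, Y n ≤ D) : Tendsto (fun n => A n * (X n * Y n)) atTop (𝓝 0) := by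
  have hC : 0 ≤ C := (hX0 0).trans (hX 0)
  refine squeeze_zero (fun n => mul_nonneg (hA0 n) (mul_nonneg (hX0 n) (hY0 n))) (fun n => ?_)
    (by simpa using hA.mul_const (C * D))
  exact mul_le_mul_of_nonneg_left (mul_le_mul (hX n) (hY n) (hY0 n) hC) (hA0 n)

theorem sa_n3 {G : Type*} [NormedAddCommGroup G] (p q r : G) :
    ‖p + q + r‖ ^ 2 ≤ 3 * (‖p‖ ^ 2 + ‖q‖ ^ 2 + ‖r‖ ^ 2) := by
  have h1 : ‖p + q + r‖ ≤ ‖p‖ + ‖q‖ + ‖r‖ := norm_add₃_le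
  have h2 : ‖p + q + r‖ ^ 2 ≤ (‖p‖ + ‖q‖ + ‖r‖) ^ 2 := pow_le_pow_left₀ (norm_nonneg _) h1 2
  nlinarith [sq_nonneg (‖p‖ - ‖q‖), sq_nonneg (‖q‖ - ‖r‖), sq_nonneg (‖p‖ - ‖r‖)]

/-- even approximants -/
theorem sa_even (Sa : Setup m V) (P1 : V →L[ℂ] V) (hP1 : ∀ α A v, P1 (Sa.th α A v) = -Sa.th α A (P1 v))
    (hPP : ∀ v, P1 (P1 v) = v) (hPn : ∀ v, ‖P1 v‖ = ‖v‖) {Φ : Lp V 2 (volume : Measure (Cfg m))} (hz : Sa.IsZM Φ)
    (hev : ∀ᵐ y ∂(volume : Measure (Cfg m)), P1 (Φ y) = Φ y) :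
    ∃ a : ℕ → Cfg m → V, Sa.Apx Φ a ∧ ∀ n y, P1 (a n y) = a n y := by
  obtain ⟨w, hT, hG, hL, hQ⟩ := hz
  let L : V →L[ℂ] V := (1 / 2 : ℂ) • (1 + P1)
  let L' : V →L[ℂ] V := (1 / 2 : ℂ) • (1 - P1)
  have hL1 : ∀ v, L v = (1 / 2 : ℂ) • (v + P1 v) := fun v => rfl
  have hL2 : ∀ v, L' v = (1 / 2 : ℂ) • (v - P1 v) := fun v => rfl
  have hn1 : ∀ v, ‖L v‖ ≤ ‖v‖ := by
    intro v
    rw [hL1, norm_smul]
    have h1 := norm_add_le v (P1 v)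
    rw [hPn] at h1
    have h2 : ‖(1 / 2 : ℂ)‖ = 1 / 2 := by norm_num
    rw [h2]
    linarith
  have hn2 : ∀ v, ‖L' v‖ ≤ ‖v‖ := by
    intro v
    rw [hL2, norm_smul]
    have h1 := norm_sub_le v (P1 v)
    rw [hPn] at h1
    have h2 : ‖(1 / 2 : ℂ)‖ = 1 / 2 := by norm_num
    rw [h2]
    linarith
  have ht1 : ∀ α A v, Sa.th α A (L v) = L' (Sa.th α A v) := by
    intro α A v
    rw [hL1, hL2, hP1, map_smul, map_add, sub_neg_eq_add]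
  have ht2 : ∀ α A v, Sa.th α A (L' v) = L (Sa.th α A v) := by
    intro α A v
    rw [hL1, hL2, hP1, map_smul, map_sub, ← sub_eq_add_neg]
  refine ⟨fun n y => L (w n y), ⟨fun n => Setup.Tst.clm contDiff_const (hT n), fun n C x => ?_, ?_, fun β => ?_⟩, fun n y => ?_⟩
  · rw [AX2.fube_G Sa Sa rfl L L' ht1 ht2 C (w n) x ((hT n).1.differentiable (by simp) x), hG, map_zero]
  · refine squeeze_zero (fun n => integral_nonneg fun _ => by positivity) (fun n => ?_) hL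
    refine integral_mono_of_nonneg (Eventually.of_forall fun _ => by positivity) (sa_i1 (hT n) Φ) ?_
    filter_upwards [hev] with y hy
    have h1 : L (w n y) - Φ y = L (w n y - Φ y) := by
      have h2 : L (Φ y) = Φ y := by
        rw [hL1, hy, ← two_smul ℂ, smul_smul]
        norm_num
      rw [map_sub, h2]
    rw [h1]
    exact pow_le_pow_left₀ (norm_nonneg _) (hn1 _) 2
  · refine squeeze_zero (fun n => integral_nonneg fun _ => by positivity) (fun n => ?_) (hQ β)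
    refine integral_mono_of_nonneg (Eventually.of_forall fun _ => by positivity) ((hT n).Q Sa β).norm_sq_int
      (Eventually.of_forall fun x => ?_)
    simp only
    rw [AX2.fube_Q Sa Sa rfl rfl rfl L L' ht1 β (w n) x ((hT n).1.differentiable (by simp) x)]
    exact pow_le_pow_left₀ (norm_nonneg _) (hn2 _) 2
  · simp only
    rw [hL1, map_smul, map_add, hPP, add_comm]

end Lim

section Core

variable {d d1 d3 : ℕ} {E : Type*} [NormedAddCommGroup E] [InnerProductSpace ℂ E]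

/-- data of the product construction -/
structure SaC (e : (Fin d1 ⊕ Fin d1) ⊕ Fin d3 ≃ Fin d) (S : Setup d E) (S1 S2 : Setup d1 E) (S3 : Setup d3 E)
    (V1 V3 : Submodule ℂ E) (W P : E →L[ℂ] E) (τ : E →ₗ[ℂ] E →ₗ[ℂ] E →ₗ[ℂ] E) : Prop where
  F1 : AX2.FuS S S1 (sa1 e)
  F2 : AX2.FuS S S2 (sa1 (saE e))
  F3 : AX2.FuS S S3 (sa3 e)
  f2 : S2.f = S1.f
  i1 : ∀ α A, ∀ v ∈ V1, S1.th α A v ∈ V1
  i3 : ∀ α A, ∀ v ∈ V3, S3.th α A v ∈ V3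
  nrm : TrN τ V1 V3
  t1 : ∀ (u u' : V1) (k : V3) (α : Fin 16) (A : Fin d1), S1.th α A (τ u u' k) = τ (S1.th α A u) u' k
  t2 : ∀ (u u' : V1) (k : V3) (α : Fin 16) (A : Fin d1), P u = u → S2.th α A (τ u u' k) = τ u (S1.th α A u') k
  t3 : ∀ (u u' : V1) (k : V3) (α : Fin 16) (A : Fin d3), P u = u → P u' = u' →
    S3.th α A (τ u u' k) = τ u u' (S3.th α A k)
  sw : ∀ (u u' : V1) (k : V3), P u = u → P u' = u' → W (τ u u' k) = τ u' u k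

end Core

end Vale.Agent.P353.Z.AS
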