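import Vale.Agent.P353.AN.SGN.Stmt
import Vale.Agent.P353.AN.X2.FubA
import Vale.Agent.P353.AN.X2.FubE
import Vale.Agent.P353.AN.X2.Prod

/-! # P353, all `N`, block SGN: a zero mode symmetric under the exchange of two equal summands -/

open MeasureTheory Filter Topology Matrix
open scoped ContDiff

namespace Vale.Agent.P353.Z.AS

universe u

/-! ### the three splittings -/

section Spl

variable {d d1 d3 : ℕ}

/-- first copy against the rest -/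
def sa1 (e : (Fin d1 ⊕ Fin d1) ⊕ Fin d3 ≃ Fin d) : Spl d1 (d1 + d3) d :=
  (Equiv.sumCongr (Equiv.refl (Fin d1)) finSumFinEquiv.symm).trans
    ((Equiv.sumAssoc (Fin d1) (Fin d1) (Fin d3)).symm.trans e)

/-- exchanged copies -/
def saE (e : (Fin d1 ⊕ Fin d1) ⊕ Fin d3 ≃ Fin d) : (Fin d1 ⊕ Fin d1) ⊕ Fin d3 ≃ Fin d :=
  (Equiv.sumCongr (Equiv.sumComm (Fin d1) (Fin d1)) (Equiv.refl (Fin d3))).trans e

/-- third summand against the two copies -/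
def sa3 (e : (Fin d1 ⊕ Fin d1) ⊕ Fin d3 ≃ Fin d) : Spl d3 (d1 + d1) d :=
  (Equiv.sumCongr (Equiv.refl (Fin d3)) finSumFinEquiv.symm).trans ((Equiv.sumComm (Fin d3) (Fin d1 ⊕ Fin d1)).trans e)

variable (e : (Fin d1 ⊕ Fin d1) ⊕ Fin d3 ≃ Fin d)

theorem sa1_inl (A : Fin d1) : sa1 e (Sum.inl A) = e (Sum.inl (Sum.inl A)) := rfl

theorem sa1_r1 (A : Fin d1) : sa1 e (Sum.inr (finSumFinEquiv (Sum.inl A))) = e (Sum.inl (Sum.inr A)) := by
  simp [sa1]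

theorem sa1_r2 (A : Fin d3) : sa1 e (Sum.inr (finSumFinEquiv (Sum.inr A))) = e (Sum.inr A) := by
  simp [sa1]

theorem sa2_inl (A : Fin d1) : sa1 (saE e) (Sum.inl A) = e (Sum.inl (Sum.inr A)) := rfl

theorem sa2_r1 (A : Fin d1) : sa1 (saE e) (Sum.inr (finSumFinEquiv (Sum.inl A))) = e (Sum.inl (Sum.inl A)) := by
  simp [sa1, saE]

theorem sa2_r2 (A : Fin d3) : sa1 (saE e) (Sum.inr (finSumFinEquiv (Sum.inr A))) = e (Sum.inr A) := by
  simp [sa1, saE]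

theorem sa3_inl (A : Fin d3) : sa3 e (Sum.inl A) = e (Sum.inr A) := rfl

theorem sa3_r1 (A : Fin d1) : sa3 e (Sum.inr (finSumFinEquiv (Sum.inl A))) = e (Sum.inl (Sum.inl A)) := by
  simp [sa3]

theorem sa3_r2 (A : Fin d1) : sa3 e (Sum.inr (finSumFinEquiv (Sum.inr A))) = e (Sum.inl (Sum.inr A)) := by
  change e (Sum.inl (finSumFinEquiv.symm (finSumFinEquiv (Sum.inr A)))) = _
  rw [Equiv.symm_apply_apply]

theorem sa_tag1 (A : Fin (d1 + d3)) : tag e (sa1 e (Sum.inr A)) ≠ 0 := by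
  obtain ⟨p, rfl⟩ := finSumFinEquiv.surjective A
  rcases p with p | p
  · rw [sa1_r1]
    simp [tag]
  · rw [sa1_r2]
    simp [tag]

theorem sa_tag3 (A : Fin (d1 + d1)) : tag e (sa3 e (Sum.inr A)) ≠ 2 := by
  obtain ⟨p, rfl⟩ := finSumFinEquiv.surjective A
  rcases p with p | p
  · rw [sa3_r1]
    simp [tag]
  · rw [sa3_r2]
    simp [tag]

theorem sa_tag1' (A : Fin d) (h : tag e A ≠ 0) : ∃ B, A = sa1 e (Sum.inr B) := by
  obtain ⟨p, rfl⟩ := e.surjective A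
  rcases p with (p | p) | p
  · exact absurd (by simp [tag]) h
  · exact ⟨_, (sa1_r1 e p).symm⟩
  · exact ⟨_, (sa1_r2 e p).symm⟩

theorem sa_tag3' (A : Fin d) (h : tag e A ≠ 2) : ∃ B, A = sa3 e (Sum.inr B) := by
  obtain ⟨p, rfl⟩ := e.surjective A
  rcases p with (p | p) | p
  · exact ⟨_, (sa3_r1 e p).symm⟩
  · exact ⟨_, (sa3_r2 e p).symm⟩
  · exact absurd (by simp [tag]) h

/-- sums over all colours -/
theorem sa_sum {M : Type*} [AddCommMonoid M] (g : Fin d → M) :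
    ∑ A, g A = (∑ A, g (sa1 e (Sum.inl A))) + (∑ A, g (sa1 (saE e) (Sum.inl A))) + ∑ A, g (sa3 e (Sum.inl A)) := by
  rw [← e.sum_comp, Fintype.sum_sum_type, Fintype.sum_sum_type]
  rfl

/-- the point with given coordinates -/
noncomputable def saP (x1 x2 : Cfg d1) (x3 : Cfg d3) : Cfg d :=
  AD.cmb (sa1 e) x1 (AD.cmb (finSumFinEquiv : Spl d1 d3 (d1 + d3)) x2 x3)

theorem saP_1 (x1 x2 : Cfg d1) (x3 : Cfg d3) : AD.sp (sa1 e) (saP e x1 x2 x3) = x1 := AD.sq873_sp _ _ _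

theorem saP_2 (x1 x2 : Cfg d1) (x3 : Cfg d3) : AD.sp (sa1 (saE e)) (saP e x1 x2 x3) = x2 := by
  ext ⟨i, A⟩
  change saP e x1 x2 x3 (i, sa1 (saE e) (Sum.inl A)) = _
  rw [sa2_inl, ← sa1_r1, saP, AD.cmb_inr, AD.cmb_inl]

theorem saP_3 (x1 x2 : Cfg d1) (x3 : Cfg d3) : AD.sp (sa3 e) (saP e x1 x2 x3) = x3 := by
  ext ⟨i, A⟩
  change saP e x1 x2 x3 (i, sa3 e (Sum.inl A)) = _
  rw [sa3_inl, ← sa1_r2, saP, AD.cmb_inr, AD.cmb_inr]

theorem saP_eq (x : Cfg d) : saP e (AD.sp (sa1 e) x) (AD.sp (sa1 (saE e)) x) (AD.sp (sa3 e) x) = x := by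
  refine AD.cmb_ext (sa1 e) (fun i A => ?_) (fun i B => ?_)
  · rw [saP, AD.cmb_inl]
    rfl
  · rw [saP, AD.cmb_inr]
    obtain ⟨p, rfl⟩ := finSumFinEquiv.surjective B
    rcases p with p | p
    · rw [AD.cmb_inl, sa1_r1]
      rfl
    · rw [AD.cmb_inr, sa1_r2]
      rfl

theorem saP_mp : MeasurePreserving (fun p : Cfg d1 × (Cfg d1 × Cfg d3) => saP e p.1 p.2.1 p.2.2)
    (volume.prod (volume.prod volume)) volume :=
  (AD.cmb_mp (sa1 e)).comp ((MeasurePreserving.id (volume : Measure (Cfg d1))).prod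
    (AD.cmb_mp (finSumFinEquiv : Spl d1 d3 (d1 + d3))))

theorem saP_cont : Continuous (fun p : Cfg d1 × (Cfg d1 × Cfg d3) => saP e p.1 p.2.1 p.2.2) := by
  have h1 := AX2.fu_continuous (sa1 e)
  have h2 := AX2.fu_continuous (finSumFinEquiv : Spl d1 d3 (d1 + d3))
  exact h1.comp (continuous_fst.prodMk (h2.comp continuous_snd))

theorem saP_me : MeasurableEmbedding (fun p : Cfg d1 × (Cfg d1 × Cfg d3) => saP e p.1 p.2.1 p.2.2) := by
  refine (saP_cont e).measurableEmbedding ?_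
  intro p q h
  have h1 := congrArg (AD.sp (sa1 e)) h
  have h2 := congrArg (AD.sp (sa1 (saE e))) h
  have h3 := congrArg (AD.sp (sa3 e)) h
  simp only [saP_1, saP_2, saP_3] at h1 h2 h3
  exact Prod.ext h1 (Prod.ext h2 h3)

/-- Tonelli for product functions -/
theorem saP_int (α β : Cfg d1 → ℝ) (γ : Cfg d3 → ℝ) :
    ∫ x : Cfg d, α (AD.sp (sa1 e) x) * (β (AD.sp (sa1 (saE e)) x) * γ (AD.sp (sa3 e) x)) =
      (∫ y, α y) * ((∫ y, β y) * ∫ y, γ y) := by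
  rw [← (saP_mp e).integral_comp (saP_me e)]
  simp only [saP_1, saP_2, saP_3]
  rw [integral_prod_mul (μ := (volume : Measure (Cfg d1))) (ν := (volume : Measure (Cfg d1)).prod (volume : Measure (Cfg d3)))
    α (fun p => β p.1 * γ p.2), integral_prod_mul]

theorem saP_intg {α β : Cfg d1 → ℝ} {γ : Cfg d3 → ℝ} (hα : Integrable α) (hβ : Integrable β) (hγ : Integrable γ) :
    Integrable fun x : Cfg d => α (AD.sp (sa1 e) x) * (β (AD.sp (sa1 (saE e)) x) * γ (AD.sp (sa3 e) x)) := by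
  rw [← (saP_mp e).integrable_comp_emb (saP_me e)]
  have h := Integrable.mul_prod hα (Integrable.mul_prod hβ hγ)
  refine h.congr (Eventually.of_forall fun p => ?_)
  simp only [Function.comp_apply, saP_1, saP_2, saP_3]

end Spl

/-! ### supercharge and gauge generators in the three groups -/

section Op

variable {d d1 d3 : ℕ} {E : Type*} [NormedAddCommGroup E] [InnerProductSpace ℂ E]

theorem sa_Q {e : (Fin d1 ⊕ Fin d1) ⊕ Fin d3 ≃ Fin d} {S : Setup d E} {S1 S2 : Setup d1 E} {S3 : Setup d3 E}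
    (h1 : AX2.FuS S S1 (sa1 e)) (h2 : AX2.FuS S S2 (sa1 (saE e))) (h3 : AX2.FuS S S3 (sa3 e)) (β : Fin 16) {u : Cfg d → E}
    (hu : ContDiff ℝ ∞ u) (x : Cfg d) :
    S.Q β u x = AX2.fuQ S1 (sa1 e) β u x + AX2.fuQ S2 (sa1 (saE e)) β u x + AX2.fuQ S3 (sa3 e) β u x := by
  have hFF : ∀ {d' d'' : ℕ} (ψ : Spl d' d'' d) (S' : Setup d' E) (_ : AX2.FuS S S' ψ) (A : Fin d') (i j : Fin 9),
      S'.FF A i j (AD.sp ψ x) = S.FF (ψ (Sum.inl A)) i j x := by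
    intro d' d'' ψ S' h A i j
    have := AX2.fu_FF h A i j (AD.sp ψ x) (AD.zp ψ x)
    rw [AD.sq873_cmb] at this
    exact this.symm
  have key : ∀ {d' d'' : ℕ} (ψ : Spl d' d'' d) (S' : Setup d' E) (_ : AX2.FuS S S' ψ),
      AX2.fuQ S' ψ β u x = ∑ A, ((-Complex.I) • ∑ i, S.vec (S.g i) (ψ (Sum.inl A)) β (pd i (ψ (Sum.inl A)) u x) +
        (1 / 2 : ℂ) • ∑ i, ∑ j, ((S.FF (ψ (Sum.inl A)) i j x : ℝ) : ℂ) • S.vec (S.g2 i j) (ψ (Sum.inl A)) β (u x)) := by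
    intro d' d'' ψ S' h
    have hg2 : ∀ i j, S'.g2 i j = S.g2 i j := by
      intro i j
      unfold CS.g2
      rw [h.g]
    rw [AX2.fuQ_eq S' ψ β hu, Finset.sum_add_distrib, ← Finset.smul_sum, ← Finset.smul_sum, Finset.sum_comm]
    unfold Setup.W
    simp only [_root_.smul_apply, _root_.sum_apply, hFF ψ S' h, AX2.fu_vec h, hg2, h.g]
  rw [key _ _ h1, key _ _ h2, key _ _ h3, ← sa_sum e (fun A => (-Complex.I) • ∑ i, S.vec (S.g i) A β (pd i A u x) +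
        (1 / 2 : ℂ) • ∑ i, ∑ j, ((S.FF A i j x : ℝ) : ℂ) • S.vec (S.g2 i j) A β (u x))]
  rw [Finset.sum_add_distrib, ← Finset.smul_sum, ← Finset.smul_sum, Finset.sum_comm]
  unfold Setup.Q Setup.W
  simp only [_root_.smul_apply, _root_.sum_apply]

/-- smooth complex linear operators applied to smooth functions -/
theorem sa_cda {X V W : Type*} [NormedAddCommGroup X] [NormedSpace ℝ X] [NormedAddCommGroup V] [NormedSpace ℂ V]
    [NormedAddCommGroup W] [NormedSpace ℂ W] {A : X → V →L[ℂ] W} (hA : ContDiff ℝ ∞ A) {u : X → V} (hu : ContDiff ℝ ∞ u) :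
    ContDiff ℝ ∞ fun x => A x (u x) :=
  ((isBoundedBilinearMap_apply (𝕜 := ℂ) (E := V) (F := W)).contDiff.restrict_scalars ℝ).comp (hA.prodMk hu)

/-- a trilinear map in finite dimension is smooth -/
theorem sa_tri [FiniteDimensional ℂ E] (τ : E →ₗ[ℂ] E →ₗ[ℂ] E →ₗ[ℂ] E) :
    ContDiff ℝ ∞ fun p : E × E × E => τ p.1 p.2.1 p.2.2 := by
  let c3 : (E →ₗ[ℂ] E) →ₗ[ℂ] (E →L[ℂ] E) := (LinearMap.toContinuousLinearMap (𝕜 := ℂ) (E := E) (F' := E)).toLinearMap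
  let τa : E →ₗ[ℂ] E →ₗ[ℂ] (E →L[ℂ] E) := τ.compr₂ c3
  let c2 : (E →ₗ[ℂ] (E →L[ℂ] E)) →ₗ[ℂ] (E →L[ℂ] E →L[ℂ] E) :=
    (LinearMap.toContinuousLinearMap (𝕜 := ℂ) (E := E) (F' := E →L[ℂ] E)).toLinearMap
  let τb : E →L[ℂ] E →L[ℂ] E →L[ℂ] E := LinearMap.toContinuousLinearMap (c2 ∘ₗ τa)
  have h : (fun p : E × E × E => τ p.1 p.2.1 p.2.2) = fun p => τb p.1 p.2.1 p.2.2 := rfl
  rw [h]
  refine sa_cda (sa_cda (sa_cda contDiff_const contDiff_fst) ?_) ?_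
  · exact contDiff_fst.comp contDiff_snd
  · exact contDiff_snd.comp contDiff_snd

end Op

/-! ### the exchange -/

section Exch

variable {d d1 d3 : ℕ} (e : (Fin d1 ⊕ Fin d1) ⊕ Fin d3 ≃ Fin d)

theorem saP_inv_mp : MeasurePreserving (fun x : Cfg d => (AD.sp (sa1 e) x, (AD.sp (sa1 (saE e)) x, AD.sp (sa3 e) x)))
    volume (volume.prod (volume.prod volume)) := by
  have hm : Measurable (fun x : Cfg d => (AD.sp (sa1 e) x, (AD.sp (sa1 (saE e)) x, AD.sp (sa3 e) x))) := by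
    have h1 := (AX2.fu_contDiff_sp (sa1 e)).continuous.measurable
    have h2 := (AX2.fu_contDiff_sp (sa1 (saE e))).continuous.measurable
    have h3 := (AX2.fu_contDiff_sp (sa3 e)).continuous.measurable
    exact h1.prodMk (h2.prodMk h3)
  refine ⟨hm, ?_⟩
  rw [← (saP_mp e).map_eq, Measure.map_map hm (saP_mp e).measurable]
  have : ((fun x : Cfg d => (AD.sp (sa1 e) x, (AD.sp (sa1 (saE e)) x, AD.sp (sa3 e) x))) ∘
      fun p : Cfg d1 × (Cfg d1 × Cfg d3) => saP e p.1 p.2.1 p.2.2) = id := by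
    funext p
    simp only [Function.comp_apply, saP_1, saP_2, saP_3, id_eq]
  rw [this, Measure.map_id]

theorem sa_ae1 {R : Cfg d1 → Prop} (h : ∀ᵐ y ∂(volume : Measure (Cfg d1)), R y) :
    ∀ᵐ x ∂(volume : Measure (Cfg d)), R (AD.sp (sa1 e) x) :=
  (Measure.quasiMeasurePreserving_fst.comp (saP_inv_mp e).quasiMeasurePreserving).ae h

theorem sa_ae2 {R : Cfg d1 → Prop} (h : ∀ᵐ y ∂(volume : Measure (Cfg d1)), R y) :
    ∀ᵐ x ∂(volume : Measure (Cfg d)), R (AD.sp (sa1 (saE e)) x) :=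
  ((Measure.quasiMeasurePreserving_fst.comp Measure.quasiMeasurePreserving_snd).comp
    (saP_inv_mp e).quasiMeasurePreserving).ae h

theorem saE_saE : saE (saE e) = e := by
  ext p
  rcases p with (p | p) | p <;> rfl

theorem sa_ext {x y : Cfg d} (h1 : AD.sp (sa1 e) x = AD.sp (sa1 e) y) (h2 : AD.sp (sa1 (saE e)) x = AD.sp (sa1 (saE e)) y)
    (h3 : AD.sp (sa3 e) x = AD.sp (sa3 e) y) : x = y := by
  rw [← saP_eq e x, ← saP_eq e y, h1, h2, h3]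

theorem sa_ro (x : Cfg d) (i : Fin 9) (p : (Fin d1 ⊕ Fin d1) ⊕ Fin d3) :
    ro (swO e) x (i, e p) = x (i, e (Sum.map Sum.swap id p)) := by
  change ∑ B, swO e (e p) B * x (i, B) = _
  rw [Finset.sum_eq_single (e (Sum.map Sum.swap id p))]
  · have : swO e (e p) (e (Sum.map Sum.swap id p)) = 1 := by
      unfold swO
      rw [Matrix.of_apply, if_pos]
      rw [Equiv.symm_apply_apply]
      rcases p with (p | p) | p <;> rfl
    rw [this, one_mul]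
  · intro B _ hB
    have : swO e (e p) B = 0 := by
      unfold swO
      rw [Matrix.of_apply, if_neg]
      intro h
      apply hB
      have h1 := e.injective h
      rw [h1]
      obtain ⟨q, rfl⟩ := e.surjective B
      rw [Equiv.symm_apply_apply]
      rcases q with (q | q) | q <;> rfl
    rw [this, zero_mul]
  · simp

theorem sa_ro1 (x : Cfg d) : AD.sp (sa1 e) (ro (swO e) x) = AD.sp (sa1 (saE e)) x := by
  ext ⟨i, A⟩
  exact sa_ro e x i (Sum.inl (Sum.inl A))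

theorem sa_ro2 (x : Cfg d) : AD.sp (sa1 (saE e)) (ro (swO e) x) = AD.sp (sa1 e) x := by
  ext ⟨i, A⟩
  exact sa_ro e x i (Sum.inl (Sum.inr A))

theorem sa_ro3 (x : Cfg d) : AD.sp (sa3 e) (ro (swO e) x) = AD.sp (sa3 e) x := by
  ext ⟨i, A⟩
  exact sa_ro e x i (Sum.inr A)

theorem sa_ro_mp : MeasurePreserving (ro (swO e) : Cfg d → Cfg d) volume volume := by
  have h := (saP_mp (saE e)).comp (saP_inv_mp e)
  have h2 : (ro (swO e) : Cfg d → Cfg d) = ((fun p : Cfg d1 × (Cfg d1 × Cfg d3) => saP (saE e) p.1 p.2.1 p.2.2) ∘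
      fun x : Cfg d => (AD.sp (sa1 e) x, (AD.sp (sa1 (saE e)) x, AD.sp (sa3 e) x))) := by
    funext x
    refine sa_ext e ?_ ?_ ?_
    · rw [sa_ro1]
      have := saP_2 (saE e) (AD.sp (sa1 e) x) (AD.sp (sa1 (saE e)) x) (AD.sp (sa3 e) x)
      rw [saE_saE] at this
      exact this.symm
    · rw [sa_ro2]
      exact (saP_1 (saE e) (AD.sp (sa1 e) x) (AD.sp (sa1 (saE e)) x) (AD.sp (sa3 e) x)).symm
    · rw [sa_ro3]
      exact (saP_3 (saE e) (AD.sp (sa1 e) x) (AD.sp (sa1 (saE e)) x) (AD.sp (sa3 e) x)).symm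
  rw [h2]
  exact h

theorem sa_slc {m m' n n' : ℕ} (ψ : Spl m m' d) (ψ' : Spl n n' d) (h : ∀ A, ∃ B, ψ' (Sum.inl A) = ψ (Sum.inr B))
    (y : Cfg m) (x : Cfg d) : AD.sp ψ' (AD.cmb ψ y (AD.zp ψ x)) = AD.sp ψ' x := by
  ext ⟨i, A⟩
  obtain ⟨B, hB⟩ := h A
  change AD.cmb ψ y (AD.zp ψ x) (i, ψ' (Sum.inl A)) = x (i, ψ' (Sum.inl A))
  rw [hB, AD.cmb_inr]
  rfl

end Exch

/-! ### product functions -/

section Trf

variable {d d1 d3 : ℕ} {E : Type*} [NormedAddCommGroup E] [InnerProductSpace ℂ E]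

/-- product function -/
noncomputable def trf (e : (Fin d1 ⊕ Fin d1) ⊕ Fin d3 ≃ Fin d) (τ : E →ₗ[ℂ] E →ₗ[ℂ] E →ₗ[ℂ] E) {V1 V3 : Submodule ℂ E}
    (a b : Cfg d1 → V1) (c : Cfg d3 → V3) (x : Cfg d) : E :=
  τ (a (AD.sp (sa1 e) x)) (b (AD.sp (sa1 (saE e)) x)) (c (AD.sp (sa3 e) x))

variable {e : (Fin d1 ⊕ Fin d1) ⊕ Fin d3 ≃ Fin d} {τ : E →ₗ[ℂ] E →ₗ[ℂ] E →ₗ[ℂ] E} {V1 V3 : Submodule ℂ E}

/-- norm property -/
def TrN (τ : E →ₗ[ℂ] E →ₗ[ℂ] E →ₗ[ℂ] E) (V1 V3 : Submodule ℂ E) : Prop :=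
  ∀ (u u' : V1) (k : V3), ‖τ u u' k‖ = ‖u‖ * ‖u'‖ * ‖k‖

theorem trf_sq (hn : TrN τ V1 V3) (a b : Cfg d1 → V1) (c : Cfg d3 → V3) (x : Cfg d) :
    ‖trf e τ a b c x‖ ^ 2 = ‖a (AD.sp (sa1 e) x)‖ ^ 2 * (‖b (AD.sp (sa1 (saE e)) x)‖ ^ 2 * ‖c (AD.sp (sa3 e) x)‖ ^ 2) := by
  unfold trf
  rw [hn]
  ring

theorem trf_int (hn : TrN τ V1 V3) (a b : Cfg d1 → V1) (c : Cfg d3 → V3) :
    ∫ x : Cfg d, ‖trf e τ a b c x‖ ^ 2 = (∫ y, ‖a y‖ ^ 2) * ((∫ y, ‖b y‖ ^ 2) * ∫ y, ‖c y‖ ^ 2) := by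
  simp only [trf_sq hn]
  exact saP_int e (fun y => ‖a y‖ ^ 2) (fun y => ‖b y‖ ^ 2) (fun y => ‖c y‖ ^ 2)

theorem trf_intg (hn : TrN τ V1 V3) {a b : Cfg d1 → V1} {c : Cfg d3 → V3} (ha : Integrable fun y => ‖a y‖ ^ 2)
    (hb : Integrable fun y => ‖b y‖ ^ 2) (hc : Integrable fun y => ‖c y‖ ^ 2) :
    Integrable fun x : Cfg d => ‖trf e τ a b c x‖ ^ 2 := by
  simp only [trf_sq hn]
  exact saP_intg e ha hb hc

theorem trf_sm [FiniteDimensional ℂ E] {a b : Cfg d1 → V1} {c : Cfg d3 → V3} (ha : StronglyMeasurable a)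
    (hb : StronglyMeasurable b) (hc : StronglyMeasurable c) : StronglyMeasurable (trf e τ a b c) := by
  have h1 := (AX2.fu_contDiff_sp (sa1 e)).continuous.measurable
  have h2 := (AX2.fu_contDiff_sp (sa1 (saE e))).continuous.measurable
  have h3 := (AX2.fu_contDiff_sp (sa3 e)).continuous.measurable
  have k1 : StronglyMeasurable fun x : Cfg d => ((a (AD.sp (sa1 e) x) : V1) : E) :=
    continuous_subtype_val.comp_stronglyMeasurable (ha.comp_measurable h1)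
  have k2 : StronglyMeasurable fun x : Cfg d => ((b (AD.sp (sa1 (saE e)) x) : V1) : E) :=
    continuous_subtype_val.comp_stronglyMeasurable (hb.comp_measurable h2)
  have k3 : StronglyMeasurable fun x : Cfg d => ((c (AD.sp (sa3 e) x) : V3) : E) :=
    continuous_subtype_val.comp_stronglyMeasurable (hc.comp_measurable h3)
  exact (sa_tri τ).continuous.comp_stronglyMeasurable (k1.prodMk (k2.prodMk k3))

theorem trf_tst [FiniteDimensional ℂ E] {a b : Cfg d1 → V1} {c : Cfg d3 → V3} (ha : Setup.Tst a) (hb : Setup.Tst b)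
    (hc : Setup.Tst c) : Setup.Tst (trf e τ a b c) := by
  have v1 : ContDiff ℝ ∞ fun v : V1 => (v : E) := (V1.subtypeL.restrictScalars ℝ).contDiff
  have v3 : ContDiff ℝ ∞ fun v : V3 => (v : E) := (V3.subtypeL.restrictScalars ℝ).contDiff
  constructor
  · exact (sa_tri τ).comp ((v1.comp (ha.1.comp (AX2.fu_contDiff_sp (sa1 e)))).prodMk
      ((v1.comp (hb.1.comp (AX2.fu_contDiff_sp (sa1 (saE e))))).prodMk (v3.comp (hc.1.comp (AX2.fu_contDiff_sp (sa3 e))))))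
  · refine HasCompactSupport.intro (K := (fun p : Cfg d1 × (Cfg d1 × Cfg d3) => saP e p.1 p.2.1 p.2.2) ''
      (tsupport a ×ˢ (tsupport b ×ˢ tsupport c))) ((ha.2.isCompact.prod (hb.2.isCompact.prod hc.2.isCompact)).image
        (saP_cont e)) fun x hx => ?_
    unfold trf
    by_cases h1 : AD.sp (sa1 e) x ∈ tsupport a
    · by_cases h2 : AD.sp (sa1 (saE e)) x ∈ tsupport b
      · by_cases h3 : AD.sp (sa3 e) x ∈ tsupport c
        · exact absurd ⟨(AD.sp (sa1 e) x, (AD.sp (sa1 (saE e)) x, AD.sp (sa3 e) x)), ⟨h1, h2, h3⟩, saP_eq e x⟩ hx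
        · rw [image_eq_zero_of_notMem_tsupport h3, Submodule.coe_zero, map_zero]
      · rw [image_eq_zero_of_notMem_tsupport h2, Submodule.coe_zero, map_zero, LinearMap.zero_apply]
    · rw [image_eq_zero_of_notMem_tsupport h1, Submodule.coe_zero, map_zero, LinearMap.zero_apply, LinearMap.zero_apply]

theorem trf_s1 (a b : Cfg d1 → V1) (c : Cfg d3 → V3) (x : Cfg d) (y : Cfg d1) :
    trf e τ a b c (AD.cmb (sa1 e) y (AD.zp (sa1 e) x)) = τ (a y) (b (AD.sp (sa1 (saE e)) x)) (c (AD.sp (sa3 e) x)) := by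
  unfold trf
  rw [AD.sq873_sp, sa_slc _ _ fun A => ⟨_, (sa1_r1 e A).symm⟩, sa_slc _ _ fun A => ⟨_, (sa1_r2 e A).symm⟩]

theorem trf_s2 (a b : Cfg d1 → V1) (c : Cfg d3 → V3) (x : Cfg d) (y : Cfg d1) :
    trf e τ a b c (AD.cmb (sa1 (saE e)) y (AD.zp (sa1 (saE e)) x)) =
      τ (a (AD.sp (sa1 e) x)) (b y) (c (AD.sp (sa3 e) x)) := by
  unfold trf
  rw [AD.sq873_sp, sa_slc _ _ fun A => ⟨_, (sa2_r1 e A).symm⟩, sa_slc _ _ fun A => ⟨_, (sa2_r2 e A).symm⟩]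

theorem trf_s3 (a b : Cfg d1 → V1) (c : Cfg d3 → V3) (x : Cfg d) (y : Cfg d3) :
    trf e τ a b c (AD.cmb (sa3 e) y (AD.zp (sa3 e) x)) =
      τ (a (AD.sp (sa1 e) x)) (b (AD.sp (sa1 (saE e)) x)) (c y) := by
  unfold trf
  rw [AD.sq873_sp, sa_slc _ _ fun A => ⟨_, (sa3_r1 e A).symm⟩, sa_slc _ _ fun A => ⟨_, (sa3_r2 e A).symm⟩]

end Trf

end Vale.Agent.P353.Z.AS
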